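import Mathlib
import Vale.Agent.P262.H44.Tree

/-!
# P262, scheme S1: the functional nested star theorem with a weight

`RegW Θ h0 hT h1` : as `RegG` of `Vale.Agent.P262.H44.RegG`, but log-concavity and the mixed
Prékopa–Leindler condition are only required for the products with the Gaussian density
`gd x = exp (-‖x‖²/2)`. So `h0` may contain a weight `ω` with `ω * gd` log-concave.
-/

set_option linter.all false

open MeasureTheory Set Filter ProbabilityTheory
open scoped ENNReal NNReal Topology RealInnerProductSpace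

namespace Vale.Agent.P262.H606

open Vale.Agent.P262.H493 hiding fib
open Vale.Agent.P262.H395
open Vale.Agent.P262.H44

variable {E : Type*} [NormedAddCommGroup E] [InnerProductSpace ℝ E]

/-- the (non-normalised) Gaussian density -/
noncomputable def gd (x : E) : ℝ≥0∞ := ENNReal.ofReal (Real.exp (-‖x‖ ^ 2 / 2))

lemma gd_ne_top (x : E) : gd x ≠ ⊤ := ENNReal.ofReal_ne_top

lemma gd_ne_zero (x : E) : gd x ≠ 0 := by
  unfold gd
  simp [Real.exp_pos]

lemma continuous_gd : Continuous (gd : E → ℝ≥0∞) := by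
  unfold gd
  exact ENNReal.continuous_ofReal.comp (by fun_prop)

lemma gd_lc : LogConc (gd : E → ℝ≥0∞) := by
  intro x y s t hs ht hst
  unfold gd
  rw [ENNReal.ofReal_rpow_of_pos (Real.exp_pos _), ENNReal.ofReal_rpow_of_pos (Real.exp_pos _),
    ← ENNReal.ofReal_mul (by positivity), ← Real.exp_mul, ← Real.exp_mul, ← Real.exp_add]
  apply ENNReal.ofReal_le_ofReal
  apply Real.exp_le_exp.mpr
  have h1 : ‖s • x + t • y‖ ^ 2 ≤ s * ‖x‖ ^ 2 + t * ‖y‖ ^ 2 := by
    have h2 : ‖s • x + t • y‖ ≤ s * ‖x‖ + t * ‖y‖ := by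
      refine (norm_add_le _ _).trans (le_of_eq ?_)
      rw [norm_smul, norm_smul, Real.norm_of_nonneg hs.le, Real.norm_of_nonneg ht.le]
    have h3 := pow_le_pow_left₀ (norm_nonneg _) h2 2
    have h4 : (s * ‖x‖ + t * ‖y‖) ^ 2 ≤ s * ‖x‖ ^ 2 + t * ‖y‖ ^ 2 := by
      have ht' : t = 1 - s := by linarith
      subst ht'
      nlinarith [mul_pos hs ht, sq_nonneg (‖x‖ - ‖y‖)]
    linarith
  linarith

variable [FiniteDimensional ℝ E] [MeasurableSpace E] [BorelSpace E]

/-- regular triples on `E`, relative to the Gaussian measure, weights allowed -/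
structure RegW (Θ : ℝ) (h0 hT h1 : E → ℝ≥0∞) : Prop where
  m0 : Measurable h0
  mT : Measurable hT
  m1 : Measurable h1
  le1 : ∀ x, h1 x ≤ hT x
  leT : ∀ x, hT x ≤ h0 x
  lc : LogConc fun x => gd x * h0 x
  mix : ∀ x y, (gd x * h0 x) ^ (1 - Θ) * (gd y * h1 y) ^ Θ ≤
    gd ((1 - Θ) • x + Θ • y) * hT ((1 - Θ) • x + Θ • y)
  usc : UpperSemicontinuous h1
  bdd : ∃ M : ℝ≥0∞, M ≠ ⊤ ∧ ∀ x, h0 x ≤ M

lemma gd_split (W : Submodule ℝ E) (z : E) :
    gd z = gd (W.starProjection z) * gd (z - W.starProjection z) := by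
  unfold gd
  rw [← ENNReal.ofReal_mul (Real.exp_pos _).le, ← Real.exp_add]
  congr 2
  have h3 : ⟪W.starProjection z, z - W.starProjection z⟫ = 0 := by
    rw [inner_sub_right, Submodule.inner_starProjection_left_eq_right,
      Submodule.inner_starProjection_left_eq_right]
    rw [proj_proj, sub_self]
  have h4 := norm_add_sq_real (W.starProjection z) (z - W.starProjection z)
  rw [h3, add_sub_cancel] at h4
  linarith

lemma gd_mix (W : Submodule ℝ E) (x z : E) :
    gd (W.starProjection x) * gd z =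
      gd (W.starProjection z) * gd (Vale.Agent.P262.H395.mix W x z) := by
  rw [gd_split W z, gd_split W (Vale.Agent.P262.H395.mix W x z), starProjection_mix]
  have : Vale.Agent.P262.H395.mix W x z - W.starProjection x = z - W.starProjection z := by
    unfold Vale.Agent.P262.H395.mix
    abel
  rw [this]
  ring

/-- restriction of a mixed condition to a fibre -/
lemma fibre_cond {f1 f2 f3 : E → ℝ≥0∞} {s t : ℝ} (hs : 0 < s) (ht : 0 < t) (hst : s + t = 1)
    (h : ∀ x y, (gd x * f1 x) ^ s * (gd y * f2 y) ^ t ≤ gd (s • x + t • y) * f3 (s • x + t • y))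
    (W : Submodule ℝ E) (x z z' : E) :
    (gd z * f1 (Vale.Agent.P262.H395.mix W x z)) ^ s *
      (gd z' * f2 (Vale.Agent.P262.H395.mix W x z')) ^ t ≤
    gd (s • z + t • z') * f3 (Vale.Agent.P262.H395.mix W x (s • z + t • z')) := by
  set g := gd (W.starProjection x) with hg
  have hg0 : g ≠ 0 := gd_ne_zero _
  have hgt : g ≠ ⊤ := gd_ne_top _
  have key : g * ((gd z * f1 (Vale.Agent.P262.H395.mix W x z)) ^ s *
      (gd z' * f2 (Vale.Agent.P262.H395.mix W x z')) ^ t) ≤
      g * (gd (s • z + t • z') * f3 (Vale.Agent.P262.H395.mix W x (s • z + t • z'))) := by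
    have e1 : g * ((gd z * f1 (Vale.Agent.P262.H395.mix W x z)) ^ s *
        (gd z' * f2 (Vale.Agent.P262.H395.mix W x z')) ^ t) =
        (g * gd z * f1 (Vale.Agent.P262.H395.mix W x z)) ^ s *
        (g * gd z' * f2 (Vale.Agent.P262.H395.mix W x z')) ^ t := by
      rw [mul_assoc g, mul_assoc g, ENNReal.mul_rpow_of_nonneg g _ hs.le,
        ENNReal.mul_rpow_of_nonneg g _ ht.le]
      nth_rewrite 1 [← rpow_mul_rpow_self (x := g) hs ht hst]
      ring
    have e2 : g * (gd (s • z + t • z') * f3 (Vale.Agent.P262.H395.mix W x (s • z + t • z'))) =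
        gd (W.starProjection (s • z + t • z')) *
        (gd (Vale.Agent.P262.H395.mix W x (s • z + t • z')) *
          f3 (Vale.Agent.P262.H395.mix W x (s • z + t • z'))) := by
      rw [← mul_assoc, gd_mix, mul_assoc]
    have g1 : g * gd z = _ := gd_mix W x z
    have g2 : g * gd z' = _ := gd_mix W x z'
    rw [e1, e2, g1, g2, mul_assoc, mul_assoc, ENNReal.mul_rpow_of_nonneg _ _ hs.le,
      ENNReal.mul_rpow_of_nonneg _ _ ht.le]
    have h1 := gd_lc (W.starProjection z) (W.starProjection z') s t hs ht hst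
    rw [← map_smul, ← map_smul, ← map_add] at h1
    have h2 := h (Vale.Agent.P262.H395.mix W x z) (Vale.Agent.P262.H395.mix W x z')
    rw [mix_lin W x s t hst] at h2
    calc _ = (gd (W.starProjection z) ^ s * gd (W.starProjection z') ^ t) *
          ((gd (Vale.Agent.P262.H395.mix W x z) * f1 (Vale.Agent.P262.H395.mix W x z)) ^ s *
          (gd (Vale.Agent.P262.H395.mix W x z') * f2 (Vale.Agent.P262.H395.mix W x z')) ^ t) := by
            ring
      _ ≤ _ := mul_le_mul' h1 h2
  exact (ENNReal.mul_le_mul_iff_right hg0 hgt).mp key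

/-- restriction to a fibre -/
theorem RegW.comp_mix {Θ : ℝ} (hΘ : 0 < Θ) (hΘ1 : Θ < 1) {h0 hT h1 : E → ℝ≥0∞}
    (h : RegW Θ h0 hT h1) (W : Submodule ℝ E)
    (x : E) : RegW Θ (fun z => h0 (Vale.Agent.P262.H395.mix W x z))
      (fun z => hT (Vale.Agent.P262.H395.mix W x z))
      (fun z => h1 (Vale.Agent.P262.H395.mix W x z)) where
  m0 := h.m0.comp (measurable_mix_right W x)
  mT := h.mT.comp (measurable_mix_right W x)
  m1 := h.m1.comp (measurable_mix_right W x)
  le1 := fun z => h.le1 _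
  leT := fun z => h.leT _
  lc := by
    intro z z' s t hs ht hst
    exact fibre_cond hs ht hst (fun a b => h.lc a b s t hs ht hst) W x z z'
  mix := by
    intro z z'
    exact fibre_cond (by linarith) hΘ (by ring) h.mix W x z z'
  usc := by
    have hc : Continuous fun z => Vale.Agent.P262.H395.mix W x z := by
      unfold Vale.Agent.P262.H395.mix
      fun_prop
    exact usc_comp h.usc hc
  bdd := by
    obtain ⟨M, hM, hb⟩ := h.bdd
    exact ⟨M, hM, fun z => hb _⟩

/-- multiplication by the indicator of a closed convex set -/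
theorem RegW.indicator {Θ : ℝ} (hΘ : 0 < Θ) (hΘ1 : Θ < 1) {h0 hT h1 : E → ℝ≥0∞}
    (h : RegW Θ h0 hT h1) {C : Set E} (hC : IsClosed C) (hCc : Convex ℝ C) :
    RegW Θ (C.indicator h0) (C.indicator hT) (C.indicator h1) where
  m0 := h.m0.indicator hC.measurableSet
  mT := h.mT.indicator hC.measurableSet
  m1 := h.m1.indicator hC.measurableSet
  le1 := fun x => indicator_le_indicator (h.le1 x)
  leT := fun x => indicator_le_indicator (h.leT x)
  lc := by
    intro x y s t hs ht hst
    show (gd x * C.indicator h0 x) ^ s * (gd y * C.indicator h0 y) ^ t ≤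
      gd (s • x + t • y) * C.indicator h0 (s • x + t • y)
    by_cases hx : x ∈ C
    · by_cases hy : y ∈ C
      · rw [indicator_of_mem hx, indicator_of_mem hy,
          indicator_of_mem (hCc hx hy hs.le ht.le hst)]
        exact h.lc x y s t hs ht hst
      · rw [indicator_of_notMem hy, mul_zero (gd y), ENNReal.zero_rpow_of_pos ht, mul_zero]
        exact bot_le
    · rw [indicator_of_notMem hx, mul_zero (gd x), ENNReal.zero_rpow_of_pos hs, zero_mul]
      exact bot_le
  mix := by
    intro x y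
    have h1Θ : 0 < 1 - Θ := by linarith
    by_cases hx : x ∈ C
    · by_cases hy : y ∈ C
      · rw [indicator_of_mem hx, indicator_of_mem hy,
          indicator_of_mem (hCc hx hy h1Θ.le hΘ.le (by ring))]
        exact h.mix x y
      · rw [indicator_of_notMem hy, mul_zero (gd y), ENNReal.zero_rpow_of_pos hΘ, mul_zero]
        exact bot_le
    · rw [indicator_of_notMem hx, mul_zero (gd x), ENNReal.zero_rpow_of_pos h1Θ, zero_mul]
      exact bot_le
  usc := by
    intro x r hr
    by_cases hx : x ∈ C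
    · rw [indicator_of_mem hx] at hr
      filter_upwards [h.usc x r hr] with y hy
      exact lt_of_le_of_lt (indicator_le_self' (fun _ _ => bot_le) y) hy
    · rw [indicator_of_notMem hx] at hr
      filter_upwards [hC.isOpen_compl.mem_nhds hx] with y hy
      rw [indicator_of_notMem hy]
      exact hr
  bdd := by
    obtain ⟨M, hM, hb⟩ := h.bdd
    exact ⟨M, hM, fun z => (indicator_le_self' (fun _ _ => bot_le) z).trans (hb z)⟩

/-! ### coordinates -/

lemma norm_SC {N : ℕ} (c : OrthonormalBasis (Fin N) ℝ E) (y : Fin N → ℝ) :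
    ‖SC c y‖ ^ 2 = ∑ j, y j ^ 2 := by
  have h1 := c.sum_sq_norm_inner_right (SC c y)
  rw [← h1]
  refine Finset.sum_congr rfl fun j _ => ?_
  have : ⟪c j, SC c y⟫ = y j := by
    unfold SC
    rw [inner_sum]
    simp only [inner_smul_right]
    simp [orthonormal_iff_ite.mp c.orthonormal]
  rw [this, Real.norm_eq_abs, sq_abs]

lemma PP_gd {N : ℕ} (c : OrthonormalBasis (Fin N) ℝ E) (y : Fin N → ℝ) :
    PP y = ENNReal.ofReal ((Real.sqrt (2 * Real.pi))⁻¹) ^ N * gd (SC c y) := by
  rw [PP_eq]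
  simp_rw [gpdf_eq]
  rw [Finset.prod_mul_distrib]
  congr 1
  · simp
  · unfold ee gd
    rw [← ENNReal.ofReal_prod_of_nonneg fun i _ => (Real.exp_pos _).le, ← Real.exp_sum, norm_SC]
    congr 2
    rw [← Finset.sum_div, Finset.sum_neg_distrib]

/-- coordinate form of a regular triple -/
theorem RegW.coord {Θ : ℝ} (hΘ : 0 < Θ) (hΘ1 : Θ < 1) {h0 hT h1 : E → ℝ≥0∞}
    (h : RegW Θ h0 hT h1) {N : ℕ}
    (c : OrthonormalBasis (Fin N) ℝ E) :
    Reg Θ (fun y => PP y * h0 (SC c y)) (fun y => PP y * hT (SC c y))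
      (fun y => PP y * h1 (SC c y)) where
  m0 := mPP (h.m0.comp (continuous_SC c).measurable)
  mT := mPP (h.mT.comp (continuous_SC c).measurable)
  m1 := mPP (h.m1.comp (continuous_SC c).measurable)
  le1 := fun y => mul_le_mul' le_rfl (h.le1 _)
  leT := fun y => mul_le_mul' le_rfl (h.leT _)
  lc := by
    intro x y s t hs ht hst
    show (PP x * h0 (SC c x)) ^ s * (PP y * h0 (SC c y)) ^ t ≤
      PP (s • x + t • y) * h0 (SC c (s • x + t • y))
    rw [PP_gd c, PP_gd c, PP_gd c, mul_assoc, mul_assoc, mul_assoc,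
      ENNReal.mul_rpow_of_nonneg _ _ hs.le, ENNReal.mul_rpow_of_nonneg _ _ ht.le, SC_lin]
    set k := ENNReal.ofReal ((Real.sqrt (2 * Real.pi))⁻¹) ^ N
    calc k ^ s * (gd (SC c x) * h0 (SC c x)) ^ s * (k ^ t * (gd (SC c y) * h0 (SC c y)) ^ t)
        = (k ^ s * k ^ t) * ((gd (SC c x) * h0 (SC c x)) ^ s * (gd (SC c y) * h0 (SC c y)) ^ t) :=
          by ring
      _ ≤ k * _ := by
          rw [rpow_mul_rpow_self hs ht hst]
          exact mul_le_mul' le_rfl (h.lc _ _ s t hs ht hst)
  mix := by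
    intro x y
    have h1Θ : 0 < 1 - Θ := by linarith
    show (PP x * h0 (SC c x)) ^ (1 - Θ) * (PP y * h1 (SC c y)) ^ Θ ≤
      PP ((1 - Θ) • x + Θ • y) * hT (SC c ((1 - Θ) • x + Θ • y))
    rw [PP_gd c, PP_gd c, PP_gd c, mul_assoc, mul_assoc, mul_assoc,
      ENNReal.mul_rpow_of_nonneg _ _ h1Θ.le, ENNReal.mul_rpow_of_nonneg _ _ hΘ.le, SC_lin]
    set k := ENNReal.ofReal ((Real.sqrt (2 * Real.pi))⁻¹) ^ N
    calc k ^ (1 - Θ) * (gd (SC c x) * h0 (SC c x)) ^ (1 - Θ) *
          (k ^ Θ * (gd (SC c y) * h1 (SC c y)) ^ Θ)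
        = (k ^ (1 - Θ) * k ^ Θ) *
          ((gd (SC c x) * h0 (SC c x)) ^ (1 - Θ) * (gd (SC c y) * h1 (SC c y)) ^ Θ) := by ring
      _ ≤ k * _ := by
          rw [rpow_mul_rpow_self h1Θ hΘ (by ring)]
          exact mul_le_mul' le_rfl (h.mix _ _)
  usc := by
    obtain ⟨M, hM, hb⟩ := h.bdd
    refine usc_mul continuous_PP (fun y => ENNReal.ofReal_ne_top)
      (usc_comp h.usc (continuous_SC c)) fun y => ?_
    exact ne_top_of_le_ne_top hM ((h.le1 _).trans ((h.leT _).trans (hb _)))
  dom := by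
    obtain ⟨M, hM, hb⟩ := h.bdd
    refine ⟨M, ENNReal.ofReal ((Real.sqrt (2 * Real.pi))⁻¹), gaussianPDF 0 1, hM,
      ENNReal.ofReal_ne_top, measurable_gaussianPDF 0 1, ?_, ?_, ?_⟩
    · intro s
      rw [gpdf_eq]
      calc _ ≤ ENNReal.ofReal ((Real.sqrt (2 * Real.pi))⁻¹) * 1 := by
            gcongr
            exact ee_le_one s
        _ = _ := mul_one _
    · rw [lintegral_gaussianPDF_eq_one 0 one_ne_zero]
      exact ENNReal.one_ne_top
    · intro y
      rw [← PP_eq, mul_comm M]
      gcongr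
      exact hb _

/-- root fat ⇒ inequality on the whole space -/
theorem RegW.leaf0 {Θ : ℝ} (hΘ : 0 < Θ) (hΘ1 : Θ ≤ 1 / 88) {h0 hT h1 : E → ℝ≥0∞}
    (h : RegW Θ h0 hT h1)
    (hroot : ENNReal.ofReal (1 / 8) * ∫⁻ x, h0 x ∂stdGaussian E ≤ ∫⁻ x, h1 x ∂stdGaussian E) :
    IneqG (ENNReal.ofReal (88 * Θ)) h0 hT h1 univ := by
  set c := stdOrthonormalBasis ℝ E with hc
  have hreg := h.coord hΘ (by linarith) c
  rw [lintegral_SC c h.m0, lintegral_SC c h.m1] at hroot
  have key := star_abstract8 hΘ hΘ1 hreg (D := fun _ => ∅) (fun _ => MeasurableSet.empty)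
    (fun i x y _ hx => hx.elim) (fun i x hx => hx.elim) hroot
  have hN : NN (fun _ : Fin (Module.finrank ℝ E) => (∅ : Set (Fin (Module.finrank ℝ E) → ℝ)))
      = univ := by
    ext x; simp [NN]
  rw [hN, Measure.restrict_univ] at key
  unfold IneqG
  rw [Measure.restrict_univ, lintegral_SC c h.m0, lintegral_SC c h.mT, lintegral_SC c h.m1]
  exact key

/-- root fat ⇒ inequality on the thin labels of one block -/
theorem RegW.block0 {Θ : ℝ} (hΘ : 0 < Θ) (hΘ1 : Θ ≤ 1 / 88) {h0 hT h1 : E → ℝ≥0∞}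
    (h : RegW Θ h0 hT h1) (W : Submodule ℝ E)
    (hroot : ENNReal.ofReal (1 / 8) * ∫⁻ x, h0 x ∂stdGaussian E ≤ ∫⁻ x, h1 x ∂stdGaussian E) :
    IneqG (ENNReal.ofReal (88 * Θ)) h0 hT h1
      {x | fib W h1 x < ENNReal.ofReal (1 / 4) * fib W h0 x} := by
  set R : Set E := {x | fib W h1 x < ENNReal.ofReal (1 / 4) * fib W h0 x} with hR
  have hRm : MeasurableSet R :=
    measurableSet_lt (measurable_fib h.m1) ((measurable_fib h.m0).const_mul _)
  obtain ⟨N, hN⟩ : ∃ N, Module.finrank ℝ E = N := ⟨_, rfl⟩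
  obtain ⟨c, lev, hlev, hcl⟩ := adapted' hN (fun _ : Fin 1 => W) (fun _ _ _ => le_rfl)
  have hcW : ∀ j, (lev j ≤ 0 → c j ∈ W) ∧ (¬ lev j ≤ 0 → c j ∈ Wᗮ) := by
    intro j
    have := hcl 0 j
    simp only [Fin.val_eq_zero, Fin.coe_ofNat_eq_mod, Nat.zero_mod] at this
    exact ⟨this.1, fun hj => this.2 (not_le.mp hj)⟩
  have hreg := h.coord hΘ (by linarith) c
  by_cases hex : ∃ k : Fin N, lev k ≤ 0
  swap
  · -- `W = ⊥`
    push Not at hex
    have hall : ∀ x : E, x ∈ Wᗮ := by
      intro x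
      rw [← c.sum_repr' x]
      refine Submodule.sum_mem _ fun j _ => Submodule.smul_mem _ _ ?_
      exact (hcW j).2 (not_le.mpr (hex j))
    have hRc : R = univ ∨ R = ∅ := by
      by_cases h0R : (0 : E) ∈ R
      · left
        ext x
        simp only [mem_univ, iff_true]
        have e1 := inv_fib W h1 0 x (hall x)
        have e0 := inv_fib W h0 0 x (hall x)
        rw [zero_add] at e1 e0
        simp only [hR, mem_setOf_eq] at h0R ⊢
        rw [e1, e0]; exact h0R
      · right
        ext x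
        simp only [mem_empty_iff_false, iff_false]
        intro hx
        apply h0R
        have e1 := inv_fib W h1 0 x (hall x)
        have e0 := inv_fib W h0 0 x (hall x)
        rw [zero_add] at e1 e0
        simp only [hR, mem_setOf_eq] at hx ⊢
        rw [← e1, ← e0]; exact hx
    rcases hRc with hu | he
    · rw [hu]; exact h.leaf0 hΘ hΘ1 hroot
    · rw [he]; simp [IneqG]
  -- the last index of `W`
  obtain ⟨k, hk, hkmax⟩ : ∃ k : Fin N, lev k ≤ 0 ∧ ∀ j : Fin N, lev j ≤ 0 ↔ j ≤ k := by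
    classical
    obtain ⟨k0, hk0⟩ := hex
    obtain ⟨k, hk, hkm⟩ := Finset.exists_maximal
      (s := Finset.univ.filter fun k' : Fin N => lev k' ≤ 0)
      ⟨k0, Finset.mem_filter.mpr ⟨Finset.mem_univ _, hk0⟩⟩
    have hk1 : lev k ≤ 0 := (Finset.mem_filter.mp hk).2
    refine ⟨k, hk1, fun j => ⟨fun hj => ?_, fun hj => (hlev hj).trans hk1⟩⟩
    by_contra hlt
    push Not at hlt
    have := hkm (Finset.mem_filter.mpr ⟨Finset.mem_univ _, hj⟩) hlt.le
    exact absurd this (not_le.mpr hlt)
  have hSm : Measurable (SC c) := (continuous_SC c).measurable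
  -- projections
  have hproj : ∀ x y : Fin N → ℝ, (∀ j ≤ k, x j = y j) →
      W.starProjection (SC c x) = W.starProjection (SC c y) := by
    intro x y hxy
    refine proj_congr_of (P := fun j => lev j ≤ 0) (fun j hj => (hcW j).2 hj) fun j hj => ?_
    exact hxy j ((hkmax j).mp hj)
  have hmerge : ∀ x z : Fin N → ℝ,
      SC c (merge k x z) = Vale.Agent.P262.H395.mix W (SC c x) (SC c z) := by
    intro x z
    have m1 : W.starProjection (SC c (merge k x z)) = W.starProjection (SC c x) :=
      hproj _ _ fun j hj => by simp [merge, hj]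
    have m2 : SC c (merge k x z) - SC c z ∈ W := by
      have : SC c (merge k x z) - SC c z = ∑ j, (merge k x z j - z j) • c j := by
        unfold SC
        simp only [sub_smul, Finset.sum_sub_distrib]
      rw [this]
      refine Submodule.sum_mem _ fun j _ => ?_
      by_cases hj : j ≤ k
      · exact Submodule.smul_mem _ _ ((hcW j).1 ((hkmax j).mpr hj))
      · have : merge k x z j - z j = 0 := by simp [merge, hj]
        rw [this, zero_smul]; exact Submodule.zero_mem _
    have p2 := (Submodule.starProjection_eq_self_iff (K := W)).mpr m2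
    rw [map_sub, m1] at p2
    unfold Vale.Agent.P262.H395.mix
    rw [sub_eq_sub_iff_add_eq_add] at p2
    rw [add_sub, p2]
    abel
  have hmg : ∀ f : E → ℝ≥0∞, Measurable f → ∀ x : Fin N → ℝ,
      ∫⁻ z, f (SC c (merge k x z)) ∂(gB N) = fib W f (SC c x) := by
    intro f hf x
    unfold fib
    have e := (SC_mp c).lintegral_comp (hf.comp (measurable_mix_right W (SC c x)))
    simp only [Function.comp] at e
    rw [← e]
    refine lintegral_congr fun z => ?_
    rw [hmerge]
  set D : Fin N → Set (Fin N → ℝ) := fun i => {y | i = k ∧ SC c y ∉ R} with hD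
  have hDm : ∀ i, MeasurableSet (D i) := by
    intro i
    by_cases hi : i = k
    · have : D i = SC c ⁻¹' Rᶜ := by
        ext y; simp [hD, hi]
      rw [this]
      exact hSm hRm.compl
    · have : D i = ∅ := by
        ext y; simp [hD, hi]
      rw [this]; exact MeasurableSet.empty
  have hRinv : ∀ x y : Fin N → ℝ, (∀ j ≤ k, x j = y j) → SC c x ∈ R → SC c y ∈ R := by
    intro x y hxy hx
    have hp := hproj x y hxy
    simp only [hR, mem_setOf_eq] at hx ⊢
    rw [← (inv_fib W h1).eq_of hp, ← (inv_fib W h0).eq_of hp]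
    exact hx
  have hcyl : Cyl D := by
    rintro i x y hxy ⟨hi, hx⟩
    refine ⟨hi, fun hy => hx ?_⟩
    subst hi
    exact hRinv y x (fun j hj => (hxy j hj).symm) hy
  have hdeep : DeepOK8 D (fun y => PP y * h0 (SC c y)) (fun y => PP y * h1 (SC c y)) := by
    rintro i x ⟨hi, hx⟩
    subst hi
    obtain ⟨κ, hκ⟩ := mg_gauss N i x
    rw [hκ (fun y => h0 (SC c y)) (h.m0.comp hSm), hκ (fun y => h1 (SC c y)) (h.m1.comp hSm),
      hmg h0 h.m0, hmg h1 h.m1]
    simp only [hR, mem_setOf_eq, not_lt] at hx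
    calc ENNReal.ofReal (1 / 4) * (κ * fib W h0 (SC c x))
        = κ * (ENNReal.ofReal (1 / 4) * fib W h0 (SC c x)) := by ring
      _ ≤ κ * fib W h1 (SC c x) := by gcongr
  rw [lintegral_SC c h.m0, lintegral_SC c h.m1] at hroot
  have key := star_abstract8 hΘ hΘ1 hreg hDm hcyl hdeep hroot
  have hNN : NN D = SC c ⁻¹' R := by
    ext y
    simp only [NN, hD, mem_setOf_eq, mem_preimage, not_and, not_not]
    exact ⟨fun h => h k rfl, fun h i hi => h⟩
  rw [hNN] at key
  unfold IneqG
  rw [setLIntegral_SC c h.m0 hRm, setLIntegral_SC c h.mT hRm, setLIntegral_SC c h.m1 hRm]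
  exact key

/-- root fat ⇒ inequality on the fibre -/
theorem RegW.leaf {Θ : ℝ} (hΘ : 0 < Θ) (hΘ1 : Θ ≤ 1 / 88) {h0 hT h1 : E → ℝ≥0∞}
    (h : RegW Θ h0 hT h1) (W0 : Submodule ℝ E) (x : E)
    (hroot : ENNReal.ofReal (1 / 8) * fib W0 h0 x ≤ fib W0 h1 x) :
    IneqF (ENNReal.ofReal (88 * Θ)) h0 hT h1 W0 x univ := by
  rw [ineqF_iff _ _ _ _ _ _ MeasurableSet.univ, preimage_univ]
  exact (h.comp_mix hΘ (by linarith) W0 x).leaf0 hΘ hΘ1 hroot

/-- root fat ⇒ inequality on the thin labels of the next block -/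
theorem RegW.block {Θ : ℝ} (hΘ : 0 < Θ) (hΘ1 : Θ ≤ 1 / 88) {h0 hT h1 : E → ℝ≥0∞}
    (h : RegW Θ h0 hT h1) {W0 W : Submodule ℝ E} (hW : W0 ≤ W) (x : E)
    (hroot : ENNReal.ofReal (1 / 8) * fib W0 h0 x ≤ fib W0 h1 x) :
    IneqF (ENNReal.ofReal (88 * Θ)) h0 hT h1 W0 x
      {y | fib W h1 y < ENNReal.ofReal (1 / 4) * fib W h0 y} := by
  have hRm : MeasurableSet {y | fib W h1 y < ENNReal.ofReal (1 / 4) * fib W h0 y} :=
    measurableSet_lt (measurable_fib h.m1) ((measurable_fib h.m0).const_mul _)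
  rw [ineqF_iff _ _ _ _ _ _ hRm]
  have key := (h.comp_mix hΘ (by linarith) W0 x).block0 hΘ hΘ1 W hroot
  simp only [fib_comp_mix hW] at key
  exact key

section functional

variable {Θ : ℝ} {h0 hT h1 : E → ℝ≥0∞}

lemma RegW.fib_ne_top (h : RegW Θ h0 hT h1) (W : Submodule ℝ E) (x : E) : fib W h0 x ≠ ⊤ := by
  obtain ⟨M, hM, hb⟩ := h.bdd
  refine ne_top_of_le_ne_top hM ((fib_mono hb x).trans_eq (fib_const W M x))

/-- **thin mass in the nowhere long region** -/
theorem RegW.thin (hΘ : 0 < Θ) (hΘ1 : Θ ≤ 1 / 88) (h : RegW Θ h0 hT h1) :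
    ∀ (T : STree E) {W0 : Submodule ℝ E}, T.Valid W0 → ∀ x,
      ENNReal.ofReal (1 / 4) * fib W0 h0 x ≤ fib W0 h1 x →
      fib W0 ((T.low h0 h1).indicator h0) x ≤ fib W0 ((T.low h0 h1).indicator hT) x +
        ENNReal.ofReal (176 * Θ) * fib W0 ((T.low h0 h1).indicator h0) x := by
  have h8 : ∀ (W0 : Submodule ℝ E) (x : E), ENNReal.ofReal (1 / 4) * fib W0 h0 x ≤ fib W0 h1 x →
      ENNReal.ofReal (1 / 8) * fib W0 h0 x ≤ fib W0 h1 x := by
    intro W0 x hr
    refine le_trans ?_ hr
    gcongr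
    norm_num
  have hlT : ∀ (W0 : Submodule ℝ E) (A : Set E) (x : E),
      fib W0 (A.indicator hT) x ≤ fib W0 (A.indicator h0) x := fun W0 A x =>
    fib_mono (fun y => indicator_le_indicator (h.leT y)) x
  have h176 : ENNReal.ofReal (88 * Θ) * 2 = ENNReal.ofReal (176 * Θ) := by
    rw [show (2 : ℝ≥0∞) = ENNReal.ofReal 2 by norm_num, ← ENNReal.ofReal_mul (by positivity)]
    congr 1; ring
  intro T
  induction T with
  | leaf =>
    intro W0 _ x hroot
    have key := h.leaf hΘ hΘ1 W0 x (h8 W0 x hroot)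
    unfold IneqF at key
    simp only [STree.low]
    calc fib W0 (univ.indicator h0) x
        ≤ fib W0 (univ.indicator h0) x + ENNReal.ofReal (88 * Θ) * fib W0 (univ.indicator h1) x :=
          le_self_add
      _ ≤ fib W0 (univ.indicator hT) x + ENNReal.ofReal (88 * Θ) * fib W0 (univ.indicator hT) x :=
          key
      _ ≤ fib W0 (univ.indicator hT) x +
          ENNReal.ofReal (176 * Θ) * fib W0 (univ.indicator h0) x := by
          gcongr
          · linarith
          · exact hlT W0 univ x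
  | node W D cls sub ih =>
    intro W0 hV x hroot
    have hAm := STree.measurableSet_low h.m0 h.m1 _ hV
    obtain ⟨hW, hD, hDi, hc, hci, hs⟩ := hV
    set A := (STree.node W D cls sub).low h0 h1 with hA
    set R : Set E := {y | fib W h1 y < ENNReal.ofReal (1 / 4) * fib W h0 y} with hR
    have hRm : MeasurableSet R :=
      measurableSet_lt (measurable_fib h.m1) ((measurable_fib h.m0).const_mul _)
    have hRi : InvS W R :=
      invS_lt (inv_fib W h1) ((inv_const W (ENNReal.ofReal (1 / 4))).mul (inv_fib W h0))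
    have hblock := h.block hΘ hΘ1 hW x (h8 W0 x hroot)
    rw [← hR] at hblock
    -- at least half of `R` is in `A`
    have hhalf : fib W0 (R.indicator h0) x ≤ 2 * fib W0 ((A ∩ R).indicator h0) x := by
      refine tower_le_mul hW (h.m0.indicator hRm) (h.m0.indicator (hAm.inter hRm)) (fun y => ?_) x
      by_cases hy : y ∈ R
      · have hlt : fib W h1 y < ENNReal.ofReal (1 / 2) * fib W h0 y := by
          refine lt_of_lt_of_le (show fib W h1 y < ENNReal.ofReal (1 / 4) * fib W h0 y from hy) ?_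
          gcongr
          norm_num
        rw [fib_ind_univ h0 (fun z => (hRi.mix y z).mpr hy),
          fib_ind_congr (B := (sub (cls y)).low h0 h1) h0 (fun z => by
            rw [← STree.low_slice_lt (D := D) hci hlt z]
            exact ⟨fun hz => hz.1, fun hz => ⟨hz, (hRi.mix y z).mpr hy⟩⟩)]
        exact STree.half_low h.m0 h.m1 (hs _) y (h.fib_ne_top W y)
          (show fib W h1 y < ENNReal.ofReal (1 / 4) * fib W h0 y from hy).le
      · rw [fib_ind_empty h0 (fun z hz => hy ((hRi.mix y z).mp hz))]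
        exact bot_le
    -- outside `R`
    have hout : fib W0 ((A \ R).indicator h0) x ≤ fib W0 ((A \ R).indicator hT) x +
        ENNReal.ofReal (176 * Θ) * fib W0 ((A \ R).indicator h0) x := by
      have hm := hAm.diff hRm
      have := tower_lin hW (h.m0.indicator hm) measurable_zero (h.mT.indicator hm)
        (h.m0.indicator hm) (c := 0) (d := ENNReal.ofReal (176 * Θ)) (fun y => by
          rw [zero_mul, add_zero]
          by_cases hlt : fib W h1 y < ENNReal.ofReal (1 / 2) * fib W h0 y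
          · by_cases hy : y ∈ R
            · rw [fib_ind_empty h0 (fun z hz => hz.2 ((hRi.mix y z).mpr hy))]
              exact bot_le
            · have hy' : ENNReal.ofReal (1 / 4) * fib W h0 y ≤ fib W h1 y := not_lt.mp hy
              have e : ∀ z, Vale.Agent.P262.H395.mix W y z ∈ A \ R ↔
                  Vale.Agent.P262.H395.mix W y z ∈ (sub (cls y)).low h0 h1 := by
                intro z
                rw [← STree.low_slice_lt (D := D) hci hlt z]
                exact ⟨fun hz => hz.1, fun hz => ⟨hz, fun hz' => hy ((hRi.mix y z).mp hz')⟩⟩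
              rw [fib_ind_congr h0 e, fib_ind_congr hT e]
              exact ih (cls y) (hs _) y hy'
          · rw [fib_ind_empty h0 (fun z hz => STree.low_slice_ge hlt z hz.1)]
            exact bot_le) x
      rwa [zero_mul, add_zero] at this
    -- inside `R`
    have hin : fib W0 ((A ∩ R).indicator h0) x ≤ fib W0 ((A ∩ R).indicator hT) x +
        ENNReal.ofReal (176 * Θ) * fib W0 ((A ∩ R).indicator h0) x := by
      have s0 := fib_split (W := W0) h.m0 hRm hAm x
      have sT := fib_split (W := W0) h.mT hRm hAm x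
      rw [inter_comm] at s0 sT
      unfold IneqF at hblock
      have hfin : fib W0 ((R \ A).indicator h0) x ≠ ⊤ :=
        ne_top_of_le_ne_top (h.fib_ne_top W0 x) (fib_ind_le _ _ _)
      have hcanc : fib W0 ((A ∩ R).indicator h0) x + fib W0 ((R \ A).indicator h0) x ≤
          (fib W0 ((A ∩ R).indicator hT) x +
            ENNReal.ofReal (176 * Θ) * fib W0 ((A ∩ R).indicator h0) x) +
            fib W0 ((R \ A).indicator h0) x := by
        calc fib W0 ((A ∩ R).indicator h0) x + fib W0 ((R \ A).indicator h0) x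
            = fib W0 (R.indicator h0) x := s0.symm
          _ ≤ fib W0 (R.indicator h0) x +
              ENNReal.ofReal (88 * Θ) * fib W0 (R.indicator h1) x := le_self_add
          _ ≤ fib W0 (R.indicator hT) x +
              ENNReal.ofReal (88 * Θ) * fib W0 (R.indicator hT) x := hblock
          _ ≤ fib W0 (R.indicator hT) x +
              ENNReal.ofReal (88 * Θ) * (2 * fib W0 ((A ∩ R).indicator h0) x) := by
              gcongr
              exact (hlT W0 R x).trans hhalf
          _ = fib W0 ((A ∩ R).indicator hT) x + fib W0 ((R \ A).indicator hT) x +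
              ENNReal.ofReal (176 * Θ) * fib W0 ((A ∩ R).indicator h0) x := by
              rw [sT, ← mul_assoc, h176]
          _ ≤ fib W0 ((A ∩ R).indicator hT) x + fib W0 ((R \ A).indicator h0) x +
              ENNReal.ofReal (176 * Θ) * fib W0 ((A ∩ R).indicator h0) x := by
              gcongr
              exact hlT W0 _ x
          _ = _ := by ring
      exact (ENNReal.add_le_add_iff_right hfin).mp hcanc
    rw [fib_split h.m0 hAm hRm, fib_split h.mT hAm hRm, mul_add]
    calc _ ≤ (fib W0 ((A ∩ R).indicator hT) x +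
            ENNReal.ofReal (176 * Θ) * fib W0 ((A ∩ R).indicator h0) x) +
          (fib W0 ((A \ R).indicator hT) x +
            ENNReal.ofReal (176 * Θ) * fib W0 ((A \ R).indicator h0) x) := add_le_add hin hout
      _ = _ := by ring

/-- in the nowhere long region at most half of the mass is long -/
theorem RegW.mid (h : RegW Θ h0 hT h1) :
    ∀ (T : STree E) {W0 : Submodule ℝ E}, T.Valid W0 → ∀ x,
      (T = STree.leaf → fib W0 h1 x ≤ ENNReal.ofReal (1 / 2) * fib W0 h0 x) →
      fib W0 ((T.low h0 h1).indicator h1) x ≤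
        ENNReal.ofReal (1 / 2) * fib W0 ((T.low h0 h1).indicator h0) x := by
  intro T
  induction T with
  | leaf =>
    intro W0 _ x hr
    simp only [STree.low, indicator_univ]
    exact hr rfl
  | node W D cls sub ih =>
    intro W0 hV x _
    have hAm := STree.measurableSet_low h.m0 h.m1 _ hV
    obtain ⟨hW, hD, hDi, hc, hci, hs⟩ := hV
    refine tower_le_mul hW (h.m1.indicator hAm) (h.m0.indicator hAm) (fun y => ?_) x
    by_cases hlt : fib W h1 y < ENNReal.ofReal (1 / 2) * fib W h0 y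
    · rw [fib_ind_congr h1 (STree.low_slice_lt (D := D) hci hlt),
        fib_ind_congr h0 (STree.low_slice_lt (D := D) hci hlt)]
      exact ih (cls y) (hs _) y fun _ => hlt.le
    · rw [fib_ind_empty h1 (STree.low_slice_ge hlt)]
      exact bot_le

/-- the inequality on the nowhere long region (`T` a node, or the root label itself not long) -/
theorem RegW.ineq_low (hΘ : 0 < Θ) (hΘ1 : Θ ≤ 1 / 704) (h : RegW Θ h0 hT h1) (T : STree E)
    {W0 : Submodule ℝ E} (hV : T.Valid W0) (x : E)
    (hroot : ENNReal.ofReal (1 / 4) * fib W0 h0 x ≤ fib W0 h1 x)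
    (hleaf : T = STree.leaf → fib W0 h1 x ≤ ENNReal.ofReal (1 / 2) * fib W0 h0 x) :
    IneqF (ENNReal.ofReal (704 * Θ)) h0 hT h1 W0 x (T.low h0 h1) := by
  refine ineq_of_thin hΘ hΘ1 (ne_top_of_le_ne_top (h.fib_ne_top W0 x) (fib_ind_le _ _ _))
    (fib_mono (fun y => indicator_le_indicator (h.leT y)) x)
    (fib_mono (fun y => indicator_le_indicator (h.le1 y)) x)
    (h.thin hΘ (by linarith) T hV x hroot) (h.mid T hV x hleaf)

/-- the two inductive statements -/
theorem RegW.star_aux (hΘ : 0 < Θ) (hΘ1 : Θ ≤ 1 / 704) (h : RegW Θ h0 hT h1) :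
    ∀ (T : STree E) {W0 : Submodule ℝ E}, T.Valid W0 → T.Deep h0 h1 →
      (∀ x, ENNReal.ofReal (1 / 4) * fib W0 h0 x ≤ fib W0 h1 x →
        IneqF (ENNReal.ofReal (704 * Θ)) h0 hT h1 W0 x T.reg) ∧
      (∀ x, IneqF (ENNReal.ofReal (704 * Θ)) h0 hT h1 W0 x (T.reg \ T.low h0 h1)) := by
  intro T
  induction T with
  | leaf =>
    intro W0 _ _
    constructor
    · intro x hroot
      have h8 : ENNReal.ofReal (1 / 8) * fib W0 h0 x ≤ fib W0 h1 x := by
        refine le_trans ?_ hroot
        gcongr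
        norm_num
      refine ineqF_mono ?_ ENNReal.ofReal_ne_top h.le1 (h.leaf hΘ (by linarith) W0 x h8)
      exact ENNReal.ofReal_le_ofReal (by linarith)
    · intro x
      exact ineqF_empty fun z hz => hz.2 trivial
  | node W D cls sub ih =>
    intro W0 hV hd
    have hQ : ∀ x, IneqF (ENNReal.ofReal (704 * Θ)) h0 hT h1 W0 x
        ((STree.node W D cls sub).reg \ (STree.node W D cls sub).low h0 h1) := by
      intro x
      have hm := (STree.measurableSet_reg _ hV).diff (STree.measurableSet_low h.m0 h.m1 _ hV)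
      obtain ⟨hW, hD, hDi, hc, hci, hs⟩ := hV
      refine ineqF_tower h.m0 h.mT h.m1 hW hm (fun y => ?_) x
      obtain ⟨ihP, ihQ⟩ := ih (cls y) (hs _) (hd.2 _)
      by_cases hyD : y ∈ D
      · exact ineqF_empty fun z hz => hz.1.1 ((hDi.mix y z).mpr hyD)
      by_cases hlt : fib W h1 y < ENNReal.ofReal (1 / 2) * fib W h0 y
      · refine ineqF_congr (B := (sub (cls y)).reg \ (sub (cls y)).low h0 h1) (fun z => ?_) (ihQ y)
        rw [mem_diff, mem_diff, STree.low_slice_lt (D := D) hci hlt z]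
        simp only [STree.reg, mem_setOf_eq, hci.mix, hDi.mix]
        exact ⟨fun hz => ⟨hz.1.2, hz.2⟩, fun hz => ⟨⟨hyD, hz.1⟩, hz.2⟩⟩
      · refine ineqF_congr (B := (sub (cls y)).reg) (fun z => ?_) (ihP y ?_)
        · rw [mem_diff]
          simp only [STree.reg, mem_setOf_eq, hci.mix, hDi.mix]
          exact ⟨fun hz => hz.1.2, fun hz => ⟨⟨hyD, hz⟩, STree.low_slice_ge hlt z⟩⟩
        · refine le_trans ?_ (not_lt.mp hlt)
          gcongr
          norm_num
    refine ⟨fun x hroot => ?_, hQ⟩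
    have hsub := STree.low_subset_reg _ hd
    refine ineqF_union h.m0 h.mT h.m1 (STree.measurableSet_reg _ hV)
      (STree.measurableSet_low h.m0 h.m1 _ hV) ?_ (hQ x)
    rw [inter_eq_right.mpr hsub]
    exact h.ineq_low hΘ hΘ1 _ hV x hroot (fun he => by simp at he)

/-- **Functional nested star theorem for label-dependent flags.** -/
theorem RegW.star_tree (hΘ : 0 < Θ) (hΘ1 : Θ ≤ 1 / 704) (h : RegW Θ h0 hT h1) {T : STree E}
    {W0 : Submodule ℝ E} (hV : T.Valid W0) (hd : T.Deep h0 h1) (x : E)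
    (hroot : ENNReal.ofReal (1 / 4) * fib W0 h0 x ≤ fib W0 h1 x) :
    IneqF (ENNReal.ofReal (704 * Θ)) h0 hT h1 W0 x T.reg :=
  (h.star_aux hΘ hΘ1 T hV hd).1 x hroot

end functional

end Vale.Agent.P262.H606
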