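import Mathlib
import Vale.Agent.P262.H606.RegW
import Vale.Agent.P271.F507.PL

/-!
# P262, scheme S1: distance caps

`dw a B x = exp (a * dist(x,B)^2)`. For `a ≤ 1/2` its product with the Gaussian density is
log-concave; Maurey's inequality `E exp (dist(z,C)^2/4) ≤ 1/γ(C)`; flatness in fibres.
-/

set_option linter.all false

open MeasureTheory Set Filter ProbabilityTheory
open scoped ENNReal NNReal Topology RealInnerProductSpace

namespace Vale.Agent.P262.H606

open Vale.Agent.P262.H493 hiding fib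
open Vale.Agent.P262.H395
open Vale.Agent.P262.H44

section

variable {E : Type*} [NormedAddCommGroup E] [InnerProductSpace ℝ E]

/-- the weight `exp (a * dist(x,B)^2)` -/
noncomputable def dw (a : ℝ) (B : Set E) (x : E) : ℝ≥0∞ :=
  ENNReal.ofReal (Real.exp (a * Metric.infDist x B ^ 2))

variable {a : ℝ} {B : Set E}

lemma continuous_dw (a : ℝ) (B : Set E) : Continuous (dw a B) := by
  unfold dw
  refine ENNReal.continuous_ofReal.comp ?_
  have := Metric.continuous_infDist_pt B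
  fun_prop

lemma dw_ne_top (a : ℝ) (B : Set E) (x : E) : dw a B x ≠ ⊤ := ENNReal.ofReal_ne_top

lemma dw_ne_zero (a : ℝ) (B : Set E) (x : E) : dw a B x ≠ 0 := by
  unfold dw
  simp [Real.exp_pos]

lemma one_le_dw (ha : 0 ≤ a) (x : E) : 1 ≤ dw a B x := by
  unfold dw
  rw [ENNReal.one_le_ofReal]
  exact Real.one_le_exp (by positivity)

lemma dw_le_of_le (ha : 0 ≤ a) {x y : E} {B' : Set E} (h : Metric.infDist x B ≤ Metric.infDist y B') :
    dw a B x ≤ dw a B' y := by
  unfold dw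
  apply ENNReal.ofReal_le_ofReal
  apply Real.exp_le_exp.mpr
  have := pow_le_pow_left₀ Metric.infDist_nonneg h 2
  exact mul_le_mul_of_nonneg_left this ha

lemma dw_le_of_sq (ha : 0 ≤ a) {x : E} {r : ℝ} (h : Metric.infDist x B ^ 2 ≤ r) :
    dw a B x ≤ ENNReal.ofReal (Real.exp (a * r)) := by
  unfold dw
  apply ENNReal.ofReal_le_ofReal
  apply Real.exp_le_exp.mpr
  exact mul_le_mul_of_nonneg_left h ha

lemma dw_anti (ha : 0 ≤ a) {B' : Set E} (h : B' ⊆ B) (hne : B'.Nonempty) (x : E) :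
    dw a B x ≤ dw a B' x :=
  dw_le_of_le ha (Metric.infDist_le_infDist_of_subset h hne)

/-- `-‖x‖²/2 + a dist(x,B)²` is concave for `a ≤ 1/2`, for any closed `B` -/
lemma conc_aux [FiniteDimensional ℝ E] (hB : IsClosed B) (hne : B.Nonempty) (ha0 : 0 ≤ a)
    (ha : a ≤ 1 / 2) (x y : E) {s t : ℝ} (hs : 0 ≤ s) (ht : 0 ≤ t) (hst : s + t = 1) :
    s * (-‖x‖ ^ 2 / 2 + a * Metric.infDist x B ^ 2) + t * (-‖y‖ ^ 2 / 2 + a * Metric.infDist y B ^ 2)
      ≤ -‖s • x + t • y‖ ^ 2 / 2 + a * Metric.infDist (s • x + t • y) B ^ 2 := by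
  set z := s • x + t • y with hz
  obtain ⟨p, hp, hpz⟩ := hB.exists_infDist_eq_dist hne z
  have hx : Metric.infDist x B ^ 2 ≤ ‖x - p‖ ^ 2 := by
    rw [← dist_eq_norm]
    exact pow_le_pow_left₀ Metric.infDist_nonneg (Metric.infDist_le_dist_of_mem hp) 2
  have hy : Metric.infDist y B ^ 2 ≤ ‖y - p‖ ^ 2 := by
    rw [← dist_eq_norm]
    exact pow_le_pow_left₀ Metric.infDist_nonneg (Metric.infDist_le_dist_of_mem hp) 2
  rw [hpz, dist_eq_norm]
  have e1 : ‖x - p‖ ^ 2 = ‖x‖ ^ 2 - 2 * ⟪x, p⟫ + ‖p‖ ^ 2 := norm_sub_sq_real x p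
  have e2 : ‖y - p‖ ^ 2 = ‖y‖ ^ 2 - 2 * ⟪y, p⟫ + ‖p‖ ^ 2 := norm_sub_sq_real y p
  have e3 : ‖z - p‖ ^ 2 = ‖z‖ ^ 2 - 2 * ⟪z, p⟫ + ‖p‖ ^ 2 := norm_sub_sq_real z p
  have e4 : ⟪z, p⟫ = s * ⟪x, p⟫ + t * ⟪y, p⟫ := by
    rw [hz, inner_add_left, inner_smul_left, inner_smul_left]
    simp
  have e5 : ‖z‖ ^ 2 = s ^ 2 * ‖x‖ ^ 2 + 2 * (s * t * ⟪x, y⟫) + t ^ 2 * ‖y‖ ^ 2 := by
    rw [hz, norm_add_sq_real, norm_smul, norm_smul, inner_smul_left, inner_smul_right,
      Real.norm_of_nonneg hs, Real.norm_of_nonneg ht]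
    simp
    ring
  have e6 : ‖x - y‖ ^ 2 = ‖x‖ ^ 2 - 2 * ⟪x, y⟫ + ‖y‖ ^ 2 := norm_sub_sq_real x y
  have e7 : s * ‖x‖ ^ 2 + t * ‖y‖ ^ 2 - ‖z‖ ^ 2 = s * t * ‖x - y‖ ^ 2 := by
    rw [e5, e6]
    have : t = 1 - s := by linarith
    subst this
    ring
  have h8 : 0 ≤ (1 / 2 - a) * (s * t * ‖x - y‖ ^ 2) :=
    mul_nonneg (by linarith) (by positivity)
  have h9 : s * (a * Metric.infDist x B ^ 2) ≤ s * (a * ‖x - p‖ ^ 2) := by gcongr
  have h10 : t * (a * Metric.infDist y B ^ 2) ≤ t * (a * ‖y - p‖ ^ 2) := by gcongr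
  have h11 : s * (-‖x‖ ^ 2 / 2 + a * ‖x - p‖ ^ 2) + t * (-‖y‖ ^ 2 / 2 + a * ‖y - p‖ ^ 2) +
      (1 / 2 - a) * (s * t * ‖x - y‖ ^ 2) = -‖z‖ ^ 2 / 2 + a * ‖z - p‖ ^ 2 := by
    rw [← e7, e1, e2, e3, e4]
    have : t = 1 - s := by linarith
    subst this
    ring
  linarith

lemma gd_dw (a : ℝ) (B : Set E) (x : E) :
    gd x * dw a B x = ENNReal.ofReal (Real.exp (-‖x‖ ^ 2 / 2 + a * Metric.infDist x B ^ 2)) := by
  unfold gd dw
  rw [← ENNReal.ofReal_mul (Real.exp_pos _).le, ← Real.exp_add]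

lemma ofReal_exp_rpow (u s : ℝ) :
    ENNReal.ofReal (Real.exp u) ^ s = ENNReal.ofReal (Real.exp (s * u)) := by
  rw [ENNReal.ofReal_rpow_of_pos (Real.exp_pos _), ← Real.exp_mul, mul_comm]

lemma ofReal_exp_mul (u v : ℝ) :
    ENNReal.ofReal (Real.exp u) * ENNReal.ofReal (Real.exp v) = ENNReal.ofReal (Real.exp (u + v)) := by
  rw [← ENNReal.ofReal_mul (Real.exp_pos _).le, ← Real.exp_add]

/-- the weighted density is log-concave -/
lemma gd_dw_lc [FiniteDimensional ℝ E] (hB : IsClosed B) (hne : B.Nonempty) (ha0 : 0 ≤ a)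
    (ha : a ≤ 1 / 2) : LogConc fun x => gd x * dw a B x := by
  intro x y s t hs ht hst
  show (gd x * dw a B x) ^ s * (gd y * dw a B y) ^ t ≤ gd (s • x + t • y) * dw a B (s • x + t • y)
  rw [gd_dw, gd_dw, gd_dw, ofReal_exp_rpow, ofReal_exp_rpow, ofReal_exp_mul]
  apply ENNReal.ofReal_le_ofReal
  apply Real.exp_le_exp.mpr
  exact conc_aux hB hne ha0 ha x y hs.le ht.le hst

end

variable {E : Type*} [NormedAddCommGroup E] [InnerProductSpace ℝ E] [FiniteDimensional ℝ E]
  [MeasurableSpace E] [BorelSpace E]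

variable {a : ℝ} {B : Set E}

/-- Prékopa–Leindler relative to the Gaussian measure -/
theorem pl_gauss {f g h : E → ℝ≥0∞} (hf : Measurable f) (hg : Measurable g) (hh : Measurable h)
    {s t : ℝ} (hs : 0 < s) (ht : 0 < t) (hst : s + t = 1)
    (hfg : ∀ x y, (gd x * f x) ^ s * (gd y * g y) ^ t ≤ gd (s • x + t • y) * h (s • x + t • y)) :
    (∫⁻ x, f x ∂stdGaussian E) ^ s * (∫⁻ x, g x ∂stdGaussian E) ^ t ≤
      ∫⁻ x, h x ∂stdGaussian E := by
  set c := stdOrthonormalBasis ℝ E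
  rw [lintegral_SC c hf, lintegral_SC c hg, lintegral_SC c hh]
  refine Vale.Agent.P271.F507.pl_pi hs ht hst _ _ _ _
    (mPP (hf.comp (continuous_SC c).measurable)) (mPP (hg.comp (continuous_SC c).measurable))
    (mPP (hh.comp (continuous_SC c).measurable)) ?_
  intro x y
  rw [PP_gd c, PP_gd c, PP_gd c, mul_assoc, mul_assoc, mul_assoc,
    ENNReal.mul_rpow_of_nonneg _ _ hs.le, ENNReal.mul_rpow_of_nonneg _ _ ht.le, SC_lin]
  set k := ENNReal.ofReal ((Real.sqrt (2 * Real.pi))⁻¹) ^ (Module.finrank ℝ E)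
  calc k ^ s * (gd (SC c x) * f (SC c x)) ^ s * (k ^ t * (gd (SC c y) * g (SC c y)) ^ t)
      = (k ^ s * k ^ t) * ((gd (SC c x) * f (SC c x)) ^ s * (gd (SC c y) * g (SC c y)) ^ t) :=
        by ring
    _ ≤ k * _ := by
        rw [rpow_mul_rpow_self hs ht hst]
        exact mul_le_mul' le_rfl (hfg _ _)

/-- **Maurey's inequality** -/
theorem maurey {C : Set E} (hC : MeasurableSet C) (ha0 : 0 ≤ a) (ha : a ≤ 1 / 4) :
    (∫⁻ z, dw a C z ∂stdGaussian E) * stdGaussian E C ≤ 1 := by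
  have key := pl_gauss (E := E) (f := dw a C) (g := C.indicator 1) (h := fun _ => 1)
    (continuous_dw a C).measurable (measurable_one.indicator hC) measurable_const
    (s := 1 / 2) (t := 1 / 2) (by norm_num) (by norm_num) (by norm_num) ?_
  · rw [lintegral_indicator_one hC, lintegral_const, measure_univ, one_mul,
      ← ENNReal.mul_rpow_of_nonneg _ _ (by norm_num)] at key
    have h2 := ENNReal.rpow_le_rpow key (by norm_num : (0 : ℝ) ≤ 2)
    rw [← ENNReal.rpow_mul, ENNReal.one_rpow] at h2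
    norm_num at h2
    exact h2
  · intro x y
    by_cases hy : y ∈ C
    · rw [indicator_of_mem hy, Pi.one_apply, mul_one, mul_one, gd_dw]
      unfold gd
      rw [ofReal_exp_rpow, ofReal_exp_rpow, ofReal_exp_mul]
      apply ENNReal.ofReal_le_ofReal
      apply Real.exp_le_exp.mpr
      have h1 : Metric.infDist x C ^ 2 ≤ ‖x - y‖ ^ 2 := by
        rw [← dist_eq_norm]
        exact pow_le_pow_left₀ Metric.infDist_nonneg (Metric.infDist_le_dist_of_mem hy) 2
      have h2 : a * Metric.infDist x C ^ 2 ≤ 1 / 4 * ‖x - y‖ ^ 2 :=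
        mul_le_mul ha h1 (by positivity) (by norm_num)
      have e1 : ‖x - y‖ ^ 2 = ‖x‖ ^ 2 - 2 * ⟪x, y⟫ + ‖y‖ ^ 2 := norm_sub_sq_real x y
      have e2 : ‖(1 / 2 : ℝ) • x + (1 / 2 : ℝ) • y‖ ^ 2 =
          (‖x‖ ^ 2 + 2 * ⟪x, y⟫ + ‖y‖ ^ 2) / 4 := by
        rw [← smul_add, norm_smul, mul_pow, norm_add_sq_real, Real.norm_of_nonneg (by norm_num)]
        ring
      rw [e2]
      nlinarith
    · rw [indicator_of_notMem hy, mul_zero (gd y), ENNReal.zero_rpow_of_pos (by norm_num),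
        mul_zero]
      exact bot_le

lemma lintegral_dw_le {C : Set E} (hC : MeasurableSet C) (ha0 : 0 ≤ a) (ha : a ≤ 1 / 4) :
    ∫⁻ z, dw a C z ∂stdGaussian E ≤ (stdGaussian E C)⁻¹ := by
  have h := maurey hC ha0 ha
  rcases eq_or_ne (stdGaussian E C) 0 with h0 | h0
  · rw [h0, ENNReal.inv_zero]; exact le_top
  · rw [ENNReal.le_inv_iff_mul_le]; exact h

lemma norm_mix_sub (W : Submodule ℝ E) (x z p c : E) :
    ‖Vale.Agent.P262.H395.mix W x z - Vale.Agent.P262.H395.mix W p c‖ ^ 2 ≤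
      ‖x - p‖ ^ 2 + ‖z - c‖ ^ 2 := by
  have e : Vale.Agent.P262.H395.mix W x z - Vale.Agent.P262.H395.mix W p c =
      W.starProjection (x - p) + ((z - c) - W.starProjection (z - c)) := by
    unfold Vale.Agent.P262.H395.mix
    simp only [map_sub]
    abel
  have h0 : ∀ u v : E, ⟪W.starProjection u, v - W.starProjection v⟫ = 0 := by
    intro u v
    rw [inner_sub_right, Submodule.inner_starProjection_left_eq_right,
      Submodule.inner_starProjection_left_eq_right, proj_proj, sub_self]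
  have h1 : ∀ u : E, ‖u‖ ^ 2 = ‖W.starProjection u‖ ^ 2 + ‖u - W.starProjection u‖ ^ 2 := by
    intro u
    have h4 := norm_add_sq_real (W.starProjection u) (u - W.starProjection u)
    rw [h0, add_sub_cancel] at h4
    linarith
  have h2 := norm_add_sq_real (W.starProjection (x - p)) ((z - c) - W.starProjection (z - c))
  rw [h0] at h2
  rw [e, h2]
  have h3 := h1 (x - p)
  have h4 := h1 (z - c)
  have h5 := sq_nonneg ‖W.starProjection (z - c)‖
  have h6 := sq_nonneg ‖(x - p) - W.starProjection (x - p)‖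
  linarith

/-- distance after mixing -/
lemma infDist_mix_sq {W : Submodule ℝ E} {P C : Set E} (hP : IsClosed P) (hPne : P.Nonempty)
    (hC : IsClosed C) (hCne : C.Nonempty)
    (h : ∀ p ∈ P, ∀ c ∈ C, Vale.Agent.P262.H395.mix W p c ∈ B) (x z : E) :
    Metric.infDist (Vale.Agent.P262.H395.mix W x z) B ^ 2 ≤
      Metric.infDist x P ^ 2 + Metric.infDist z C ^ 2 := by
  obtain ⟨p, hp, hpz⟩ := hP.exists_infDist_eq_dist hPne x
  obtain ⟨c, hc, hcz⟩ := hC.exists_infDist_eq_dist hCne z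
  rw [hpz, hcz, dist_eq_norm, dist_eq_norm]
  refine le_trans ?_ (norm_mix_sub W x z p c)
  rw [← dist_eq_norm]
  exact pow_le_pow_left₀ Metric.infDist_nonneg (Metric.infDist_le_dist_of_mem (h p hp c hc)) 2

lemma infDist_add {W : Submodule ℝ E} {P : Set E} (hcyl : ∀ x, ∀ w ∈ Wᗮ, (x + w ∈ P ↔ x ∈ P))
    (x : E) {w : E} (hw : w ∈ Wᗮ) : Metric.infDist (x + w) P = Metric.infDist x P := by
  have h1 : ∀ (x : E) {w : E}, w ∈ Wᗮ → Metric.infDist (x + w) P ≤ Metric.infDist x P := by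
    intro x w hw
    rcases P.eq_empty_or_nonempty with he | hne
    · rw [he, Metric.infDist_empty, Metric.infDist_empty]
    · rw [Metric.le_infDist hne]
      intro y hy
      refine (Metric.infDist_le_dist_of_mem ((hcyl y w hw).mpr hy)).trans (le_of_eq ?_)
      rw [dist_add_right]
  refine le_antisymm (h1 x hw) ?_
  have := h1 (x + w) (w := -w) (Submodule.neg_mem _ hw)
  rwa [add_neg_cancel_right] at this

lemma infDist_mix {W : Submodule ℝ E} {P : Set E} (hcyl : ∀ x, ∀ w ∈ Wᗮ, (x + w ∈ P ↔ x ∈ P))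
    (x z : E) : Metric.infDist (Vale.Agent.P262.H395.mix W x z) P = Metric.infDist x P := by
  have := infDist_add hcyl x (mix_sub_mem W x z)
  rwa [add_sub_cancel] at this

/-- Data which make the cap `dist(·,B)` flat in the fibres of `W`: the cap at the label is
`dist(·,P)`, and `C` is the set of good fibre points. -/
structure FlatD (ε : ℝ) (W : Submodule ℝ E) (B P C : Set E) : Prop where
  clP : IsClosed P
  cyl : ∀ x, ∀ w ∈ Wᗮ, (x + w ∈ P ↔ x ∈ P)
  sub : B ⊆ P
  clC : IsClosed C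
  mix : ∀ p ∈ P, ∀ c ∈ C, Vale.Agent.P262.H395.mix W p c ∈ B
  gam : ENNReal.ofReal (1 - ε) ≤ stdGaussian E C

namespace FlatD

variable {ε : ℝ} {W : Submodule ℝ E} {P C : Set E}

lemma C_ne (h : FlatD ε W B P C) (hε : ε < 1) : C.Nonempty := by
  by_contra hcon
  rw [not_nonempty_iff_eq_empty] at hcon
  have := h.gam
  rw [hcon, measure_empty, nonpos_iff_eq_zero, ENNReal.ofReal_eq_zero] at this
  linarith

lemma dist_le (h : FlatD ε W B P C) (hε : ε < 1) (hne : B.Nonempty) (x z : E) :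
    Metric.infDist (Vale.Agent.P262.H395.mix W x z) B ^ 2 ≤
      Metric.infDist x P ^ 2 + Metric.infDist z C ^ 2 :=
  infDist_mix_sq h.clP (hne.mono h.sub) h.clC (h.C_ne hε) h.mix x z

lemma le_dist (h : FlatD ε W B P C) (hne : B.Nonempty) (x z : E) :
    Metric.infDist x P ≤ Metric.infDist (Vale.Agent.P262.H395.mix W x z) B := by
  rw [← infDist_mix h.cyl x z]
  exact Metric.infDist_le_infDist_of_subset h.sub hne

lemma dist_le_of_mem (h : FlatD ε W B P C) (hε : ε < 1) (hne : B.Nonempty) (x : E) {z : E}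
    (hz : z ∈ C) :
    Metric.infDist (Vale.Agent.P262.H395.mix W x z) B ^ 2 ≤ Metric.infDist x P ^ 2 := by
  have := h.dist_le hε hne x z
  rw [Metric.infDist_zero_of_mem hz] at this
  simpa using this

lemma dw_mix_le (h : FlatD ε W B P C) (hε : ε < 1) (hne : B.Nonempty) (ha0 : 0 ≤ a) (x z : E) :
    dw a B (Vale.Agent.P262.H395.mix W x z) ≤ dw a P x * dw a C z := by
  unfold dw
  rw [ofReal_exp_mul]
  apply ENNReal.ofReal_le_ofReal
  apply Real.exp_le_exp.mpr
  rw [← mul_add]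
  exact mul_le_mul_of_nonneg_left (h.dist_le hε hne x z) ha0

lemma le_dw_mix (h : FlatD ε W B P C) (hne : B.Nonempty) (ha0 : 0 ≤ a) (x z : E) :
    dw a P x ≤ dw a B (Vale.Agent.P262.H395.mix W x z) :=
  dw_le_of_le ha0 (h.le_dist hne x z)

/-- upper bound of the weighted mass of a fibre -/
lemma fib_dw_le (h : FlatD ε W B P C) (hε : ε < 1) (hne : B.Nonempty) (ha0 : 0 ≤ a)
    (ha : a ≤ 1 / 4) (x : E) :
    fib W (dw a B) x ≤ dw a P x * ENNReal.ofReal ((1 - ε)⁻¹) := by
  unfold fib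
  calc ∫⁻ z, dw a B (Vale.Agent.P262.H395.mix W x z) ∂stdGaussian E
      ≤ ∫⁻ z, dw a P x * dw a C z ∂stdGaussian E :=
        lintegral_mono fun z => h.dw_mix_le hε hne ha0 x z
    _ = dw a P x * ∫⁻ z, dw a C z ∂stdGaussian E :=
        lintegral_const_mul _ (continuous_dw a C).measurable
    _ ≤ dw a P x * (stdGaussian E C)⁻¹ := by
        gcongr
        exact lintegral_dw_le h.clC.measurableSet ha0 ha
    _ ≤ dw a P x * ENNReal.ofReal ((1 - ε)⁻¹) := by
        gcongr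
        rw [ENNReal.ofReal_inv_of_pos (by linarith)]
        exact ENNReal.inv_le_inv.mpr h.gam

/-- lower bound of the weighted mass of a set in a fibre -/
lemma le_fib_dw (h : FlatD ε W B P C) (hne : B.Nonempty) (ha0 : 0 ≤ a) (S : Set E)
    (hS : MeasurableSet S) (x : E) :
    dw a P x * fib W (S.indicator 1) x ≤ fib W (S.indicator (dw a B)) x := by
  unfold fib
  have hm : Measurable fun z => S.indicator (1 : E → ℝ≥0∞) (Vale.Agent.P262.H395.mix W x z) :=
    (measurable_one.indicator hS).comp (measurable_mix_right W x)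
  rw [← lintegral_const_mul _ hm]
  refine lintegral_mono fun z => ?_
  by_cases hz : Vale.Agent.P262.H395.mix W x z ∈ S
  · rw [indicator_of_mem hz, indicator_of_mem hz, Pi.one_apply, mul_one]
    exact h.le_dw_mix hne ha0 x z
  · rw [indicator_of_notMem hz, mul_zero]
    exact bot_le

/-- the good fibre points cost at most `ε` -/
lemma fib_inter_le (h : FlatD ε W B P C) (hε0 : 0 ≤ ε) {S T : Set E} (hS : MeasurableSet S)
    (hT : MeasurableSet T) (x : E)
    (hsub : ∀ z ∈ C, Vale.Agent.P262.H395.mix W x z ∈ S → Vale.Agent.P262.H395.mix W x z ∈ T) :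
    fib W (S.indicator 1) x ≤ fib W (T.indicator 1) x + ENNReal.ofReal ε := by
  have hCc : stdGaussian E Cᶜ ≤ ENNReal.ofReal ε := by
    have h1 := measure_add_measure_compl (μ := stdGaussian E) h.clC.measurableSet
    rw [measure_univ] at h1
    have h2 : stdGaussian E Cᶜ = 1 - stdGaussian E C := by
      rw [← h1, ENNReal.add_sub_cancel_left (measure_ne_top _ _)]
    rw [h2]
    calc 1 - stdGaussian E C ≤ 1 - ENNReal.ofReal (1 - ε) := tsub_le_tsub_left h.gam _
      _ ≤ ENNReal.ofReal ε := by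
        rw [tsub_le_iff_right, ← ENNReal.ofReal_one]
        refine le_trans (ENNReal.ofReal_le_ofReal (by linarith)) (ENNReal.ofReal_add_le (p := ε) (q := 1 - ε))
  unfold fib
  calc ∫⁻ z, S.indicator 1 (Vale.Agent.P262.H395.mix W x z) ∂stdGaussian E
      ≤ ∫⁻ z, (T.indicator 1 (Vale.Agent.P262.H395.mix W x z) + Cᶜ.indicator 1 z)
          ∂stdGaussian E := by
        refine lintegral_mono fun z => ?_
        by_cases hz : Vale.Agent.P262.H395.mix W x z ∈ S
        · rw [indicator_of_mem hz]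
          by_cases hc : z ∈ C
          · rw [indicator_of_mem (hsub z hc hz)]
            exact le_self_add
          · rw [indicator_of_mem (show z ∈ Cᶜ from hc)]
            exact le_add_self
        · rw [indicator_of_notMem hz]
          exact bot_le
    _ = ∫⁻ z, T.indicator 1 (Vale.Agent.P262.H395.mix W x z) ∂stdGaussian E +
          stdGaussian E Cᶜ := by
        rw [lintegral_add_right _ (measurable_one.indicator h.clC.measurableSet.compl),
          lintegral_indicator_one h.clC.measurableSet.compl]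
    _ ≤ _ := by gcongr

end FlatD

end Vale.Agent.P262.H606
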