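import Vale.Agent.P262.H606.Floor
import Vale.Agent.P262.H837.ThrC

/-!
# P262, milestone 2, THR through classes: the moment field of STAR'

`W ≤ W'` label spaces, `u = P_{W'} y - P_W y` the own coordinates of the deeper label. Moments of
`wt * (Hn ^ α * q ^ β)` in the fibre of `W`, `wt` the cap weight, `Hn` the Harnack factor, `q` any
measurable mass.
-/

set_option linter.all false

open MeasureTheory ProbabilityTheory Set
open scoped ENNReal NNReal RealInnerProductSpace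

namespace Vale.Agent.P262.H606

open Vale.Agent.P262.H395

variable {E : Type*} [NormedAddCommGroup E] [InnerProductSpace ℝ E] [FiniteDimensional ℝ E]
  [MeasurableSpace E] [BorelSpace E]

/-- own coordinates of `W'` over `W` -/
noncomputable def oc (W W' : Submodule ℝ E) (y : E) : E :=
  W'.starProjection y - W.starProjection y

lemma continuous_oc (W W' : Submodule ℝ E) : Continuous (oc W W') := by
  unfold oc; fun_prop

lemma measurable_expoc (W W' : Submodule ℝ E) (c : ℝ) :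
    Measurable fun y : E => ENNReal.ofReal (Real.exp (c * ‖oc W W' y‖ ^ 2)) :=
  ENNReal.measurable_ofReal.comp (Real.measurable_exp.comp
    (((continuous_oc W W').norm.pow 2).measurable.const_mul _))

/-- constant of the moment, per own dimension -/
noncomputable def Cm (c β : ℝ) : ℝ := (Real.sqrt (1 - 2 * (c / (1 - β))))⁻¹ ^ (1 - β)

lemma Cm_nonneg (c β : ℝ) : 0 ≤ Cm c β :=
  Real.rpow_nonneg (inv_nonneg.2 (Real.sqrt_nonneg _)) _

/-- **moment**, general form -/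
theorem mom {W W' : Submodule ℝ E} (h : W ≤ W') {c β : ℝ} (hβ : 0 ≤ β) (hβ1 : β < 1)
    (hc : 2 * c < 1 - β) {q : E → ℝ≥0∞} (hq : Measurable q) (x : E) :
    fib W (fun y => ENNReal.ofReal (Real.exp (c * ‖oc W W' y‖ ^ 2)) * q y ^ β) x ≤
      ENNReal.ofReal (Cm c β ^ (Module.finrank ℝ W' - Module.finrank ℝ W)) * fib W q x ^ β := by
  set d := Module.finrank ℝ W' - Module.finrank ℝ W with hd
  have h1 : 0 < 1 - β := by linarith
  have hc' : c / (1 - β) < 1 / 2 := by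
    rw [div_lt_iff₀ h1]; linarith
  have hI := fib_exp_incr h hc' x
  rw [← hd] at hI
  rcases eq_or_lt_of_le hβ with h0 | h0
  · subst h0
    simp only [ENNReal.rpow_zero, mul_one]
    have e : c / (1 - 0) = c := by norm_num
    rw [e] at hI
    unfold oc
    rw [hI, Cm, e, sub_zero, Real.rpow_one,
      ENNReal.ofReal_pow (inv_nonneg.2 (Real.sqrt_nonneg _))]
  · have h2 := H837.fib_holder (W0 := W) (th := 1 - β) (s := β) h1 h0 (by ring)
      (measurable_expoc W W' c) hq x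
    refine h2.trans (mul_le_mul_left (le_of_eq ?_) _)
    have e1 : (fun y : E => ENNReal.ofReal (Real.exp (c * ‖oc W W' y‖ ^ 2)) ^ (1 / (1 - β))) =
        fun y => ENNReal.ofReal (Real.exp (c / (1 - β) *
          ‖W'.starProjection y - W.starProjection y‖ ^ 2)) := by
      funext y
      rw [ENNReal.ofReal_rpow_of_pos (Real.exp_pos _), ← Real.exp_mul]
      congr 2
      unfold oc
      ring
    rw [e1, hI, ← ENNReal.ofReal_pow (inv_nonneg.2 (Real.sqrt_nonneg _)),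
      ENNReal.ofReal_rpow_of_nonneg (pow_nonneg (inv_nonneg.2 (Real.sqrt_nonneg _)) _) h1.le, Cm,
      ← Real.rpow_natCast, ← Real.rpow_natCast, ← Real.rpow_mul (inv_nonneg.2 (Real.sqrt_nonneg _)),
      ← Real.rpow_mul (inv_nonneg.2 (Real.sqrt_nonneg _)), mul_comm (d : ℝ)]

/-- cap weight of the own coordinates -/
noncomputable def wtf (W W' : Submodule ℝ E) (kap th : ℝ) (y : E) : ℝ≥0∞ :=
  ENNReal.ofReal ((kap ^ (Module.finrank ℝ W' - Module.finrank ℝ W)) ^ th *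
    Real.exp (th / 8 * ‖oc W W' y‖ ^ 2))

/-- Harnack factor of the own coordinates -/
noncomputable def hnf (W W' : Submodule ℝ E) (y : E) : ℝ≥0∞ :=
  ENNReal.ofReal (2 * Real.exp (9 + 8 / 15 * ‖oc W W' y‖ ^ 2))

lemma measurable_wtf (W W' : Submodule ℝ E) (kap th : ℝ) : Measurable (wtf W W' kap th) :=
  ENNReal.measurable_ofReal.comp (Measurable.const_mul (Real.measurable_exp.comp
    (((continuous_oc W W').norm.pow 2).measurable.const_mul _)) _)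

lemma measurable_hnf (W W' : Submodule ℝ E) : Measurable (hnf W W') :=
  ENNReal.measurable_ofReal.comp (Measurable.const_mul (Real.measurable_exp.comp
    ((((continuous_oc W W').norm.pow 2).measurable.const_mul _).const_add _)) _)

/-- the other way to write the cap weight -/
lemma wtf_eq (W W' : Submodule ℝ E) {kap : ℝ} (hk : 0 ≤ kap) (th : ℝ) (y : E) :
    wtf W W' kap th y = ENNReal.ofReal ((kap ^ (Module.finrank ℝ W' - Module.finrank ℝ W) *
      Real.exp (‖oc W W' y‖ ^ 2 / 8)) ^ th) := by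
  unfold wtf
  rw [Real.mul_rpow (pow_nonneg hk _) (Real.exp_pos _).le, ← Real.exp_mul]
  congr 3
  ring

lemma wtf_hnf (W W' : Submodule ℝ E) {kap th α : ℝ} (hk : 0 ≤ kap) (y : E) :
    wtf W W' kap th y * hnf W W' y ^ α =
      ENNReal.ofReal ((2 * Real.exp 9) ^ α *
        (kap ^ th) ^ (Module.finrank ℝ W' - Module.finrank ℝ W)) *
      ENNReal.ofReal (Real.exp ((th / 8 + 8 / 15 * α) * ‖oc W W' y‖ ^ 2)) := by
  unfold wtf hnf
  have e9 : (2 * Real.exp (9 + 8 / 15 * ‖oc W W' y‖ ^ 2)) ^ α =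
      (2 * Real.exp 9) ^ α * Real.exp (8 / 15 * α * ‖oc W W' y‖ ^ 2) := by
    rw [Real.exp_add, ← mul_assoc, Real.mul_rpow (by positivity) (Real.exp_pos _).le,
      ← Real.exp_mul]
    congr 2
    ring
  rw [ENNReal.ofReal_rpow_of_pos (by positivity), e9,
    ← ENNReal.ofReal_mul (by positivity), ← ENNReal.ofReal_mul (by positivity)]
  congr 1
  have e10 : ∀ d : ℕ, (kap ^ d) ^ th = (kap ^ th) ^ d := by
    intro d
    rw [← Real.rpow_natCast, ← Real.rpow_mul hk, ← Real.rpow_mul_natCast hk, mul_comm]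
  rw [add_mul, Real.exp_add, e10]
  ring

/-- **moment of the weights**, all exponents -/
theorem mom_w {W W' : Submodule ℝ E} (h : W ≤ W') {kap th α β : ℝ} (hk : 0 ≤ kap)
    (hβ : 0 ≤ β) (hβ1 : β < 1) (hc : 2 * (th / 8 + 8 / 15 * α) < 1 - β) {q : E → ℝ≥0∞}
    (hq : Measurable q) (x : E) :
    fib W (fun y => wtf W W' kap th y * (hnf W W' y ^ α * q y ^ β)) x ≤
      ENNReal.ofReal ((2 * Real.exp 9) ^ α * (kap ^ th * Cm (th / 8 + 8 / 15 * α) β) ^
        (Module.finrank ℝ W' - Module.finrank ℝ W)) * fib W q x ^ β := by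
  have e1 : (fun y => wtf W W' kap th y * (hnf W W' y ^ α * q y ^ β)) =
      fun y => ENNReal.ofReal ((2 * Real.exp 9) ^ α *
        (kap ^ th) ^ (Module.finrank ℝ W' - Module.finrank ℝ W)) *
        (ENNReal.ofReal (Real.exp ((th / 8 + 8 / 15 * α) * ‖oc W W' y‖ ^ 2)) * q y ^ β) := by
    funext y
    rw [← mul_assoc, wtf_hnf W W' hk, mul_assoc]
  rw [e1]
  rw [fib_mul (g := fun _ => ENNReal.ofReal ((2 * Real.exp 9) ^ α *
        (kap ^ th) ^ (Module.finrank ℝ W' - Module.finrank ℝ W)))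
    (f := fun y => ENNReal.ofReal (Real.exp ((th / 8 + 8 / 15 * α) * ‖oc W W' y‖ ^ 2)) * q y ^ β)
    (inv_const _ _) ((measurable_expoc W W' _).mul (hq.pow_const _))]
  refine (mul_le_mul_right (mom h hβ hβ1 hc hq x) _).trans (le_of_eq ?_)
  rw [← mul_assoc, ← ENNReal.ofReal_mul (by positivity), mul_pow]
  congr 2
  ring

/-- numerical form: one own dimension at least -/
theorem mom_use {W W' : Submodule ℝ E} (h : W ≤ W') {kap th α β : ℝ} (hk : 0 ≤ kap)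
    (hβ : 0 ≤ β) (hβ1 : β < 1) (hc : 2 * (th / 8 + 8 / 15 * α) < 1 - β) {C : ℝ}
    (hd : 1 ≤ Module.finrank ℝ W' - Module.finrank ℝ W)
    (hC : (2 * Real.exp 9) ^ α * Cm (th / 8 + 8 / 15 * α) β ≤ C)
    (hC' : Cm (th / 8 + 8 / 15 * α) β ≤ C) {wt Hn : E → ℝ≥0∞} (hwt : ∀ y, wt y ≤ wtf W W' kap th y)
    (hHn : ∀ y, Hn y ≤ hnf W W' y) (hα : 0 ≤ α) {q : E → ℝ≥0∞} (hq : Measurable q) (x : E) :
    fib W (fun y => wt y * (Hn y ^ α * q y ^ β)) x ≤
      ENNReal.ofReal ((C * kap ^ th) ^ (Module.finrank ℝ W' - Module.finrank ℝ W)) *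
        fib W q x ^ β := by
  refine (fib_mono (g := fun y => wtf W W' kap th y * (hnf W W' y ^ α * q y ^ β)) (fun y =>
    mul_le_mul' (hwt y) (mul_le_mul' (ENNReal.rpow_le_rpow (hHn y) hα) le_rfl)) x).trans ?_
  refine (mom_w h hk hβ hβ1 hc hq x).trans (mul_le_mul_left (ENNReal.ofReal_le_ofReal ?_) _)
  obtain ⟨k, hk'⟩ : ∃ k, Module.finrank ℝ W' - Module.finrank ℝ W = k + 1 :=
    ⟨_, (Nat.sub_add_cancel hd).symm⟩
  rw [hk']
  have h1 : 0 ≤ kap ^ th := Real.rpow_nonneg hk _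
  have h2 := Cm_nonneg (th / 8 + 8 / 15 * α) β
  set c := Cm (th / 8 + 8 / 15 * α) β
  have h3 : 0 ≤ C * kap ^ th := mul_nonneg (h2.trans hC') h1
  calc (2 * Real.exp 9) ^ α * (kap ^ th * c) ^ (k + 1)
      = ((2 * Real.exp 9) ^ α * c * kap ^ th) * (c * kap ^ th) ^ k := by ring
    _ ≤ (C * kap ^ th) * (C * kap ^ th) ^ k := by gcongr
    _ = _ := by ring

lemma exp_nine_lt : Real.exp 9 < 8104 := by
  have h := Real.exp_one_lt_d9
  have e : Real.exp 9 = Real.exp 1 ^ 9 := by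
    rw [← Real.exp_nat_mul]; norm_num
  rw [e]
  calc Real.exp 1 ^ 9 ≤ (2.7182818286 : ℝ) ^ 9 := pow_le_pow_left₀ (Real.exp_pos _).le h.le 9
    _ < 8104 := by norm_num

lemma two_exp_rpow {α : ℝ} {B : ℝ} (hB : 0 ≤ B) (hα : 0 < α) (h : 16208 ≤ B ^ (1 / α)) :
    (2 * Real.exp 9) ^ α ≤ B := by
  have h1 : 2 * Real.exp 9 ≤ B ^ (1 / α) := by
    have := exp_nine_lt
    linarith
  calc (2 * Real.exp 9) ^ α ≤ (B ^ (1 / α)) ^ α :=
        Real.rpow_le_rpow (by positivity) h1 hα.le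
    _ = B := by rw [← Real.rpow_mul hB, one_div_mul_cancel hα.ne', Real.rpow_one]

lemma Cm_le {c β y : ℝ} (hβ : 0 ≤ β) (hβ1 : β < 1) (hy : 1 ≤ y)
    (h : 1 / y ^ 2 ≤ 1 - 2 * (c / (1 - β))) : Cm c β ≤ y := by
  unfold Cm
  have h0 : 0 < y := by linarith
  have h1 : y⁻¹ ≤ Real.sqrt (1 - 2 * (c / (1 - β))) := by
    apply Real.le_sqrt_of_sq_le
    rwa [inv_pow, ← one_div]
  have h2 : (Real.sqrt (1 - 2 * (c / (1 - β))))⁻¹ ≤ y := by
    rw [← inv_inv y]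
    exact inv_anti₀ (by positivity) h1
  calc (Real.sqrt (1 - 2 * (c / (1 - β))))⁻¹ ^ (1 - β) ≤ y ^ (1 - β) :=
        Real.rpow_le_rpow (inv_nonneg.2 (Real.sqrt_nonneg _)) h2 (by linarith)
    _ ≤ y ^ (1 : ℝ) := Real.rpow_le_rpow_of_exponent_le hy (by linarith)
    _ = y := Real.rpow_one y

/-- `th = 1/2`, `(α, β) = (1/2, 0)` -/
theorem mom_half {W W' : Submodule ℝ E} (h : W ≤ W') {kap : ℝ} (hk : 0 ≤ kap)
    (hd : 1 ≤ Module.finrank ℝ W' - Module.finrank ℝ W) {wt Hn : E → ℝ≥0∞}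
    (hwt : ∀ y, wt y ≤ wtf W W' kap (1 / 2) y) (hHn : ∀ y, Hn y ≤ hnf W W' y)
    {q : E → ℝ≥0∞} (hq : Measurable q) (x : E) :
    fib W (fun y => wt y * (Hn y ^ (1 / 2 : ℝ) * q y ^ (0 : ℝ))) x ≤
      ENNReal.ofReal ((256 * kap ^ (1 / 2 : ℝ)) ^ (Module.finrank ℝ W' - Module.finrank ℝ W)) *
        fib W q x ^ (0 : ℝ) := by
  have h1 : (2 * Real.exp 9) ^ (1 / 2 : ℝ) ≤ 128 :=
    two_exp_rpow (by norm_num) (by norm_num) (by norm_num)
  have h2 : Cm ((1 / 2 : ℝ) / 8 + 8 / 15 * (1 / 2)) 0 ≤ 2 :=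
    Cm_le le_rfl (by norm_num) (by norm_num) (by norm_num)
  refine mom_use h hk le_rfl (by norm_num) (by norm_num) hd ?_ (h2.trans (by norm_num)) hwt hHn
    (by norm_num) hq x
  calc _ ≤ (128 : ℝ) * 2 := mul_le_mul h1 h2 (Cm_nonneg _ _) (by norm_num)
    _ = 256 := by norm_num

/-- `th = 1/2`, `(α, β) = (1/4, 1/4)` -/
theorem mom_half' {W W' : Submodule ℝ E} (h : W ≤ W') {kap : ℝ} (hk : 0 ≤ kap)
    (hd : 1 ≤ Module.finrank ℝ W' - Module.finrank ℝ W) {wt Hn : E → ℝ≥0∞}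
    (hwt : ∀ y, wt y ≤ wtf W W' kap (1 / 2) y) (hHn : ∀ y, Hn y ≤ hnf W W' y)
    {q : E → ℝ≥0∞} (hq : Measurable q) (x : E) :
    fib W (fun y => wt y * (Hn y ^ (1 / 4 : ℝ) * q y ^ (1 / 4 : ℝ))) x ≤
      ENNReal.ofReal ((256 * kap ^ (1 / 2 : ℝ)) ^ (Module.finrank ℝ W' - Module.finrank ℝ W)) *
        fib W q x ^ (1 / 4 : ℝ) := by
  have h1 : (2 * Real.exp 9) ^ (1 / 4 : ℝ) ≤ 128 :=
    two_exp_rpow (by norm_num) (by norm_num) (by norm_num)
  have h2 : Cm ((1 / 2 : ℝ) / 8 + 8 / 15 * (1 / 4)) (1 / 4) ≤ 2 :=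
    Cm_le (by norm_num) (by norm_num) (by norm_num) (by norm_num)
  refine mom_use h hk (by norm_num) (by norm_num) (by norm_num) hd ?_ (h2.trans (by norm_num))
    hwt hHn (by norm_num) hq x
  calc _ ≤ (128 : ℝ) * 2 := mul_le_mul h1 h2 (Cm_nonneg _ _) (by norm_num)
    _ = 256 := by norm_num

/-- `th = 1/4`, `(α, β) = (3/4, 0)` -/
theorem mom_quarter {W W' : Submodule ℝ E} (h : W ≤ W') {kap : ℝ} (hk : 0 ≤ kap)
    (hd : 1 ≤ Module.finrank ℝ W' - Module.finrank ℝ W) {wt Hn : E → ℝ≥0∞}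
    (hwt : ∀ y, wt y ≤ wtf W W' kap (1 / 4) y) (hHn : ∀ y, Hn y ≤ hnf W W' y)
    {q : E → ℝ≥0∞} (hq : Measurable q) (x : E) :
    fib W (fun y => wt y * (Hn y ^ (3 / 4 : ℝ) * q y ^ (0 : ℝ))) x ≤
      ENNReal.ofReal ((4096 * kap ^ (1 / 4 : ℝ)) ^ (Module.finrank ℝ W' - Module.finrank ℝ W)) *
        fib W q x ^ (0 : ℝ) := by
  have h1 : (2 * Real.exp 9) ^ (3 / 4 : ℝ) ≤ 2 ^ (10.5 : ℝ) := by
    refine two_exp_rpow (by positivity) (by norm_num) ?_
    rw [← Real.rpow_mul (by norm_num)]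
    norm_num
  have h1' : (2 : ℝ) ^ (10.5 : ℝ) ≤ 1450 := by
    have : ((2 : ℝ) ^ (10.5 : ℝ)) ^ 2 ≤ 1450 ^ 2 := by
      rw [← Real.rpow_mul_natCast (by norm_num)]
      norm_num
    exact le_of_sq_le_sq this (by norm_num)
  have h2 : Cm ((1 / 4 : ℝ) / 8 + 8 / 15 * (3 / 4)) 0 ≤ 2.75 :=
    Cm_le le_rfl (by norm_num) (by norm_num) (by norm_num)
  refine mom_use h hk le_rfl (by norm_num) (by norm_num) hd ?_ (h2.trans (by norm_num)) hwt hHn
    (by norm_num) hq x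
  calc _ ≤ (1450 : ℝ) * 2.75 := mul_le_mul (h1.trans h1') h2 (Cm_nonneg _ _) (by norm_num)
    _ ≤ 4096 := by norm_num

/-- `th = 1/4`, `(α, β) = (3/8, 3/8)` -/
theorem mom_quarter' {W W' : Submodule ℝ E} (h : W ≤ W') {kap : ℝ} (hk : 0 ≤ kap)
    (hd : 1 ≤ Module.finrank ℝ W' - Module.finrank ℝ W) {wt Hn : E → ℝ≥0∞}
    (hwt : ∀ y, wt y ≤ wtf W W' kap (1 / 4) y) (hHn : ∀ y, Hn y ≤ hnf W W' y)
    {q : E → ℝ≥0∞} (hq : Measurable q) (x : E) :
    fib W (fun y => wt y * (Hn y ^ (3 / 8 : ℝ) * q y ^ (3 / 8 : ℝ))) x ≤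
      ENNReal.ofReal ((4096 * kap ^ (1 / 4 : ℝ)) ^ (Module.finrank ℝ W' - Module.finrank ℝ W)) *
        fib W q x ^ (3 / 8 : ℝ) := by
  have h1 : (2 * Real.exp 9) ^ (3 / 8 : ℝ) ≤ 64 := by
    refine two_exp_rpow (by norm_num) (by norm_num) ?_
    have : (64 : ℝ) = 2 ^ (6 : ℝ) := by norm_num
    rw [this, ← Real.rpow_mul (by norm_num)]
    norm_num
  have h2 : Cm ((1 / 4 : ℝ) / 8 + 8 / 15 * (3 / 8)) (3 / 8) ≤ 2 :=
    Cm_le (by norm_num) (by norm_num) (by norm_num) (by norm_num)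
  refine mom_use h hk (by norm_num) (by norm_num) (by norm_num) hd ?_ (h2.trans (by norm_num))
    hwt hHn (by norm_num) hq x
  calc _ ≤ (64 : ℝ) * 2 := mul_le_mul h1 h2 (Cm_nonneg _ _) (by norm_num)
    _ ≤ 4096 := by norm_num

/-! ### the same with a polynomial factor in one own coordinate -/

lemma one_add_le_exp {t : ℝ} (ht : 0 ≤ t) : 1 + t ≤ 3 * Real.exp (3 / 50 * t ^ 2) := by
  have h := Real.add_one_le_exp (3 / 50 * t ^ 2)
  nlinarith [sq_nonneg (t - 2.7)]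

lemma inner_le_oc {W W' : Submodule ℝ E} (h : W ≤ W') {e : E} (he : e ∈ W') (he' : e ∈ Wᗮ)
    (hn : ‖e‖ ≤ 1) (y : E) : |⟪e, y⟫| ≤ ‖oc W W' y‖ := by
  have h1 : ⟪e, y⟫ = ⟪e, oc W W' y⟫ := by
    unfold oc
    have h2 : ⟪e, W'.starProjection y⟫ = ⟪e, y⟫ := by
      rw [← Submodule.inner_starProjection_left_eq_right,
        Submodule.starProjection_eq_self_iff.2 he]
    have h3 : ⟪e, W.starProjection y⟫ = (0 : ℝ) := by
      rw [← Submodule.inner_starProjection_left_eq_right,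
        (Submodule.starProjection_apply_eq_zero_iff _).2 he', inner_zero_left]
    rw [inner_sub_right, h2, h3, sub_zero]
  rw [h1]
  calc |⟪e, oc W W' y⟫| ≤ ‖e‖ * ‖oc W W' y‖ := abs_real_inner_le_norm _ _
    _ ≤ 1 * ‖oc W W' y‖ := by gcongr
    _ = _ := one_mul _

/-- `th = 1/2`, `α = 1/2`, with a factor `1 + |⟨e, y⟩|` -/
theorem mom_half_e {W W' : Submodule ℝ E} (h : W ≤ W') {kap : ℝ} (hk : 0 ≤ kap)
    (hd : 1 ≤ Module.finrank ℝ W' - Module.finrank ℝ W) {wt Hn : E → ℝ≥0∞}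
    (hwt : ∀ y, wt y ≤ wtf W W' kap (1 / 2) y) (hHn : ∀ y, Hn y ≤ hnf W W' y)
    {e : E} (he : e ∈ W') (he' : e ∈ Wᗮ) (hn : ‖e‖ ≤ 1) (x : E) :
    fib W (fun y => wt y * (ENNReal.ofReal (1 + |⟪e, y⟫|) * Hn y ^ (1 / 2 : ℝ))) x ≤
      3 * ENNReal.ofReal ((384 * kap ^ (1 / 2 : ℝ)) ^
        (Module.finrank ℝ W' - Module.finrank ℝ W)) := by
  have h1 : (2 * Real.exp 9) ^ (1 / 2 : ℝ) ≤ 128 :=
    two_exp_rpow (by norm_num) (by norm_num) (by norm_num)
  have h2 : Cm (79 / 240 + 3 / 50) 0 ≤ 3 :=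
    Cm_le le_rfl (by norm_num) (by norm_num) (by norm_num)
  set d := Module.finrank ℝ W' - Module.finrank ℝ W with hdd
  have hpt : ∀ y, wt y * (ENNReal.ofReal (1 + |⟪e, y⟫|) * Hn y ^ (1 / 2 : ℝ)) ≤
      ENNReal.ofReal (3 * (128 * (kap ^ (1 / 2 : ℝ)) ^ d)) *
        ENNReal.ofReal (Real.exp ((79 / 240 + 3 / 50) * ‖oc W W' y‖ ^ 2)) := by
    intro y
    have h3 : ENNReal.ofReal (1 + |⟪e, y⟫|) ≤
        ENNReal.ofReal (3 * Real.exp (3 / 50 * ‖oc W W' y‖ ^ 2)) := by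
      apply ENNReal.ofReal_le_ofReal
      have h4 := inner_le_oc h he he' hn y
      exact (by linarith : 1 + |⟪e, y⟫| ≤ 1 + ‖oc W W' y‖).trans
        (one_add_le_exp (norm_nonneg _))
    calc wt y * (ENNReal.ofReal (1 + |⟪e, y⟫|) * Hn y ^ (1 / 2 : ℝ))
        ≤ wtf W W' kap (1 / 2) y * (ENNReal.ofReal (3 * Real.exp (3 / 50 * ‖oc W W' y‖ ^ 2)) *
          hnf W W' y ^ (1 / 2 : ℝ)) := by
          gcongr
          · exact hwt y
          · exact hHn y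
      _ = ENNReal.ofReal (3 * Real.exp (3 / 50 * ‖oc W W' y‖ ^ 2)) *
          (wtf W W' kap (1 / 2) y * hnf W W' y ^ (1 / 2 : ℝ)) := by ring
      _ = ENNReal.ofReal (3 * Real.exp (3 / 50 * ‖oc W W' y‖ ^ 2)) *
          (ENNReal.ofReal ((2 * Real.exp 9) ^ (1 / 2 : ℝ) *
            (kap ^ (1 / 2 : ℝ)) ^ (Module.finrank ℝ W' - Module.finrank ℝ W)) *
          ENNReal.ofReal (Real.exp (((1 / 2) / 8 + 8 / 15 * (1 / 2)) * ‖oc W W' y‖ ^ 2))) := by
          rw [wtf_hnf W W' hk]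
      _ ≤ _ := by
          rw [← ENNReal.ofReal_mul (by positivity), ← ENNReal.ofReal_mul (by positivity),
            ← ENNReal.ofReal_mul (by positivity)]
          apply ENNReal.ofReal_le_ofReal
          have e5 : ((79 / 240 + 3 / 50 : ℝ)) * ‖oc W W' y‖ ^ 2 =
              3 / 50 * ‖oc W W' y‖ ^ 2 + ((1 / 2) / 8 + 8 / 15 * (1 / 2)) * ‖oc W W' y‖ ^ 2 := by
            ring
          rw [e5, Real.exp_add]
          calc 3 * Real.exp (3 / 50 * ‖oc W W' y‖ ^ 2) * ((2 * Real.exp 9) ^ (1 / 2 : ℝ) *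
                (kap ^ (1 / 2 : ℝ)) ^ (Module.finrank ℝ W' - Module.finrank ℝ W) *
                Real.exp (((1 / 2) / 8 + 8 / 15 * (1 / 2)) * ‖oc W W' y‖ ^ 2))
              ≤ 3 * Real.exp (3 / 50 * ‖oc W W' y‖ ^ 2) * (128 *
                (kap ^ (1 / 2 : ℝ)) ^ (Module.finrank ℝ W' - Module.finrank ℝ W) *
                Real.exp (((1 / 2) / 8 + 8 / 15 * (1 / 2)) * ‖oc W W' y‖ ^ 2)) := by
                gcongr
            _ = _ := by rw [← hdd]; ring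
  refine (fib_mono hpt x).trans ?_
  rw [fib_mul (g := fun _ => ENNReal.ofReal (3 * (128 * (kap ^ (1 / 2 : ℝ)) ^ d)))
    (f := fun y => ENNReal.ofReal (Real.exp ((79 / 240 + 3 / 50) * ‖oc W W' y‖ ^ 2)))
    (inv_const _ _) (measurable_expoc W W' _)]
  have h5 := mom h (c := 79 / 240 + 3 / 50) (β := 0) le_rfl (by norm_num) (by norm_num)
    (q := fun _ => (1 : ℝ≥0∞)) measurable_const x
  simp only [ENNReal.rpow_zero, mul_one] at h5
  rw [← hdd] at h5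
  refine (mul_le_mul_right h5 _).trans ?_
  have e3 : (3 : ℝ≥0∞) = ENNReal.ofReal 3 := by norm_num
  rw [e3, ← ENNReal.ofReal_mul (by positivity), ← ENNReal.ofReal_mul (by positivity)]
  apply ENNReal.ofReal_le_ofReal
  obtain ⟨k, hk'⟩ : ∃ k, d = k + 1 := ⟨_, (Nat.sub_add_cancel hd).symm⟩
  rw [hk']
  have h0 := Cm_nonneg (79 / 240 + 3 / 50) 0
  have h6 : 0 ≤ kap ^ (1 / 2 : ℝ) := Real.rpow_nonneg hk _
  set c := Cm (79 / 240 + 3 / 50) 0
  set w := kap ^ (1 / 2 : ℝ)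
  calc 3 * (128 * w ^ (k + 1)) * c ^ (k + 1) = 3 * ((128 * c * w) * (c * w) ^ k) := by ring
    _ ≤ 3 * ((128 * 3 * w) * (384 * w) ^ k) := by
        gcongr
        exact h2.trans (by norm_num)
    _ = 3 * (384 * w) ^ (k + 1) := by ring

end Vale.Agent.P262.H606
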