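import Mathlib
import Vale.Agent.P262.H439.QTip2
import Vale.Agent.P262.H962.PCap3
import Vale.Agent.P262.H698.Fibre
import Vale.Agent.P262.H502.Mom
import Vale.Agent.P262.H59.Rim

/-!
# P262, milestone 2, THR through classes: the convexity floor

`W ≤ W'` label spaces, `x` a point, `u = P_{W'} x - P_W x` the coordinates of the deeper label over
the outer one, `K` a closed convex body. The deficit `D'` of the deeper label is at least `a` only
if `‖u‖` is large compared with `D / a`, `D` the deficit of the outer label: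
`a * γ₁ [‖u‖, ∞) ≤ D`. This is pointwise in `x`.
-/

set_option linter.all false

open MeasureTheory ProbabilityTheory Set
open scoped ENNReal NNReal RealInnerProductSpace

namespace Vale.Agent.P262.H606

open Vale.Agent.P262.H395
open Vale.Agent.P262.H439 (qq isClosed_qq)

variable {E : Type*} [NormedAddCommGroup E] [InnerProductSpace ℝ E] [FiniteDimensional ℝ E]
  [MeasurableSpace E] [BorelSpace E]

/-- deficit of a label -/
noncomputable def df (W : Submodule ℝ E) (K : Set E) (x : E) : ℝ≥0∞ := fib W (Kᶜ.indicator 1) x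

lemma df_add_qq {K : Set E} (hK : MeasurableSet K) (W : Submodule ℝ E) (x : E) :
    df W K x + H439.qq W K x = 1 := by
  unfold df H439.qq
  rw [← fib_add (measurable_one.indicator hK.compl)]
  have : (fun y => Kᶜ.indicator (1 : E → ℝ≥0∞) y + K.indicator 1 y) = fun _ => 1 := by
    funext y
    by_cases h : y ∈ K
    · rw [indicator_of_notMem (s := Kᶜ) (fun h' => h' h), indicator_of_mem h, zero_add]; rfl
    · rw [indicator_of_mem (s := Kᶜ) h, indicator_of_notMem h, add_zero]; rfl
  rw [this, fib_const]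

lemma df_le_one (W : Submodule ℝ E) (K : Set E) (x : E) : df W K x ≤ 1 :=
  fib_le_one (fun y => indicator_le_self' (fun _ _ => zero_le_one) y) x

lemma inv_df (W : Submodule ℝ E) (K : Set E) : Inv W (df W K) := inv_fib W _

lemma measurable_df {K : Set E} (hK : MeasurableSet K) (W : Submodule ℝ E) :
    Measurable (df W K) := measurable_fib (measurable_one.indicator hK.compl)

/-- sublevel sets of the deficit -/
lemma df_le_iff {K : Set E} (hK : MeasurableSet K) (W : Submodule ℝ E) (x : E) {b : ℝ≥0∞} :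
    df W K x ≤ b ↔ 1 - b ≤ H439.qq W K x := by
  have h := df_add_qq hK W x
  have h1 := df_le_one W K x
  have h2 : H439.qq W K x ≠ ∞ :=
    ne_top_of_le_ne_top ENNReal.one_ne_top (by rw [← h]; exact le_add_self)
  have h3 : df W K x = 1 - H439.qq W K x := by
    rw [← h]; exact (ENNReal.add_sub_cancel_right h2).symm
  constructor
  · intro hb
    rw [tsub_le_iff_right, ← h, add_comm]
    gcongr
  · intro hb
    rw [h3, tsub_le_iff_right]
    have := tsub_le_iff_right.1 hb
    rw [add_comm]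
    exact this

lemma isClosed_df_le {K : Set E} (hK : IsClosed K) (W : Submodule ℝ E) (b : ℝ≥0∞) :
    IsClosed {x | df W K x ≤ b} := by
  have : {x | df W K x ≤ b} = {x | 1 - b ≤ H439.qq W K x} := by
    ext x; exact df_le_iff hK.measurableSet W x
  rw [this]
  exact H439.isClosed_qq hK _

lemma convex_qq_ge {V : Submodule ℝ E} {K : Set E} (hK : MeasurableSet K) (hKc : Convex ℝ K)
    (c : ℝ≥0∞) : Convex ℝ {x | c ≤ H439.qq V K x} := by
  intro x hx y hy s t hs ht hst
  rcases hs.eq_or_lt with h | hs'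
  · have ht1 : t = 1 := by linarith
    rw [← h, ht1, zero_smul, one_smul, zero_add]
    exact hy
  rcases ht.eq_or_lt with h | ht'
  · have hs1 : s = 1 := by linarith
    rw [← h, hs1, zero_smul, one_smul, add_zero]
    exact hx
  have h := H439.qq_lc (V := V) hK hKc x y s t hs' ht' hst
  refine le_trans ?_ h
  calc c = c ^ s * c ^ t := by
        rcases eq_or_ne c 0 with h0 | h0
        · rw [h0, ENNReal.zero_rpow_of_pos hs', zero_mul]
        · rcases eq_or_ne c ∞ with h1 | h1
          · rw [h1, ENNReal.top_rpow_of_pos hs', ENNReal.top_rpow_of_pos ht']; simp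
          · rw [← ENNReal.rpow_add _ _ h0 h1, hst, ENNReal.rpow_one]
    _ ≤ _ := mul_le_mul' (ENNReal.rpow_le_rpow hx hs'.le) (ENNReal.rpow_le_rpow hy ht'.le)

lemma convex_df_le {K : Set E} (hK : MeasurableSet K) (hKc : Convex ℝ K) (W : Submodule ℝ E)
    (b : ℝ≥0∞) : Convex ℝ {x | df W K x ≤ b} := by
  have : {x | df W K x ≤ b} = {x | 1 - b ≤ H439.qq W K x} := by
    ext x; exact df_le_iff hK W x
  rw [this]
  exact convex_qq_ge hK hKc _

/-- law of a linear functional -/
lemma half_space_ge (n : E) (u : E) :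
    gaussianReal 0 1 (Ici ‖u‖) ≤ stdGaussian E {z | ⟪n, u⟫ ≤ ⟪n, z⟫} := by
  rcases eq_or_ne n 0 with h0 | h0
  · have : {z : E | ⟪n, u⟫ ≤ ⟪n, z⟫} = univ := by
      ext z; simp [h0]
    rw [this, measure_univ]
    exact prob_le_one
  · have hn : 0 < ‖n‖ := norm_pos_iff.mpr h0
    set e : E := ‖n‖⁻¹ • n with he
    have he1 : ‖e‖ = 1 := by
      rw [he, norm_smul, norm_inv, norm_norm, inv_mul_cancel₀ hn.ne']
    have hne : n = ‖n‖ • e := by
      rw [he, smul_smul, mul_inv_cancel₀ hn.ne', one_smul]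
    have hm : Measurable fun z : E => ⟪e, z⟫ := by fun_prop
    rw [← H59.map_inner_std he1, Measure.map_apply hm measurableSet_Ici]
    refine measure_mono fun z hz => ?_
    have hz' : ‖u‖ ≤ ⟪e, z⟫ := hz
    show ⟪n, u⟫ ≤ ⟪n, z⟫
    have h1 : ∀ w : E, ⟪n, w⟫ = ‖n‖ * ⟪e, w⟫ := fun w => by
      conv_lhs => rw [hne]
      rw [real_inner_smul_left]
    rw [h1, h1]
    refine mul_le_mul_of_nonneg_left ?_ hn.le
    refine le_trans ?_ hz'
    have := real_inner_le_norm e u
    rwa [he1, one_mul] at this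

/-- **(F1) convexity floor** -/
theorem floor {W W' : Submodule ℝ E} (h : W ≤ W') {K : Set E} (hK : IsClosed K)
    (hKc : Convex ℝ K) (x : E) :
    df W' K x * gaussianReal 0 1 (Ici ‖W'.starProjection x - W.starProjection x‖) ≤
      df W K x := by
  set u : E := W'.starProjection x - W.starProjection x with hu
  refine ENNReal.mul_le_of_forall_lt fun b hb c hc => ?_
  refine (mul_le_mul' le_rfl hc.le).trans ?_
  -- the closed convex set {D' ≤ b}
  set C : Set E := {y | df W' K y ≤ b} with hC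
  have hCc : IsClosed C := isClosed_df_le hK W' b
  have hCv : Convex ℝ C := convex_df_le hK.measurableSet hKc W' b
  have hpr : ∀ y, df W' K (W'.starProjection y) = df W' K y := by
    intro y
    have h1 := inv_df W' K (W'.starProjection y) (y - W'.starProjection y)
      (Submodule.sub_starProjection_mem_orthogonal y)
    rw [add_sub_cancel] at h1
    exact h1.symm
  have hx : W'.starProjection x ∉ C := by
    intro hc
    have h1 : df W' K (W'.starProjection x) ≤ b := hc
    rw [hpr] at h1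
    exact absurd h1 (not_le.mpr hb)
  obtain ⟨f, r, hf1, hf2⟩ := geometric_hahn_banach_closed_point hCv hCc hx
  -- the functional as a vector of W'
  set v : E := (InnerProductSpace.toDual ℝ E).symm f with hv
  have hfv : ∀ y, f y = ⟪v, y⟫ := fun y => by
    rw [hv, InnerProductSpace.toDual_symm_apply]
  set n : E := W'.starProjection v with hn
  have hW' : W'.starProjection n = n := by
    rw [hn]; exact Submodule.starProjection_eq_self_iff.mpr (Submodule.starProjection_apply_mem _ _)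
  have hfn : ∀ y, f (W'.starProjection y) = ⟪n, y⟫ := by
    intro y
    rw [hfv, hn, Submodule.inner_starProjection_left_eq_right]
  have hD : ∀ z, ⟪n, u⟫ ≤ ⟪n, z - W.starProjection z⟫ → b ≤ df W' K (mix W x z) := by
    intro z hz
    by_contra hcon
    push Not at hcon
    have hz2 : W'.starProjection (mix W x z) ∈ C := by
      show df W' K (W'.starProjection (mix W x z)) ≤ b
      rw [hpr]
      exact hcon.le
    have h3 := hf1 _ hz2
    have h4 := h3.trans hf2
    rw [hfn, hfn] at h4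
    have h5 : ⟪n, mix W x z⟫ = ⟪n, W.starProjection x⟫ + ⟪n, z - W.starProjection z⟫ := by
      rw [← inner_add_right]
      rfl
    have h6 : ⟪n, x⟫ = ⟪n, W.starProjection x⟫ + ⟪n, u⟫ := by
      rw [← inner_add_right, hu]
      have e1 : W.starProjection x + (W'.starProjection x - W.starProjection x) =
          W'.starProjection x := by abel
      have e2 : ⟪W'.starProjection n, x⟫ = ⟪n, W'.starProjection x⟫ :=
        Submodule.inner_starProjection_left_eq_right _ _ _
      rw [e1, ← e2, hW']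
    rw [h5, h6] at h4
    linarith
  -- projection to the orthogonal complement of W
  set n0 : E := n - W.starProjection n with hn0
  have hPu : W.starProjection u = 0 := by
    rw [hu, map_sub, proj_proj]
    have h3 : x - W'.starProjection x ∈ Wᗮ :=
      Submodule.orthogonal_le h (Submodule.sub_starProjection_mem_orthogonal x)
    have h4 := proj_eq_zero h3
    rw [map_sub, sub_eq_zero] at h4
    rw [← h4, sub_self]
  have hsa : ∀ z, ⟪W.starProjection n, z⟫ = ⟪n, W.starProjection z⟫ := fun z =>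
    Submodule.inner_starProjection_left_eq_right _ _ _
  have hn0u : ⟪n0, u⟫ = ⟪n, u⟫ := by
    rw [hn0, inner_sub_left, hsa, hPu, inner_zero_right, sub_zero]
  have hn0z : ∀ z, ⟪n0, z⟫ = ⟪n, z - W.starProjection z⟫ := by
    intro z
    rw [hn0, inner_sub_left, inner_sub_right, hsa]
  have key : b * stdGaussian E {z | ⟪n0, u⟫ ≤ ⟪n0, z⟫} ≤ df W K x := by
    have hm : MeasurableSet {z : E | ⟪n0, u⟫ ≤ ⟪n0, z⟫} := by
      have : Continuous fun z : E => (⟪n0, z⟫ : ℝ) := by fun_prop
      exact (isClosed_le continuous_const this).measurableSet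
    have e1 : df W K x = fib W (df W' K) x := by
      unfold df
      exact (fib_tower h (measurable_one.indicator hK.measurableSet.compl) x).symm
    rw [e1]
    unfold fib
    rw [← lintegral_indicator_const hm]
    refine lintegral_mono fun z => ?_
    by_cases hz : z ∈ {z : E | ⟪n0, u⟫ ≤ ⟪n0, z⟫}
    · rw [indicator_of_mem hz]
      refine hD z ?_
      have : ⟪n0, u⟫ ≤ ⟪n0, z⟫ := hz
      rw [hn0u, hn0z] at this
      exact this
    · rw [indicator_of_notMem hz]
      exact zero_le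
  exact (mul_le_mul' le_rfl (half_space_ge n0 u)).trans key

/-! ### explicit form -/

/-- lower bound of the Gaussian tail -/
lemma tail_ge {t : ℝ} (ht : 0 ≤ t) :
    ENNReal.ofReal (Real.exp (-2 - t ^ 2)) ≤ gaussianReal 0 1 (Ici t) := by
  refine le_trans ?_ (H698.tail_lower (M := 1) ht le_rfl)
  apply ENNReal.ofReal_le_ofReal
  rw [H698.gpdf_form, div_one, one_div_one]
  have h1 : Real.exp (-1) ≤ (√(2 * Real.pi))⁻¹ := by
    rw [Real.exp_neg]
    apply inv_anti₀ (by have := Real.pi_pos; positivity)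
    rw [Real.sqrt_le_left (Real.exp_pos 1).le]
    have h3 : (2.7182818283 : ℝ) ≤ Real.exp 1 := Real.exp_one_gt_d9.le
    have h4 : Real.pi ≤ 3.15 := Real.pi_lt_d2.le
    nlinarith
  calc Real.exp (-2 - t ^ 2) ≤ Real.exp (-1) * Real.exp (-(t + 1) ^ 2 / 2) := by
        rw [← Real.exp_add]
        apply Real.exp_le_exp.mpr
        nlinarith [sq_nonneg (t - 1)]
    _ ≤ _ := mul_le_mul_of_nonneg_right h1 (Real.exp_pos _).le

/-- **(F2)**: a deficit `≥ a` below a label of deficit `≤ a exp (-L)` needs `‖u‖² ≥ L - 2`. -/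
theorem floor_norm {W W' : Submodule ℝ E} (h : W ≤ W') {K : Set E} (hK : IsClosed K)
    (hKc : Convex ℝ K) {x : E} {a L : ℝ} (ha : 0 < a)
    (h1 : ENNReal.ofReal a ≤ df W' K x) (h2 : df W K x ≤ ENNReal.ofReal (a * Real.exp (-L))) :
    L - 2 ≤ ‖W'.starProjection x - W.starProjection x‖ ^ 2 := by
  have h3 := floor h hK hKc x
  have h4 := tail_ge (norm_nonneg (W'.starProjection x - W.starProjection x))
  have h5 : ENNReal.ofReal (a * Real.exp (-2 - ‖W'.starProjection x - W.starProjection x‖ ^ 2)) ≤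
      ENNReal.ofReal (a * Real.exp (-L)) := by
    rw [ENNReal.ofReal_mul ha.le]
    exact (mul_le_mul' h1 h4).trans (h3.trans h2)
  rw [ENNReal.ofReal_le_ofReal_iff (by positivity)] at h5
  have h6 := le_of_mul_le_mul_left h5 ha
  have h7 := Real.exp_le_exp.mp h6
  linarith

/-- **(F2')** with thresholds: `D' ≥ exp (1 - 4^c')/10`, `D < exp (1 - 4^b)/10`. -/
theorem floor_class {W W' : Submodule ℝ E} (h : W ≤ W') {K : Set E} (hK : IsClosed K)
    (hKc : Convex ℝ K) {x : E} {b c : ℕ}
    (h1 : ENNReal.ofReal (Real.exp (1 - 4 ^ c) / 10) ≤ df W' K x)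
    (h2 : df W K x ≤ ENNReal.ofReal (Real.exp (1 - 4 ^ b) / 10)) :
    (4 : ℝ) ^ b - 4 ^ c - 2 ≤ ‖W'.starProjection x - W.starProjection x‖ ^ 2 := by
  refine floor_norm h hK hKc (a := Real.exp (1 - 4 ^ c) / 10) (by positivity) h1 ?_
  refine h2.trans (le_of_eq ?_)
  congr 1
  rw [div_mul_eq_mul_div, ← Real.exp_add]
  congr 2
  ring

/-- numbers: from class index `b` down to `c ≤ b - 1` -/
lemma floor_num {b c : ℕ} (hb : 1 ≤ b) (hc : c + 1 ≤ b) :
    (4 : ℝ) ^ b / 4 ≤ 4 ^ b - 4 ^ c - 2 := by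
  have h1 : (4 : ℝ) ^ (c + 1) ≤ 4 ^ b := pow_le_pow_right₀ (by norm_num) hc
  have h2 : (4 : ℝ) ^ 1 ≤ 4 ^ b := pow_le_pow_right₀ (by norm_num) hb
  rw [pow_succ] at h1
  norm_num at h2
  linarith

lemma floor_num2 {b c : ℕ} (hb : 2 ≤ b) (hc : c + 1 ≤ b) :
    (4 : ℝ) ^ b / 2 ≤ 4 ^ b - 4 ^ c - 2 := by
  have h1 : (4 : ℝ) ^ (c + 1) ≤ 4 ^ b := pow_le_pow_right₀ (by norm_num) hc
  have h2 : (4 : ℝ) ^ 2 ≤ 4 ^ b := pow_le_pow_right₀ (by norm_num) hb
  rw [pow_succ] at h1
  norm_num at h2
  linarith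

/-- **(F2'')** the floor for classes: the outer label has deficit `≤ thr b`, the deeper label
deficit `≥ thr c`, `c < b`: then `‖u‖² ≥ 4 ^ b / 4`. -/
theorem floor_class' {W W' : Submodule ℝ E} (h : W ≤ W') {K : Set E} (hK : IsClosed K)
    (hKc : Convex ℝ K) {x : E} {b c : ℕ} (hcb : c + 1 ≤ b)
    (h1 : ENNReal.ofReal (Real.exp (1 - 4 ^ c) / 10) ≤ df W' K x)
    (h2 : df W K x ≤ ENNReal.ofReal (Real.exp (1 - 4 ^ b) / 10)) :
    (4 : ℝ) ^ b / 4 ≤ ‖W'.starProjection x - W.starProjection x‖ ^ 2 :=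
  (floor_num (by omega) hcb).trans (floor_class h hK hKc h1 h2)

/-! ### exempt moments -/

/-- Pythagoras along a chain of subspaces -/
lemma sum_norm_sq {V : ℕ → Submodule ℝ E} (hV : Monotone V) (y : E) (r : ℕ) :
    ∑ j ∈ Finset.range r, ‖(V (j + 1)).starProjection y - (V j).starProjection y‖ ^ 2 =
      ‖(V r).starProjection y - (V 0).starProjection y‖ ^ 2 := by
  induction r with
  | zero => simp
  | succ r ih =>
    rw [Finset.sum_range_succ, ih]
    have e1 : (V (r + 1)).starProjection y - (V 0).starProjection y =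
        ((V r).starProjection y - (V 0).starProjection y) +
          ((V (r + 1)).starProjection y - (V r).starProjection y) := by abel
    rw [e1, norm_add_sq_real]
    have h2 : ⟪(V r).starProjection y - (V 0).starProjection y,
        (V (r + 1)).starProjection y - (V r).starProjection y⟫ = 0 := by
      rw [← H502.proj_sub (hV (Nat.le_succ r))]
      have h3 : ((V r)ᗮ ⊓ V (r + 1) : Submodule ℝ E).starProjection y ∈ (V r)ᗮ :=
        (Submodule.starProjection_apply_mem ((V r)ᗮ ⊓ V (r + 1) : Submodule ℝ E) y).1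
      have h4 : (V r).starProjection y - (V 0).starProjection y ∈ V r :=
        Submodule.sub_mem _ (Submodule.starProjection_apply_mem _ _)
          (hV (Nat.zero_le r) (Submodule.starProjection_apply_mem _ _))
      exact (Submodule.mem_orthogonal _ _).mp h3 _ h4
    rw [h2]
    ring

lemma norm_sq_le_of_le {W V V' W' : Submodule ℝ E} (h1 : W ≤ V) (h2 : V ≤ V') (h3 : V' ≤ W')
    (y : E) : ‖V'.starProjection y - V.starProjection y‖ ^ 2 ≤
      ‖W'.starProjection y - W.starProjection y‖ ^ 2 := by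
  have hmono : Monotone (fun n : ℕ => if n = 0 then W else if n = 1 then V else
      if n = 2 then V' else W') := by
    refine monotone_nat_of_le_succ fun n => ?_
    rcases n with _ | _ | _ | n
    · simpa using h1
    · simpa using h2
    · simpa using h3
    · simp
  have h := sum_norm_sq hmono y 3
  rw [Finset.sum_range_succ, Finset.sum_range_succ, Finset.sum_range_one] at h
  simp at h
  rw [← h]
  have a1 := sq_nonneg ‖V.starProjection y - W.starProjection y‖
  have a2 := sq_nonneg ‖W'.starProjection y - V'.starProjection y‖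
  linarith

/-- the exempt event: `‖u_j‖² ≥ T j` for the steps `j ∈ ex` -/
def exm (V : ℕ → Submodule ℝ E) (ex : Finset ℕ) (T : ℕ → ℝ) : Set E :=
  {y | ∀ j ∈ ex, T j ≤ ‖(V (j + 1)).starProjection y - (V j).starProjection y‖ ^ 2}

lemma measurableSet_exm (V : ℕ → Submodule ℝ E) (ex : Finset ℕ) (T : ℕ → ℝ) :
    MeasurableSet (exm V ex T) := by
  have : exm V ex T = ⋂ j ∈ ex, {y | T j ≤ ‖(V (j + 1)).starProjection y -
      (V j).starProjection y‖ ^ 2} := by
    ext y; simp [exm]
  rw [this]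
  refine Finset.measurableSet_biInter _ fun j _ => ?_
  have h : Continuous fun y : E => ‖(V (j + 1)).starProjection y - (V j).starProjection y‖ ^ 2 := by
    fun_prop
  exact (isClosed_le continuous_const h).measurableSet

/-- the exempt indicator is dominated by an exponential of the total increment -/
lemma exm_le {V : ℕ → Submodule ℝ E} (hV : Monotone V) {W W' : Submodule ℝ E} {r : ℕ}
    (hW : W ≤ V 0) (hW' : V r ≤ W') {ex : Finset ℕ} (hex : ∀ j ∈ ex, j < r) (T : ℕ → ℝ) {c : ℝ}
    (hc : 0 ≤ c) (y : E) :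
    (exm V ex T).indicator (1 : E → ℝ≥0∞) y ≤
      ENNReal.ofReal (Real.exp (-(c * ∑ j ∈ ex, T j))) *
        ENNReal.ofReal (Real.exp (c * ‖W'.starProjection y - W.starProjection y‖ ^ 2)) := by
  by_cases hy : y ∈ exm V ex T
  · rw [indicator_of_mem hy, ← ENNReal.ofReal_mul (Real.exp_pos _).le, ← Real.exp_add]
    show (1 : ℝ≥0∞) ≤ _
    rw [← ENNReal.ofReal_one]
    apply ENNReal.ofReal_le_ofReal
    apply Real.one_le_exp
    have h1 : ∑ j ∈ ex, T j ≤
        ∑ j ∈ ex, ‖(V (j + 1)).starProjection y - (V j).starProjection y‖ ^ 2 :=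
      Finset.sum_le_sum hy
    have h2 : ∑ j ∈ ex, ‖(V (j + 1)).starProjection y - (V j).starProjection y‖ ^ 2 ≤
        ∑ j ∈ Finset.range r, ‖(V (j + 1)).starProjection y - (V j).starProjection y‖ ^ 2 :=
      Finset.sum_le_sum_of_subset_of_nonneg (fun j hj => Finset.mem_range.2 (hex j hj))
        fun _ _ _ => sq_nonneg _
    rw [sum_norm_sq hV] at h2
    have h3 := norm_sq_le_of_le hW (hV (Nat.zero_le r)) hW' y
    nlinarith [mul_le_mul_of_nonneg_left (h1.trans (h2.trans h3)) hc]
  · rw [indicator_of_notMem hy]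
    exact zero_le

/-- exponential moment of the total increment in a fibre -/
lemma fib_exp_incr {W W' : Submodule ℝ E} (h : W ≤ W') {c : ℝ} (hc : c < 1 / 2) (x : E) :
    fib W (fun y => ENNReal.ofReal
        (Real.exp (c * ‖W'.starProjection y - W.starProjection y‖ ^ 2))) x =
      ENNReal.ofReal ((Real.sqrt (1 - 2 * c))⁻¹) ^
        (Module.finrank ℝ W' - Module.finrank ℝ W) := by
  have hfr : Module.finrank ℝ W' - Module.finrank ℝ W =
      Module.finrank ℝ (Wᗮ ⊓ W' : Submodule ℝ E) := by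
    have := H502.finrank_inf h
    omega
  rw [hfr, ← H962.lintegral_exp_proj (Wᗮ ⊓ W' : Submodule ℝ E) hc]
  unfold fib
  refine lintegral_congr fun z => ?_
  have e : W'.starProjection (mix W x z) - W.starProjection (mix W x z) =
      (Wᗮ ⊓ W' : Submodule ℝ E).starProjection z := by
    rw [starProjection_mix, H502.proj_sub h]
    unfold mix
    rw [map_add, map_sub, H502.proj_le_of_le h, H502.proj_le_of_le h]
    abel
  show ENNReal.ofReal (Real.exp (c * ‖W'.starProjection (mix W x z) -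
    W.starProjection (mix W x z)‖ ^ 2)) = _
  rw [e]

open Vale.Agent.P262.H962 (capS PB measurable_capS fib_capS_mul_le fib_holder capS_rpow)

/-- cap moment with the exponential of the total increment -/
theorem fib_capS_incr {l l' : List (Submodule ℝ E)} {W W' : Submodule ℝ E} {q A0 kap s ε : ℝ}
    (hε : 2 * (Real.sqrt 2 * Real.exp (-(q / 4))) ≤ ε) (hε1 : ε < 1)
    (h1 : ∀ V ∈ l, V ≤ W) (hW : W ∈ l ∨ W = ⊥) (hp : l'.Pairwise (· < ·)) (h2 : ∀ V ∈ l', W < V)
    (hWW : W ≤ W') (hA : 0 < A0) (hk : 0 < kap) (hs : 0 ≤ s) (hs1 : s ≤ 1) (hq : 0 ≤ q) (x : E) :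
    fib W (fun y => capS A0 kap q s (l ++ l') W' y * ENNReal.ofReal
        (Real.exp (1 / 16 * ‖W'.starProjection y - W.starProjection y‖ ^ 2))) x ≤
      ENNReal.ofReal (Real.sqrt (1 - ε)⁻¹ *
        (kap ^ (Module.finrank ℝ W' - Module.finrank ℝ W)) ^ s *
        (11 / 10) ^ (Module.finrank ℝ W' - Module.finrank ℝ W)) *
        capS A0 kap q s l W x := by
  set k := Module.finrank ℝ W' - Module.finrank ℝ W with hk'
  set g : E → ℝ≥0∞ := fun y => ENNReal.ofReal
    (Real.exp (1 / 16 * ‖W'.starProjection y - W.starProjection y‖ ^ 2)) with hg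
  have hgm : Measurable g := by
    rw [hg]
    have : Continuous fun y : E => ‖W'.starProjection y - W.starProjection y‖ ^ 2 := by fun_prop
    exact ENNReal.measurable_ofReal.comp (Real.measurable_exp.comp
      (this.measurable.const_mul _))
  have h4 := fib_capS_mul_le (A0 := A0) (kap := kap) (s := s) hε hε1 h1 hW hp h2 hWW hA hk hs hs1
    hq hgm x
  have e1 : (fun y => g y ^ (2 : ℝ)) = fun y => ENNReal.ofReal
      (Real.exp (1 / 8 * ‖W'.starProjection y - W.starProjection y‖ ^ 2)) := by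
    funext y
    rw [hg]
    simp only
    rw [ENNReal.ofReal_rpow_of_pos (Real.exp_pos _), ← Real.exp_mul]
    congr 2
    ring
  rw [e1, fib_exp_incr hWW (by norm_num), ← hk'] at h4
  have h6 : (0.8265 : ℝ) ≤ Real.sqrt (1 - 2 * (1 / 8)) := by
    apply Real.le_sqrt_of_sq_le
    norm_num
  have h5 : (ENNReal.ofReal ((Real.sqrt (1 - 2 * (1 / 8)))⁻¹) ^ k) ^ (1 / 2 : ℝ) ≤
      ENNReal.ofReal ((11 / 10) ^ k) := by
    have hX : ENNReal.ofReal ((Real.sqrt (1 - 2 * (1 / 8)))⁻¹) ≤ ENNReal.ofReal (11 / 10) ^ 2 := by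
      rw [← ENNReal.ofReal_pow (by norm_num)]
      apply ENNReal.ofReal_le_ofReal
      calc (Real.sqrt (1 - 2 * (1 / 8)))⁻¹ ≤ (0.8265 : ℝ)⁻¹ := inv_anti₀ (by norm_num) h6
        _ ≤ _ := by norm_num
    have h7 : ENNReal.ofReal ((Real.sqrt (1 - 2 * (1 / 8)))⁻¹) ^ k ≤
        ENNReal.ofReal ((11 / 10) ^ k) ^ (2 : ℝ) := by
      calc ENNReal.ofReal ((Real.sqrt (1 - 2 * (1 / 8)))⁻¹) ^ k
          ≤ (ENNReal.ofReal (11 / 10) ^ 2) ^ k := pow_le_pow_left' hX k
        _ = (ENNReal.ofReal (11 / 10) ^ k) ^ 2 := by rw [← pow_mul, ← pow_mul, mul_comm]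
        _ = _ := by
            rw [ENNReal.ofReal_pow (by norm_num : (0 : ℝ) ≤ 11 / 10)]
            norm_num
    calc (ENNReal.ofReal ((Real.sqrt (1 - 2 * (1 / 8)))⁻¹) ^ k) ^ (1 / 2 : ℝ)
        ≤ (ENNReal.ofReal ((11 / 10) ^ k) ^ (2 : ℝ)) ^ (1 / 2 : ℝ) :=
          ENNReal.rpow_le_rpow h7 (by norm_num)
      _ = _ := by
          rw [← ENNReal.rpow_mul]
          norm_num
  refine (h4.trans (mul_le_mul' le_rfl h5)).trans (le_of_eq ?_)
  have hc0 : (0 : ℝ) ≤ Real.sqrt (1 - ε)⁻¹ * (kap ^ k) ^ s := by positivity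
  rw [mul_right_comm, ← ENNReal.ofReal_mul hc0]

/-- **(F3)** cap moment with exempt indicators -/
theorem fib_capS_exm {l l' : List (Submodule ℝ E)} {W W' : Submodule ℝ E} {q A0 kap s ε : ℝ}
    (hε : 2 * (Real.sqrt 2 * Real.exp (-(q / 4))) ≤ ε) (hε1 : ε < 1)
    (h1 : ∀ V ∈ l, V ≤ W) (hW : W ∈ l ∨ W = ⊥) (hp : l'.Pairwise (· < ·)) (h2 : ∀ V ∈ l', W < V)
    (hWW : W ≤ W') (hA : 0 < A0) (hk : 0 < kap) (hs : 0 ≤ s) (hs1 : s ≤ 1) (hq : 0 ≤ q)
    {V : ℕ → Submodule ℝ E} (hV : Monotone V) {r : ℕ} (hV0 : W ≤ V 0) (hVr : V r ≤ W')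
    {ex : Finset ℕ} (hex : ∀ j ∈ ex, j < r) (T : ℕ → ℝ) (x : E) :
    fib W (fun y => capS A0 kap q s (l ++ l') W' y * (exm V ex T).indicator 1 y) x ≤
      ENNReal.ofReal (Real.exp (-(1 / 16 * ∑ j ∈ ex, T j))) *
        (ENNReal.ofReal (Real.sqrt (1 - ε)⁻¹ *
        (kap ^ (Module.finrank ℝ W' - Module.finrank ℝ W)) ^ s *
        (11 / 10) ^ (Module.finrank ℝ W' - Module.finrank ℝ W)) *
        capS A0 kap q s l W x) := by
  have hgm : Measurable fun y : E => ENNReal.ofReal
      (Real.exp (1 / 16 * ‖W'.starProjection y - W.starProjection y‖ ^ 2)) := by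
    have : Continuous fun y : E => ‖W'.starProjection y - W.starProjection y‖ ^ 2 := by fun_prop
    exact ENNReal.measurable_ofReal.comp (Real.measurable_exp.comp
      (this.measurable.const_mul _))
  refine le_trans ?_ (mul_le_mul' le_rfl (fib_capS_incr (A0 := A0) (kap := kap) (s := s) hε hε1 h1
    hW hp h2 hWW hA hk hs hs1 hq x))
  have hmm : Measurable fun y : E => capS A0 kap q s (l ++ l') W' y * ENNReal.ofReal
      (Real.exp (1 / 16 * ‖W'.starProjection y - W.starProjection y‖ ^ 2)) :=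
    measurable_capS.mul hgm
  rw [← fib_mul (inv_const W _) hmm]
  refine fib_mono (fun y => ?_) x
  calc capS A0 kap q s (l ++ l') W' y * (exm V ex T).indicator 1 y
      ≤ capS A0 kap q s (l ++ l') W' y *
        (ENNReal.ofReal (Real.exp (-(1 / 16 * ∑ j ∈ ex, T j))) * ENNReal.ofReal
      (Real.exp (1 / 16 * ‖W'.starProjection y - W.starProjection y‖ ^ 2))) :=
        mul_le_mul' le_rfl (exm_le hV hV0 hVr hex T (by norm_num) y)
    _ = _ := by ring

/-- **(F3')** Hölder form: caps with exempt indicators times a power of a mass -/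
theorem fib_cap_holder_exm {l l' : List (Submodule ℝ E)} {W W' : Submodule ℝ E}
    {q A0 kap th ε : ℝ}
    (hε : 2 * (Real.sqrt 2 * Real.exp (-(q / 4))) ≤ ε) (hε1 : ε < 1)
    (h1 : ∀ V ∈ l, V ≤ W) (hW : W ∈ l ∨ W = ⊥) (hp : l'.Pairwise (· < ·)) (h2 : ∀ V ∈ l', W < V)
    (hWW : W ≤ W') (hA : 0 < A0) (hk : 0 < kap) (hq : 0 ≤ q) (h0 : 0 < th) (hth : th < 1)
    {V : ℕ → Submodule ℝ E} (hV : Monotone V) {r : ℕ} (hV0 : W ≤ V 0) (hVr : V r ≤ W')
    {ex : Finset ℕ} (hex : ∀ j ∈ ex, j < r) (T : ℕ → ℝ)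
    {g : E → ℝ≥0∞} (hg : Measurable g) (x : E) :
    fib W (fun y => capS A0 kap q th (l ++ l') W' y * (exm V ex T).indicator 1 y *
        g y ^ (1 - th)) x ≤
      (ENNReal.ofReal (Real.exp (-(1 / 16 * ∑ j ∈ ex, T j))) *
        (ENNReal.ofReal (Real.sqrt (1 - ε)⁻¹ *
        kap ^ (Module.finrank ℝ W' - Module.finrank ℝ W) *
        (11 / 10) ^ (Module.finrank ℝ W' - Module.finrank ℝ W)) *
        capS A0 kap q 1 l W x)) ^ th * fib W g x ^ (1 - th) := by
  have e : (fun y => capS A0 kap q th (l ++ l') W' y * (exm V ex T).indicator 1 y *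
      g y ^ (1 - th)) =
      fun y => (capS A0 kap q 1 (l ++ l') W' y * (exm V ex T).indicator 1 y) ^ th *
        g y ^ (1 - th) := by
    funext y
    rw [ENNReal.mul_rpow_of_nonneg _ _ h0.le, capS_rpow hA hk h0.le]
    congr 2
    by_cases hy : y ∈ exm V ex T
    · rw [indicator_of_mem hy]; simp
    · rw [indicator_of_notMem hy, ENNReal.zero_rpow_of_pos h0]
  rw [e]
  have hm : Measurable fun y => capS A0 kap q 1 (l ++ l') W' y *
      (exm V ex T).indicator (1 : E → ℝ≥0∞) y :=
    measurable_capS.mul (measurable_one.indicator (measurableSet_exm V ex T))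
  refine (fib_holder W hm hg h0 hth x).trans ?_
  gcongr
  have h3 := fib_capS_exm (A0 := A0) (kap := kap) (s := 1) hε hε1 h1 hW hp h2 hWW hA hk
    (by norm_num) (by norm_num) hq hV hV0 hVr hex T x
  rwa [Real.rpow_one] at h3

end Vale.Agent.P262.H606
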