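import Vale.Agent.P262.H962.ChainS
import Vale.Agent.P262.H118.RotB
import Vale.Agent.P262.H837.ThrI

/-!
# P262, milestone 2, THR through classes: the fibre direction

A rotation at a node `q` in the plane `(θ, b)`; at a label of a node `r` below `q` the part of `b`
in the fibre of `r` moves the body by at most `stf = 4 φ (1 + |⟨θ, ·⟩|)` in a fibre direction. The
mass which leaves is at most `5 stf Ψ₁(D)`, hence its quotient with `D ^ θ` at most
`5 stf Ψ_{1/2}(D)`; the functional `Ψ_{1/2}` is monotone and scales like a square root, so the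
Harnack chain brings it up to the root, where the class gives `Ψ_{1/2}(D) ≤ 22 · 2^c · D^{1/2}`.
-/

set_option linter.all false

open MeasureTheory ProbabilityTheory Set
open scoped ENNReal RealInnerProductSpace
open Vale.Agent.P262.H395 (fib mix Inv)
open Vale.Agent.P262.H395.Tree (InvN)

namespace Vale.Agent.P262.H606

open Vale.Agent.P262.H837 (Psi pg Psi_mono Psi_le pg_zero Psi_one_mul)
open Vale.Agent.P262.H711 (Fam tau)
open Vale.Agent.P262.H962 (tau_leaf tau_succ fib_cmul)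

/-! ### the functional -/

lemma Psi_scale {s : ℝ} (hs : 0 ≤ s) {H D D' : ℝ≥0∞} (hH : 1 ≤ H) (h : D' ≤ H * D) :
    Psi s D' ≤ H ^ s * Psi s D := by
  unfold Psi
  rw [← ENNReal.tsum_mul_left]
  refine ENNReal.tsum_le_tsum fun m => ?_
  rw [← ENNReal.mul_rpow_of_nonneg _ _ hs]
  refine ENNReal.rpow_le_rpow ?_ hs
  rcases le_total D (pg m) with h1 | h1
  · rw [min_eq_left h1]
    exact (min_le_left _ _).trans h
  · rw [min_eq_right h1]
    calc min D' (pg m) ≤ 1 * pg m := by rw [one_mul]; exact min_le_right _ _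
      _ ≤ H * pg m := by gcongr

lemma pg_le_one (m : ℕ) : pg m ≤ 1 := by
  unfold pg
  exact prob_le_one

lemma Psi_min_one (s : ℝ) (D : ℝ≥0∞) : Psi s D = Psi s (min D 1) := by
  unfold Psi
  congr 1
  funext m
  rw [min_assoc, min_eq_right (pg_le_one m)]

/-- at class `c`, without logarithm -/
theorem Psi_thr {c : ℕ} {D : ℝ≥0∞} (h : ENNReal.ofReal (Real.exp (1 - 4 ^ c) / 10) ≤ D) :
    Psi (1 / 2) D ≤ 22 * (2 ^ c * D ^ (1 / 2 : ℝ)) := by
  rw [Psi_min_one]
  set Y := min D 1 with hY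
  have hthr1 : Real.exp (1 - 4 ^ c) / 10 ≤ 1 := by
    have : Real.exp (1 - (4:ℝ) ^ c) ≤ 1 := by
      apply Real.exp_le_one_iff.2
      have : (1:ℝ) ≤ 4 ^ c := one_le_pow₀ (by norm_num)
      linarith
    linarith
  have hYt : ENNReal.ofReal (Real.exp (1 - 4 ^ c) / 10) ≤ Y :=
    le_min h (ENNReal.ofReal_le_one.2 hthr1)
  have hY1 : Y ≤ 1 := min_le_right _ _
  have hYtop : Y ≠ ⊤ := ne_top_of_le_ne_top ENNReal.one_ne_top hY1
  have h1 := Psi_le (s := 1 / 2) (D := Y) (Y := Y) (by norm_num) (by norm_num) le_rfl hY1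
  have h2 : Psi (1 / 2) Y ≤ Psi (1 / 2) (2 * Y) := Psi_mono (by norm_num) (by
    rw [two_mul]; exact le_self_add)
  refine h2.trans (h1.trans ?_)
  have hreal : Real.exp (1 - 4 ^ c) / 10 ≤ Y.toReal := by
    rw [← ENNReal.ofReal_le_iff_le_toReal hYtop]
    exact hYt
  have hlog : 1 - Real.log Y.toReal ≤ (2 * 2 ^ c) ^ 2 := by
    have h3 : Real.log (Real.exp (1 - 4 ^ c) / 10) ≤ Real.log Y.toReal :=
      Real.log_le_log (by positivity) hreal
    rw [Real.log_div (Real.exp_pos _).ne' (by norm_num), Real.log_exp] at h3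
    have h4 : Real.log 10 ≤ 3 := by
      have h5 : (10 : ℝ) ≤ Real.exp 3 := by
        have := Real.add_one_le_exp (1 : ℝ)
        have h6 : Real.exp 3 = Real.exp 1 ^ 3 := by rw [← Real.exp_nat_mul]; norm_num
        have h7 := Real.exp_one_gt_d9
        rw [h6]
        have h8 : (2.7182818283 : ℝ) ^ 3 ≤ Real.exp 1 ^ 3 :=
          pow_le_pow_left₀ (by norm_num) h7.le 3
        nlinarith
      calc Real.log 10 ≤ Real.log (Real.exp 3) := Real.log_le_log (by norm_num) h5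
        _ = 3 := Real.log_exp 3
    have h9 : (1 : ℝ) ≤ 4 ^ c := one_le_pow₀ (by norm_num)
    have h10 : ((2:ℝ) * 2 ^ c) ^ 2 = 4 * 4 ^ c := by
      rw [mul_pow, ← pow_mul, mul_comm c 2, pow_mul]
      norm_num
    rw [h10]
    linarith
  have hsq : Real.sqrt (1 - Real.log Y.toReal) ≤ 2 * 2 ^ c := by
    calc Real.sqrt (1 - Real.log Y.toReal) ≤ Real.sqrt ((2 * 2 ^ c) ^ 2) := Real.sqrt_le_sqrt hlog
      _ = _ := Real.sqrt_sq (by positivity)
  have hC : (7 + 2 / (1 / 2 : ℝ)) * Real.sqrt (max 1 (1 / (2 * (1 / 2)))) = 11 := by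
    have : max (1:ℝ) (1 / (2 * (1 / 2))) = 1 := by norm_num
    rw [this, Real.sqrt_one]
    norm_num
  rw [hC]
  have h11 : ENNReal.ofReal (Real.sqrt (1 - Real.log Y.toReal)) ≤ 2 * 2 ^ c := by
    have e : (2 : ℝ≥0∞) * 2 ^ c = ENNReal.ofReal (2 * 2 ^ c) := by
      rw [ENNReal.ofReal_mul (by norm_num), ENNReal.ofReal_pow (by norm_num)]
      norm_num
    rw [e]
    exact ENNReal.ofReal_le_ofReal hsq
  have h12 : Y ^ (1 / 2 : ℝ) ≤ D ^ (1 / 2 : ℝ) :=
    ENNReal.rpow_le_rpow (min_le_left _ _) (by norm_num)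
  calc ENNReal.ofReal 11 * (Y ^ (1 / 2 : ℝ) * ENNReal.ofReal (Real.sqrt (1 - Real.log Y.toReal)))
      ≤ ENNReal.ofReal 11 * (D ^ (1 / 2 : ℝ) * (2 * 2 ^ c)) := by gcongr
    _ = 22 * (2 ^ c * D ^ (1 / 2 : ℝ)) := by
        have : ENNReal.ofReal 11 = 11 := by norm_num
        rw [this]
        ring_nf

/-! ### the chain for a general functional -/

variable {E : Type*} [NormedAddCommGroup E] [InnerProductSpace ℝ E] [FiniteDimensional ℝ E]
  [MeasurableSpace E] [BorelSpace E]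

variable {ι : Type*} {F : Fam E ι} {Ok : ι → Prop} {N : ℕ}

/-- the Harnack chain for a functional `Θ` with the scaling of the power `s`. -/
theorem chainT {Q : ℕ → ι → Prop}
    (hQ : ∀ k r x, Q (k + 1) r → ¬ F.L r → Q k (F.ch (F.kl r x) r))
    {D : ι → E → ℝ≥0∞} {Dk Hn : ℕ → ι → E → ℝ≥0∞} {u : E → ℝ≥0∞} {s : ℝ} {Θ : ℝ≥0∞ → ℝ≥0∞}
    (hΘ : ∀ {H y y' : ℝ≥0∞}, 1 ≤ H → y' ≤ H * y → Θ y' ≤ H ^ s * Θ y)
    {κ C : ℝ≥0∞}
    (hkl : ∀ k r, Q (k + 1) r → ¬ F.L r → InvN (F.W r) (F.kl r))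
    (hDk : ∀ k r c, Q (k + 1) r → ¬ F.L r → Inv (F.W r) (Dk c r))
    (hDle : ∀ k r x, Q (k + 1) r → Dk (F.kl r x) r x ≤ D r x)
    (hch : ∀ k r y, Q (k + 1) r → ¬ F.L r →
      D (F.ch (F.kl r y) r) y ≤ Hn (F.kl r y) r y * Dk (F.kl r y) r y)
    (hH1 : ∀ c r y, 1 ≤ Hn c r y)
    (hwm : ∀ c r, Measurable (F.wt c r)) (hHm : ∀ c r, Measurable (Hn c r))
    (hu : ∀ k r, Q (k + 1) r → Inv (F.W r) u)
    (hmo : ∀ k r x, Q (k + 1) r → ¬ F.L r →
      fib (F.W r) (fun y => F.wt (F.kl r x) r y * Hn (F.kl r x) r y ^ s) x ≤ κ)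
    {g : ι → E → ℝ≥0∞} (hg : ∀ r x, Q 0 r → g r x ≤ C * (u x * Θ (D r x))) :
    ∀ n r x, Q n r → tau F g n r x ≤ C * κ ^ n * (u x * Θ (D r x)) := by
  intro n
  induction n with
  | zero =>
    intro r x hr
    rw [pow_zero, mul_one]
    exact hg r x hr
  | succ n ih =>
    intro r x hr
    by_cases hL : F.L r
    · rw [tau_leaf g _ hL]; exact zero_le
    rw [tau_succ g _ hL]
    set c := F.kl r x with hc
    have h1 : fib (F.W r) (fun y => F.wt c r y * tau F g n (F.ch c r) y) x ≤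
        fib (F.W r) (fun y => (C * κ ^ n * (u x * Θ (D r x))) *
          (F.wt c r y * Hn c r y ^ s)) x := by
      refine H711.fib_le_of fun z => ?_
      set y := mix (F.W r) x z with hy
      have hky : F.kl r y = c := by rw [hy, H711.InvN.mix' (hkl n r hr hL)]
      have hQy : Q n (F.ch c r) := hQ n r x hr hL
      have h2 := ih (F.ch c r) y hQy
      have h3 : D (F.ch c r) y ≤ Hn c r y * D r x := by
        have := hch n r y hr hL
        rw [hky] at this
        rw [show Dk c r y = Dk c r x from (hDk n r c hr hL).mix _ _] at this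
        have h5 := hDle n r x hr
        rw [← hc] at h5
        exact this.trans (by gcongr)
      have h4 := hΘ (hH1 c r y) h3
      have h5 : u y = u x := (hu n r hr).mix _ _
      calc F.wt c r y * tau F g n (F.ch c r) y
          ≤ F.wt c r y * (C * κ ^ n * (u y * Θ (D (F.ch c r) y))) := by
            gcongr
        _ ≤ F.wt c r y * (C * κ ^ n * (u x * (Hn c r y ^ s * Θ (D r x)))) := by
            rw [h5]; gcongr
        _ = _ := by ring
    refine h1.trans ?_
    rw [fib_cmul (f := fun y => F.wt c r y * Hn c r y ^ s) (F.W r)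
      ((hwm c r).mul ((hHm c r).pow_const _))]
    calc C * κ ^ n * (u x * Θ (D r x)) *
          fib (F.W r) (fun y => F.wt c r y * Hn c r y ^ s) x
        ≤ C * κ ^ n * (u x * Θ (D r x)) * κ := by
          gcongr
          exact hmo n r x hr hL
      _ = C * κ ^ (n + 1) * (u x * Θ (D r x)) := by rw [pow_succ]; ring

/-- the first step -/
theorem chainT_root {D : ι → E → ℝ≥0∞} {Dk Hn : ℕ → ι → E → ℝ≥0∞}
    {u : E → ℝ≥0∞} {s : ℝ} {Θ : ℝ≥0∞ → ℝ≥0∞}
    (hΘ : ∀ {H y y' : ℝ≥0∞}, 1 ≤ H → y' ≤ H * y → Θ y' ≤ H ^ s * Θ y)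
    {κ0 C : ℝ≥0∞} {p : ι} {x : E}
    (hklp : InvN (F.W p) (F.kl p)) (hDkp : ∀ c, Inv (F.W p) (Dk c p))
    (hchp : ∀ y, D (F.ch (F.kl p y) p) y ≤ Hn (F.kl p y) p y * Dk (F.kl p y) p y)
    (hH1 : ∀ c r y, 1 ≤ Hn c r y)
    (hwm : ∀ c r, Measurable (F.wt c r)) (hHm : ∀ c r, Measurable (Hn c r)) (hum : Measurable u)
    (hmo : fib (F.W p) (fun y => F.wt (F.kl p x) p y * (u y * Hn (F.kl p x) p y ^ s)) x ≤ κ0)
    {t : ι → E → ℝ≥0∞}
    (ht : ∀ y, t (F.ch (F.kl p x) p) y ≤ C * (u y * Θ (D (F.ch (F.kl p x) p) y))) :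
    fib (F.W p) (fun y => F.wt (F.kl p x) p y * t (F.ch (F.kl p x) p) y) x ≤
      C * κ0 * Θ (Dk (F.kl p x) p x) := by
  set c := F.kl p x with hc
  have h1 : fib (F.W p) (fun y => F.wt c p y * t (F.ch c p) y) x ≤
      fib (F.W p) (fun y => (C * Θ (Dk c p x)) *
        (F.wt c p y * (u y * Hn c p y ^ s))) x := by
    refine H711.fib_le_of fun z => ?_
    set y := mix (F.W p) x z with hy
    have hky : F.kl p y = c := by rw [hy, H711.InvN.mix' hklp]
    have h3 : D (F.ch c p) y ≤ Hn c p y * Dk c p x := by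
      have := hchp y
      rw [hky] at this
      rwa [show Dk c p y = Dk c p x from (hDkp c).mix _ _] at this
    have h4 := hΘ (hH1 c p y) h3
    calc F.wt c p y * t (F.ch c p) y
        ≤ F.wt c p y * (C * (u y * Θ (D (F.ch c p) y))) := by
          gcongr
          exact ht y
      _ ≤ F.wt c p y * (C * (u y * (Hn c p y ^ s * Θ (Dk c p x)))) := by gcongr
      _ = _ := by ring
  refine h1.trans ?_
  rw [fib_cmul (f := fun y => F.wt c p y * (u y * Hn c p y ^ s)) (F.W p)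
    ((hwm c p).mul (hum.mul ((hHm c p).pow_const _)))]
  calc C * Θ (Dk c p x) * fib (F.W p) (fun y => F.wt c p y * (u y * Hn c p y ^ s)) x
      ≤ C * Θ (Dk c p x) * κ0 := by gcongr
    _ = _ := by ring

end Vale.Agent.P262.H606

/-! ### the system -/

namespace Vale.Agent.P262.M2.Sys

open Vale.Agent.P262.H118 (ON lyd sg mem_sg lyd_zero inner_mix_label norm_nv nv norm_smul_nv nv_mem)
open Vale.Agent.P262.H837 (Psi Psi_mono Psi_one_mul fibre_dir)

variable {E : Type*} [NormedAddCommGroup E] [InnerProductSpace ℝ E] [FiniteDimensional ℝ E]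
  [MeasurableSpace E] [BorelSpace E] {S : Sys E}

/-- payoff of the fibre direction -/
noncomputable def gfb (S : Sys E) (m : ℕ) (θ : E) (b : List ℕ → E) (o : Bool) (ε : ℝ)
    (r : List ℕ) (y : E) : ℝ≥0∞ :=
  fib (S.W r m) ((lyd (S.bd r m o) (S.bd r m (!o)) univ (ε • S.bf m b r)
    (S.stf m θ y)).indicator 1) y / S.Dc r m y ^ S.th

lemma stf_nonneg_fb (m : ℕ) (θ x : E) : 0 ≤ S.stf m θ x := by
  have := S.mv.ph_nonneg m
  unfold stf
  positivity

/-- the payoff is measurable, at all nodes -/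
lemma gfb_meas (m : ℕ) (θ : E) (b : List ℕ → E) (o : Bool) (ε : ℝ) (r : List ℕ) :
    Measurable (S.gfb m θ b o ε r) := by
  unfold gfb
  refine Measurable.div ?_ ((S.Dc_meas r m).pow_const _)
  unfold fib
  have hst : Measurable (S.stf m θ) := by
    have : Continuous (S.stf m θ) := by unfold stf; fun_prop
    exact this.measurable
  have hK := measurableSet_bd (S := S) r m
  have hmix : Measurable fun p : E × E => mix (S.W r m) p.1 p.2 := by
    have : Continuous fun p : E × E => mix (S.W r m) p.1 p.2 := by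
      unfold mix; fun_prop
    exact this.measurable
  have hset : MeasurableSet {p : E × E | mix (S.W r m) p.1 p.2 ∈
      lyd (S.bd r m o) (S.bd r m (!o)) univ (ε • S.bf m b r) (S.stf m θ p.1)} := by
    have e : {p : E × E | mix (S.W r m) p.1 p.2 ∈
        lyd (S.bd r m o) (S.bd r m (!o)) univ (ε • S.bf m b r) (S.stf m θ p.1)} =
        ((fun p : E × E => mix (S.W r m) p.1 p.2) ⁻¹' S.bd r m o ∩
          (fun p : E × E => mix (S.W r m) p.1 p.2) ⁻¹' (S.bd r m (!o))ᶜ) ∩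
        (fun p : E × E => mix (S.W r m) p.1 p.2 + S.stf m θ p.1 • (ε • S.bf m b r)) ⁻¹'
          (S.bd r m o)ᶜ := by
      ext p
      simp only [lyd, mem_setOf_eq, mem_univ, true_and, mem_inter_iff, mem_preimage, mem_compl_iff]
      tauto
    rw [e]
    refine ((hmix (hK o)).inter (hmix (hK _).compl)).inter ?_
    exact (hmix.add ((hst.comp measurable_fst).smul_const _)) (hK o).compl
  have hF : Measurable fun p : E × E => (({p : E × E | mix (S.W r m) p.1 p.2 ∈
      lyd (S.bd r m o) (S.bd r m (!o)) univ (ε • S.bf m b r) (S.stf m θ p.1)}).indicator 1 p :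
      ℝ≥0∞) := measurable_one.indicator hset
  have h2 := hF.lintegral_prod_right' (ν := stdGaussian E)
  exact h2

/-- **one label**: the fibre direction -/
theorem gfb_le {m : ℕ} {q : List ℕ} {θ : E} {b : List ℕ → E} (H : S.RotB m q θ b)
    (hm : S.mv.tm m < S.T) (hact : S.mv.IsRot m) (hth : S.th = 1 / 2) {r : List ℕ} (hr : q <:+ r)
    (o : Bool) {ε : ℝ} (hε : ε ∈ sg) (y : E) :
    S.gfb m θ b o ε r y ≤ ENNReal.ofReal (20 * S.mv.ph m) *
      (ENNReal.ofReal (1 + |⟪θ, y⟫|) * Psi (1 / 2) (S.DD r m y)) := by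
  set K := S.bd r m o with hKdef
  set f : E := ε • S.bf m b r with hf
  set a : ℝ := S.stf m θ y with ha
  have ha0 : 0 ≤ a := stf_nonneg_fb m θ y
  have hfW : f ∈ (S.W r m)ᗮ := Submodule.smul_mem _ _ bf_perp
  have hf1 : ‖f‖ ≤ 1 := by
    rw [hf, norm_smul]
    have h1 : ‖ε‖ = 1 := by
      rcases mem_sg.1 hε with h | h <;> rw [h] <;> norm_num
    rw [h1, one_mul]
    exact norm_bf_le.trans (H.norm_b hr).le
  have hR := S.hR
  have hKR : ∀ x ∈ K, ‖x‖ ≤ S.R := fun x hx => by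
    have := bd_subset_ball r m o hx
    rwa [mem_closedBall_zero_iff] at this
  have hKc : IsCompact K := isCompact_bd r m o
  have hKx : Convex ℝ K := convex_bd r m o
  have hDcK : fib (S.W r m) (Kᶜ.indicator 1) y ≤ S.Dc r m y := by
    rw [S.Dc_active (Or.inr hact)]
    refine H395.fib_mono (fun z => indicator_le_indicator_of_subset ?_ (fun _ => zero_le) z) y
    rw [hKdef]
    cases o
    · exact compl_subset_compl.2 inter_subset_right
    · exact compl_subset_compl.2 inter_subset_left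
  have hDct : S.Dc r m y ≠ ⊤ := ne_top_of_le_ne_top ENNReal.one_ne_top (S.Dc_le_one r m y)
  have key : fib (S.W r m) ((lyd K (S.bd r m (!o)) univ f a).indicator 1) y ≤
      ENNReal.ofReal (5 * a) * Psi 1 (S.Dc r m y) := by
    by_cases hf0 : f = 0
    · rw [hf0, lyd_zero]
      have : fib (S.W r m) ((∅ : Set E).indicator 1) y = 0 := by
        rw [indicator_empty]
        exact H395.fib_const _ 0 y
      rw [this]
      exact zero_le
    by_cases hθ : |⟪θ, y⟫| ≤ S.R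
    · have hn : 0 < ‖f‖ := norm_pos_iff.2 hf0
      have ha' : a * ‖f‖ ≤ a := mul_le_of_le_one_right ha0 hf1
      have hstep : a * ‖f‖ * (S.R + 2) ≤ 1 := by
        have hph := S.hph m
        have hph0 := S.mv.ph_nonneg m
        have h1 : a ≤ 4 * S.mv.ph m * (1 + S.R) := by
          rw [ha]
          unfold stf
          gcongr
        have h2 : a * ‖f‖ * (S.R + 2) ≤ 4 * S.mv.ph m * (1 + S.R) * (S.R + 2) :=
          mul_le_mul_of_nonneg_right (ha'.trans h1) (by linarith)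
        have h3 : (4 : ℝ) * S.mv.ph m * (1 + S.R) * (S.R + 2) ≤
            5 * ((Module.finrank ℝ E : ℝ) + 2) * S.mv.ph m * (S.R + 4) ^ 2 := by
          have hd : (0 : ℝ) ≤ Module.finrank ℝ E := Nat.cast_nonneg _
          have h4 : (1 + S.R) * (S.R + 2) ≤ (S.R + 4) ^ 2 := by nlinarith
          have h5 : (4 : ℝ) * S.mv.ph m ≤ 5 * ((Module.finrank ℝ E : ℝ) + 2) * S.mv.ph m := by
            apply mul_le_mul_of_nonneg_right _ hph0
            linarith
          calc (4 : ℝ) * S.mv.ph m * (1 + S.R) * (S.R + 2)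
              = (4 * S.mv.ph m) * ((1 + S.R) * (S.R + 2)) := by ring
            _ ≤ (5 * ((Module.finrank ℝ E : ℝ) + 2) * S.mv.ph m) * (S.R + 4) ^ 2 :=
                mul_le_mul h5 h4 (by positivity) (by positivity)
            _ = _ := by ring
        linarith
      have hfd := fibre_dir (W := S.W r m) (f := nv f) (nv_mem hfW) (norm_nv hf0) hKc hKx
        (by linarith : (0:ℝ) ≤ S.R) hKR (a := a * ‖f‖) (by positivity) hstep y
      have hsub : ∀ z, (lyd K (S.bd r m (!o)) univ f a).indicator (1 : E → ℝ≥0∞) z ≤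
          ({z | z ∈ K ∧ z + (a * ‖f‖) • nv f ∉ K}).indicator 1 z := by
        intro z
        refine indicator_le_indicator_of_subset ?_ (fun _ => zero_le) z
        rintro w ⟨-, h1, -, h2⟩
        refine ⟨h1, ?_⟩
        rwa [mul_smul, norm_smul_nv]
      refine (H395.fib_mono hsub y).trans (hfd.trans ?_)
      refine mul_le_mul' (ENNReal.ofReal_le_ofReal (by linarith)) (Psi_mono zero_le_one hDcK)
    · have h0 : fib (S.W r m) ((lyd K (S.bd r m (!o)) univ f a).indicator 1) y ≤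
          fib (S.W r m) (fun _ => 0) y := by
        refine H118.fib_mono_fibre fun z => ?_
        rw [indicator_of_notMem]
        rintro ⟨-, h1, -, -⟩
        apply hθ
        have h2 := hKR _ h1
        have h3 : |⟪θ, mix (S.W r m) y z⟫| ≤ ‖θ‖ * ‖mix (S.W r m) y z‖ :=
          abs_real_inner_le_norm _ _
        rw [inner_mix_label (S.W_mono hr m H.mem), (H.on r hr).hp, one_mul] at h3
        exact h3.trans h2
      rw [H395.fib_const] at h0
      exact h0.trans zero_le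
  unfold gfb
  rw [← ha, ← hf, ← hKdef, hth, ENNReal.div_eq_inv_mul, mul_comm]
  calc fib (S.W r m) ((lyd K (S.bd r m (!o)) univ f a).indicator 1) y *
        (S.Dc r m y ^ (1 / 2 : ℝ))⁻¹
      ≤ ENNReal.ofReal (5 * a) * Psi 1 (S.Dc r m y) * (S.Dc r m y ^ (1 / 2 : ℝ))⁻¹ := by gcongr
    _ = ENNReal.ofReal (5 * a) * (Psi 1 (S.Dc r m y) * (S.Dc r m y ^ (1 / 2 : ℝ))⁻¹) := by ring
    _ ≤ ENNReal.ofReal (5 * a) * Psi (1 / 2) (S.Dc r m y) := by
        gcongr
        exact Psi_one_mul (th := 1 / 2) (s := 1 / 2) (by norm_num) (by norm_num) (by norm_num) hDct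
    _ ≤ ENNReal.ofReal (5 * a) * Psi (1 / 2) (S.DD r m y) := by
        gcongr
        exact Psi_mono (by norm_num) (S.Dc_self_le_DD r hm y)
    _ = _ := by
        have e : 5 * a = 20 * S.mv.ph m * (1 + |⟪θ, y⟫|) := by
          rw [ha]; unfold stf; ring
        have := S.mv.ph_nonneg m
        rw [e, ENNReal.ofReal_mul (by positivity), mul_assoc]

lemma one_le_hn_fb (c : ℕ) (r : List ℕ) (m : ℕ) (y : E) : 1 ≤ S.hn c r m y := by
  unfold hn
  rw [ENNReal.one_le_ofReal]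
  have h1 : 1 ≤ Real.exp (9 + 8 / 15 * ‖S.ow r c m y‖ ^ 2) := by
    apply Real.one_le_exp
    positivity
  linarith

/-- the chain on the system, functional `Psi (1/2)` -/
theorem chainT_sys {m : ℕ} (hm : S.mv.tm m < S.T) (hth : S.th = 1 / 2)
    (hk : 256 * S.kap ^ (1 / 2 : ℝ) ≤ 1) {q : List ℕ} {u : E → ℝ≥0∞}
    (hu : ∀ r, q <:+ r → Inv (S.W r m) u) {L : ℕ} {g : List ℕ → E → ℝ≥0∞} {C : ℝ≥0∞}
    (hg : ∀ r x, q <:+ r → r.length = L →
      g r x ≤ C * (u x * Psi (1 / 2) (S.DD r m x))) :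
    ∀ n r x, q <:+ r → r.length + n = L →
      H711.tau (S.fam m) g n r x ≤ C * ENNReal.ofReal (256 * S.kap ^ (1 / 2 : ℝ)) ^ n *
        (u x * Psi (1 / 2) (S.DD r m x)) := by
  have key := H606.chainT (F := S.fam m) (Q := fun k r => q <:+ r ∧ r.length + k = L)
    (fun k r x h _ => ⟨h.1.trans (List.suffix_cons _ _), by
      show (S.kl r m x :: r).length + k = L
      rw [List.length_cons]; have := h.2; omega⟩)
    (D := fun r => S.DD r m) (Dk := fun c r => S.Dk c r m) (Hn := fun c r => S.hn c r m)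
    (u := u) (s := 1 / 2) (Θ := Psi (1 / 2))
    (fun h1 h2 => H606.Psi_scale (by norm_num) h1 h2)
    (κ := ENNReal.ofReal (256 * S.kap ^ (1 / 2 : ℝ)))
    (C := C) (fun k r _ _ => kl_inv r hm) (fun k r c _ _ => S.Dk_inv c r hm)
    (fun k r x _ => S.Dk_le_DD _ r hm x) (fun k r y _ _ => S.harnack hm _ r y)
    (fun c r y => one_le_hn_fb c r m y)
    (fun c r => S.cw_meas (c :: r) m) (fun c r => S.hn_meas c r m)
    (fun k r h => hu r h.1) (fun k r x _ hL => mom_c_one hth hk hm hL _ x)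
    (g := g) (fun r x h => hg r x h.1 (by have := h.2; omega))
  intro n r x h1 h2
  exact key n r x ⟨h1, h2⟩

/-- **(F)** the fibre direction at the root: `q = c :: p` the rotating node, `n` levels below. -/
theorem fib_term {m : ℕ} {c : ℕ} {p : List ℕ} {θ : E} {b : List ℕ → E}
    (H : S.RotB m (c :: p) θ b) (hm : S.mv.tm m < S.T) (hact : S.mv.IsRot m) (hth : S.th = 1 / 2)
    (hk : 256 * S.kap ^ (1 / 2 : ℝ) ≤ 1) (hp : ¬ S.Leaf p m) (o : Bool) {ε : ℝ} (hε : ε ∈ sg)
    (n : ℕ) {g : List ℕ → E → ℝ≥0∞}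
    (hg : ∀ r y, (c :: p) <:+ r → r.length = p.length + 1 + n → g r y ≤ S.gfb m θ b o ε r y)
    {x : E} (hx : S.kl p m x = c) :
    fib (S.W p m) (fun y => S.cw (c :: p) m y * H711.tau (S.fam m) g n (c :: p) y) x ≤
      ENNReal.ofReal (1320 * S.mv.ph m) *
        ENNReal.ofReal ((384 * S.kap ^ (1 / 2 : ℝ)) ^ (S.od p c m + n)) *
        (2 ^ c * S.Dk c p m x ^ (1 / 2 : ℝ)) := by
  subst hx
  have hph := S.mv.ph_nonneg m
  have ht := chainT_sys hm hth hk (q := S.kl p m x :: p)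
    (u := fun y => ENNReal.ofReal (1 + |⟪θ, y⟫|)) (fun r hr => inv_one_add_c hr H.mem)
    (L := p.length + 1 + n) (g := g) (C := ENNReal.ofReal (20 * S.mv.ph m))
    (fun r y h1 h2 => (hg r y h1 h2).trans (gfb_le H hm hact hth h1 o hε y))
  have hum : Measurable fun y : E => ENNReal.ofReal (1 + |⟪θ, y⟫|) := by fun_prop
  have hθ1 : ‖θ‖ ≤ 1 := (H.on _ (List.suffix_refl _)).hp.le
  have hroot := H606.chainT_root (F := S.fam m)
    (D := fun r => S.DD r m) (Dk := fun c r => S.Dk c r m) (Hn := fun c r => S.hn c r m)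
    (u := fun y => ENNReal.ofReal (1 + |⟪θ, y⟫|)) (s := 1 / 2) (Θ := Psi (1 / 2))
    (fun h1 h2 => H606.Psi_scale (by norm_num) h1 h2)
    (κ0 := 3 * ENNReal.ofReal ((384 * S.kap ^ (1 / 2 : ℝ)) ^ S.od p (S.kl p m x) m))
    (C := ENNReal.ofReal (20 * S.mv.ph m) * ENNReal.ofReal (256 * S.kap ^ (1 / 2 : ℝ)) ^ n)
    (p := p) (x := x) (kl_inv p hm) (fun c' => S.Dk_inv c' p hm)
    (fun y => S.harnack hm _ p y) (fun c r y => one_le_hn_fb c r m y)
    (fun c r => S.cw_meas (c :: r) m) (fun c r => S.hn_meas c r m) hum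
    (mom_e_c hth hm hp _ H.mem H.perp hθ1 x)
    (t := fun r y => H711.tau (S.fam m) g n r y)
    (fun y => ht n (S.kl p m x :: p) y (List.suffix_refl _) (by rw [List.length_cons]))
  refine hroot.trans ?_
  have h1 : Psi (1 / 2) (S.Dk (S.kl p m x) p m x) ≤
      22 * (2 ^ S.kl p m x * S.Dk (S.kl p m x) p m x ^ (1 / 2 : ℝ)) :=
    H606.Psi_thr (by rw [← S.hthr]; exact S.thr_le_Dk p m x)
  have hk0 : 0 ≤ S.kap ^ (1 / 2 : ℝ) := Real.rpow_nonneg S.hkap.le _
  have h2 := exp_bk (a := 256 * S.kap ^ (1 / 2 : ℝ)) (b := 384 * S.kap ^ (1 / 2 : ℝ))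
    (lam := 384 * S.kap ^ (1 / 2 : ℝ)) (by positivity) (by positivity) (by gcongr; norm_num)
    le_rfl n (S.od p (S.kl p m x) m)
  calc ENNReal.ofReal (20 * S.mv.ph m) * ENNReal.ofReal (256 * S.kap ^ (1 / 2 : ℝ)) ^ n *
        (3 * ENNReal.ofReal ((384 * S.kap ^ (1 / 2 : ℝ)) ^ S.od p (S.kl p m x) m)) *
        Psi (1 / 2) (S.Dk (S.kl p m x) p m x)
      ≤ ENNReal.ofReal (20 * S.mv.ph m) * ENNReal.ofReal (256 * S.kap ^ (1 / 2 : ℝ)) ^ n *
        (3 * ENNReal.ofReal ((384 * S.kap ^ (1 / 2 : ℝ)) ^ S.od p (S.kl p m x) m)) *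
        (22 * (2 ^ S.kl p m x * S.Dk (S.kl p m x) p m x ^ (1 / 2 : ℝ))) := by gcongr
    _ = (66 * ENNReal.ofReal (20 * S.mv.ph m)) *
        (ENNReal.ofReal (256 * S.kap ^ (1 / 2 : ℝ)) ^ n *
          ENNReal.ofReal ((384 * S.kap ^ (1 / 2 : ℝ)) ^ S.od p (S.kl p m x) m)) *
        (2 ^ S.kl p m x * S.Dk (S.kl p m x) p m x ^ (1 / 2 : ℝ)) := by ring
    _ ≤ (66 * ENNReal.ofReal (20 * S.mv.ph m)) *
        ENNReal.ofReal ((384 * S.kap ^ (1 / 2 : ℝ)) ^ (S.od p (S.kl p m x) m + n)) *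
        (2 ^ S.kl p m x * S.Dk (S.kl p m x) p m x ^ (1 / 2 : ℝ)) := by gcongr
    _ = _ := by
        congr 2
        have e : (66 : ℝ≥0∞) = ENNReal.ofReal 66 := by norm_num
        rw [e, ← ENNReal.ofReal_mul (by norm_num)]
        congr 1
        ring

end Vale.Agent.P262.M2.Sys
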