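import Vale.Agent.P262.H606.TipC
import Vale.Agent.P262.H633.FlatL
import Vale.Agent.P262.H395.Iso

/-!
# P262, M2: weights `exp (ε ‖P_V x‖²)` in the sick regions (THR0, class lists)

`pball V r = {‖P_V x‖ ≤ r}`, `V` orthogonal to the label spaces of the chain. The weight
`exp (ε ‖P_V x‖²)` is at most `C ^ dim V * dw c (pball V r)` and this factor is admissible in
`cap_tip2` and in the flatness along lines (for any closed convex `S` with `γ S ≥ 39/40`).
-/

set_option linter.all false

open MeasureTheory Set Filter ProbabilityTheory Metric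
open scoped ENNReal NNReal Topology RealInnerProductSpace

namespace Vale.Agent.P262.H606

open Vale.Agent.P262.H395
open Vale.Agent.P262.H44
open Vale.Agent.P262.H633 (cyl off off_mix infDist_off flatAt_of_le measurableSet_cyl)

variable {E : Type*} [NormedAddCommGroup E] [InnerProductSpace ℝ E] [FiniteDimensional ℝ E]
  [MeasurableSpace E] [BorelSpace E]

/-- ball in the directions of `V` -/
def pball (V : Submodule ℝ E) (r : ℝ) : Set E := {x | ‖V.starProjection x‖ ≤ r}

omit [MeasurableSpace E] [BorelSpace E] in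
lemma isClosed_pball (V : Submodule ℝ E) (r : ℝ) : IsClosed (pball V r) := by
  have : Continuous fun x : E => ‖V.starProjection x‖ := by fun_prop
  exact isClosed_le this continuous_const

omit [MeasurableSpace E] [BorelSpace E] in
lemma convex_pball (V : Submodule ℝ E) (r : ℝ) : Convex ℝ (pball V r) := by
  intro x hx y hy s t hs ht hst
  show ‖V.starProjection (s • x + t • y)‖ ≤ r
  have h1 : ‖V.starProjection x‖ ≤ r := hx
  have h2 : ‖V.starProjection y‖ ≤ r := hy
  rw [map_add, map_smul, map_smul]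
  calc ‖s • V.starProjection x + t • V.starProjection y‖
      ≤ ‖s • V.starProjection x‖ + ‖t • V.starProjection y‖ := norm_add_le _ _
    _ = s * ‖V.starProjection x‖ + t * ‖V.starProjection y‖ := by
        rw [norm_smul, norm_smul, Real.norm_of_nonneg hs, Real.norm_of_nonneg ht]
    _ ≤ s * r + t * r := by gcongr
    _ = r := by rw [← add_mul, hst, one_mul]

omit [MeasurableSpace E] [BorelSpace E] in
lemma zero_mem_pball (V : Submodule ℝ E) {r : ℝ} (hr : 0 ≤ r) : (0 : E) ∈ pball V r := by
  show ‖V.starProjection 0‖ ≤ r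
  simpa using hr

lemma tinv_pball {V W : Submodule ℝ E} (h : V ≤ Wᗮ) (r : ℝ) : TInv W (pball V r) := by
  intro x w hw
  have h1 : V.starProjection w = 0 := by
    apply proj_eq_zero
    rw [Submodule.mem_orthogonal]
    intro v hv
    have := (Submodule.mem_orthogonal _ _).1 (h hv) w hw
    rwa [real_inner_comm] at this
  show ‖V.starProjection (x + w)‖ ≤ r ↔ ‖V.starProjection x‖ ≤ r
  rw [map_add, h1, add_zero]

omit [InnerProductSpace ℝ E] [FiniteDimensional ℝ E] [MeasurableSpace E] [BorelSpace E] in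
lemma TInv.inter [InnerProductSpace ℝ E] {W : Submodule ℝ E} {S S' : Set E} (h : TInv W S)
    (h' : TInv W S') : TInv W (S ∩ S') := fun x w hw => by
  simp only [mem_inter_iff, h x w hw, h' x w hw]

/-- mass of a projection ball -/
lemma gam_pball (V : Submodule ℝ E) {q : ℝ} (hq : 25 ≤ q) :
    ENNReal.ofReal (1 - 1 / 300) ≤
      stdGaussian E (pball V (Real.sqrt (q * Module.finrank ℝ V))) := by
  set k := Module.finrank ℝ V with hk
  have hm : MeasurableSet (pball V (Real.sqrt (q * k))) := (isClosed_pball V _).measurableSet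
  have h1 : stdGaussian E (pball V (Real.sqrt (q * k)))ᶜ ≤ ENNReal.ofReal (1 / 300) := by
    rcases Nat.eq_zero_or_pos k with h0 | h0
    · have hV : V = ⊥ := Submodule.finrank_eq_zero.mp h0
      have : (pball V (Real.sqrt (q * k)))ᶜ = ∅ := by
        rw [compl_empty_iff, eq_univ_iff_forall]
        intro x
        show ‖V.starProjection x‖ ≤ _
        rw [hV, Submodule.starProjection_bot]
        simp
        positivity
      rw [this, measure_empty]
      exact bot_le
    · refine (measure_mono ?_).trans ((H962.chi_tail V (q := q)).trans ?_)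
      · intro x hx
        have hx' : ¬ ‖V.starProjection x‖ ≤ Real.sqrt (q * k) := hx
        push Not at hx'
        show q * k < ‖V.starProjection x‖ ^ 2
        exact (Real.sqrt_lt' (lt_of_le_of_lt (Real.sqrt_nonneg _) hx')).mp hx'
      · have h2 : ENNReal.ofReal (Real.sqrt 2 * Real.exp (-(q / 4))) ≤ ENNReal.ofReal (1 / 300) :=
          ENNReal.ofReal_le_ofReal (H633.exp_tail_bound (by linarith))
        have h3 : ENNReal.ofReal (1 / 300 : ℝ) ≤ 1 := by
          rw [← ENNReal.ofReal_one]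
          exact ENNReal.ofReal_le_ofReal (by norm_num)
        calc ENNReal.ofReal (Real.sqrt 2 * Real.exp (-(q / 4))) ^ k
            ≤ ENNReal.ofReal (1 / 300 : ℝ) ^ k := pow_le_pow_left' h2 k
          _ ≤ ENNReal.ofReal (1 / 300 : ℝ) ^ 1 := pow_le_pow_right_of_le_one' h3 h0
          _ = _ := pow_one _
  have h3 : stdGaussian E (pball V (Real.sqrt (q * k))) =
      1 - stdGaussian E (pball V (Real.sqrt (q * k)))ᶜ := by
    rw [prob_compl_eq_one_sub hm, ENNReal.sub_sub_cancel ENNReal.one_ne_top prob_le_one]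
  rw [h3, ENNReal.ofReal_sub _ (by norm_num), ENNReal.ofReal_one]
  exact tsub_le_tsub_left h1 1

/-- intersections of sets of almost full measure -/
lemma gam_inter2 {S S' : Set E} (hS : MeasurableSet S) (hS' : MeasurableSet S') {a b : ℝ}
    (ha : 0 ≤ a) (hb : 0 ≤ b)
    (h : ENNReal.ofReal (1 - a) ≤ stdGaussian E S) (h' : ENNReal.ofReal (1 - b) ≤ stdGaussian E S') :
    ENNReal.ofReal (1 - a - b) ≤ stdGaussian E (S ∩ S') := by
  have h1 : stdGaussian E S ≤ stdGaussian E (S ∩ S') + stdGaussian E S'ᶜ := by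
    refine (measure_mono ?_).trans (measure_union_le _ _)
    intro x hx
    by_cases hx' : x ∈ S'
    · exact Or.inl ⟨hx, hx'⟩
    · exact Or.inr hx'
  have h2 : stdGaussian E S'ᶜ ≤ ENNReal.ofReal b := by
    rw [prob_compl_eq_one_sub hS', tsub_le_iff_right]
    calc (1 : ℝ≥0∞) = ENNReal.ofReal 1 := ENNReal.ofReal_one.symm
      _ ≤ ENNReal.ofReal (b + (1 - b)) := ENNReal.ofReal_le_ofReal (by linarith)
      _ ≤ ENNReal.ofReal b + ENNReal.ofReal (1 - b) := ENNReal.ofReal_add_le
      _ ≤ _ := by gcongr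
  rw [ENNReal.ofReal_sub _ hb]
  exact tsub_le_iff_right.mpr (h.trans (h1.trans (by gcongr)))

/-- a slab (`k ≥ 5`, `‖b‖ ≤ 1`) and a projection ball (`q ≥ 25`) together -/
lemma gam_slab_pball (V : Submodule ℝ E) {q : ℝ} (hq : 25 ≤ q) {b : E} (hb : ‖b‖ ≤ 1) {k : ℝ}
    (hk : 5 ≤ k) :
    ENNReal.ofReal (1 - 1 / 40) ≤ stdGaussian E
      (H633.slab b k ∩ pball V (Real.sqrt (q * Module.finrank ℝ V))) := by
  have h1 : ENNReal.ofReal (1 - 1 / 300) ≤ stdGaussian E (H633.slab b k) := by
    have hm : MeasurableSet (H633.slab b k) := (H633.isClosed_slab b k).measurableSet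
    have h2 := H633.lin_tail hb (k := k) (by linarith)
    have h3 : stdGaussian E (H633.slab b k)ᶜ ≤ ENNReal.ofReal (1 / 300) := by
      refine (measure_mono ?_).trans (h2.trans (ENNReal.ofReal_le_ofReal
        (H633.exp_tail_bound (by nlinarith))))
      intro x hx
      have hx' : ¬ |⟪b, x⟫| ≤ k := hx
      exact not_le.mp hx'
    have h4 : stdGaussian E (H633.slab b k) = 1 - stdGaussian E (H633.slab b k)ᶜ := by
      rw [prob_compl_eq_one_sub hm, ENNReal.sub_sub_cancel ENNReal.one_ne_top prob_le_one]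
    rw [h4, ENNReal.ofReal_sub _ (by norm_num), ENNReal.ofReal_one]
    exact tsub_le_tsub_left h3 1
  refine le_trans (ENNReal.ofReal_le_ofReal ?_) (gam_inter2
    (H633.isClosed_slab b k).measurableSet (isClosed_pball V _).measurableSet
    (by norm_num) (by norm_num) h1 (gam_pball V hq))
  norm_num

/-- distance to the projection ball -/
lemma le_infDist_pball (V : Submodule ℝ E) {r : ℝ} (hr : 0 ≤ r) (x : E) :
    ‖V.starProjection x‖ - r ≤ infDist x (pball V r) := by
  rw [le_infDist ⟨0, zero_mem_pball V hr⟩]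
  intro y hy
  have h1 : ‖V.starProjection y‖ ≤ r := hy
  have h2 : ‖V.starProjection (x - y)‖ ≤ ‖x - y‖ := Submodule.norm_starProjection_apply_le V _
  have h3 : ‖V.starProjection x‖ ≤ ‖V.starProjection (x - y)‖ + ‖V.starProjection y‖ := by
    have : V.starProjection x = V.starProjection (x - y) + V.starProjection y := by
      rw [← map_add, sub_add_cancel]
    rw [this]
    exact norm_add_le _ _
  rw [dist_eq_norm]
  linarith

/-- the exponential weight is dominated by the distance weight -/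
lemma exp_proj_le (V : Submodule ℝ E) {c q : ℝ} (hc : 0 ≤ c) (hq : 0 ≤ q) (x : E) :
    ENNReal.ofReal (Real.exp (c / 2 * ‖V.starProjection x‖ ^ 2)) ≤
      ENNReal.ofReal (Real.exp (c * q) ^ Module.finrank ℝ V) *
        dw c (pball V (Real.sqrt (q * Module.finrank ℝ V))) x := by
  set k := Module.finrank ℝ V with hk
  unfold dw
  rw [← ENNReal.ofReal_mul (by positivity), ← Real.exp_nat_mul, ← Real.exp_add]
  apply ENNReal.ofReal_le_ofReal
  apply Real.exp_le_exp.mpr
  have hr : 0 ≤ Real.sqrt (q * k) := Real.sqrt_nonneg _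
  have hr2 : Real.sqrt (q * k) ^ 2 = q * k := Real.sq_sqrt (by positivity)
  have h1 := le_infDist_pball V hr x
  have h2 : 0 ≤ infDist x (pball V (Real.sqrt (q * k))) := infDist_nonneg
  have h3 := norm_nonneg (V.starProjection x)
  have h4 : ‖V.starProjection x‖ ^ 2 / 2 ≤
      Real.sqrt (q * k) ^ 2 + infDist x (pball V (Real.sqrt (q * k))) ^ 2 := by
    nlinarith [sq_nonneg (Real.sqrt (q * k) - infDist x (pball V (Real.sqrt (q * k))))]
  rw [hr2] at h4
  nlinarith [mul_le_mul_of_nonneg_left h4 hc]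

/-- two distance weights are dominated by the weight of the intersection -/
lemma dw_mul_le_inter {S S' : Set E} (hne : (S ∩ S').Nonempty) {a b : ℝ} (ha : 0 ≤ a)
    (hb : 0 ≤ b) (x : E) : dw a S x * dw b S' x ≤ dw (a + b) (S ∩ S') x := by
  unfold dw
  rw [← ENNReal.ofReal_mul (Real.exp_pos _).le, ← Real.exp_add]
  apply ENNReal.ofReal_le_ofReal
  apply Real.exp_le_exp.mpr
  have h1 : infDist x S ^ 2 ≤ infDist x (S ∩ S') ^ 2 :=
    pow_le_pow_left₀ infDist_nonneg (infDist_le_infDist_of_subset inter_subset_left hne) 2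
  have h2 : infDist x S' ^ 2 ≤ infDist x (S ∩ S') ^ 2 :=
    pow_le_pow_left₀ infDist_nonneg (infDist_le_infDist_of_subset inter_subset_right hne) 2
  nlinarith [mul_le_mul_of_nonneg_left h1 ha, mul_le_mul_of_nonneg_left h2 hb]

/-! ### cylinders -/

/-- reflection in the hyperplane orthogonal to `e` -/
lemma map_reflect (e : E) :
    (stdGaussian E).map (Submodule.reflection (ℝ ∙ e)ᗮ) = stdGaussian E :=
  (Vale.Agent.P262.H395.mp_isometry (Submodule.reflection (ℝ ∙ e)ᗮ)).map_eq

/-- **cylinders over a convex set of large measure** -/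
theorem le_measure_cyl {e : E} (he : ‖e‖ = 1) {S : Set E} (hS : IsClosed S) (hSc : Convex ℝ S)
    {ε : ℝ} (hε : 0 ≤ ε) (h : ENNReal.ofReal (1 - ε) ≤ stdGaussian E S) :
    ENNReal.ofReal (1 - ε - ε) ≤ stdGaussian E (cyl e S) := by
  set R := Submodule.reflection (ℝ ∙ e)ᗮ with hR
  have hRm : Measurable (R : E → E) := R.continuous.measurable
  have h1 : ENNReal.ofReal (1 - ε) ≤ stdGaussian E ((R : E → E) ⁻¹' S) := by
    rw [← Measure.map_apply hRm hS.measurableSet, map_reflect]
    exact h
  have h2 := gam_inter2 hS.measurableSet (hRm hS.measurableSet) hε hε h h1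
  refine h2.trans (measure_mono ?_)
  rintro z ⟨hz, hz'⟩
  have hz2 : R z ∈ S := hz'
  have hRz : R z = z - (2 * ⟪e, z⟫) • e := by
    rw [hR, Submodule.reflection_orthogonal_apply, Submodule.reflection_singleton_apply]
    rw [he]
    simp only [one_pow, div_one, RCLike.ofReal_real_eq_id, id_eq]
    module
  show off e z ∈ S
  have h3 : off e z = (1 / 2 : ℝ) • z + (1 / 2 : ℝ) • R z := by
    rw [hRz]
    unfold off
    module
  rw [h3]
  exact hSc hz hz2 (by norm_num) (by norm_num) (by norm_num)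

/-- **flatness with a general second set** -/
theorem flatAt_dw_set {ε : ℝ} {W : Submodule ℝ E} {B P C S : Set E} (h : FlatD ε W B P C)
    (hε : ε < 1) (hne : B.Nonempty) {e : E} (he1 : ‖e‖ = 1) (he : e ∈ Wᗮ) (hS : IsClosed S)
    (hT : TInv W S) {a c : ℝ} (ha0 : 0 ≤ a) (hc0 : 0 ≤ c) (hac : a + c ≤ 1 / 8)
    (hγ : ENNReal.ofReal (15 / 16) ≤ stdGaussian E (cyl e (C ∩ S))) (u : E) :
    H431.FlatAt (fun x => dw a B x * dw c S x) e W u := by
  have hCS : (C ∩ S).Nonempty := by
    by_contra hcon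
    rw [not_nonempty_iff_eq_empty] at hcon
    have e0 : cyl e (C ∩ S) = ∅ := by
      rw [hcon]
      rfl
    rw [e0, measure_empty, nonpos_iff_eq_zero, ENNReal.ofReal_eq_zero] at hγ
    linarith
  refine flatAt_of_le he1 he (dw_ne_top a P u) (fun z => ?_) (by positivity) hac
    (fun z => ?_) (measurableSet_cyl e (h.clC.inter hS)) hγ
  · calc dw a P u = dw a P u * 1 := (mul_one _).symm
      _ ≤ _ := mul_le_mul' (h.le_dw_mix hne ha0 u z) (one_le_dw hc0 _)
  · have h1 := h.dw_mix_le hε hne ha0 u z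
    have h2 : dw c S (mix W u z) = dw c S z := by
      unfold dw
      rw [hT.infDist_mix]
    show dw a B (mix W u z) * dw c S (mix W u z) ≤ _
    rw [h2]
    have h3 : dw a C z * dw c S z ≤ dw (a + c) (C ∩ S) z := dw_mul_le_inter hCS ha0 hc0 z
    calc dw a B (mix W u z) * dw c S z ≤ (dw a P u * dw a C z) * dw c S z :=
          mul_le_mul' h1 le_rfl
      _ = dw a P u * (dw a C z * dw c S z) := by ring
      _ ≤ dw a P u * dw (a + c) (C ∩ S) z := mul_le_mul' le_rfl h3

/-- **prefix-ball caps times `dw c S` are flat along lines**, any closed convex `S`, `γ S ≥ 39/40`,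
invariant under `W` -/
theorem flatAt_PB_set {l l' : List (Submodule ℝ E)} {W : Submodule ℝ E} {q : ℝ} (hq : 100 ≤ q)
    (h1 : ∀ V ∈ l, V ≤ W) (hWl : W ∈ l ∨ W = ⊥) (hs : l'.Pairwise (· < ·))
    (h2 : ∀ V ∈ l', W < V) {e : E} (he1 : ‖e‖ = 1) (he : e ∈ Wᗮ) {S : Set E} (hS : IsClosed S)
    (hSc : Convex ℝ S) (hT : TInv W S) (hg : ENNReal.ofReal (1 - 1 / 40) ≤ stdGaussian E S)
    {a c : ℝ} (ha0 : 0 ≤ a) (hc0 : 0 ≤ c) (hac : a + c ≤ 1 / 8) (u : E) :
    H431.FlatAt (fun x => dw a (H962.PB (l ++ l') q) x * dw c S x) e W u := by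
  have hb4 : Real.sqrt 2 * Real.exp (-(q / 4)) ≤ 1 / 300 := H633.exp_tail_bound (by linarith)
  have hb16 : Real.sqrt 2 * Real.exp (-(q / 16)) ≤ 1 / 300 := H633.exp_tail_bound (by linarith)
  have hF := H962.flatD_PB (q := q) (ε := 1 / 100) (by linarith) (by norm_num) h1 hWl hs h2
  have hc := H962.le_measure_cyl_CB (W := W) (q := q) (ε := 1 / 100) (by linarith) (by norm_num) hs
    h2 he1 he
  have hS2 := le_measure_cyl he1 hS hSc (by norm_num) hg
  refine flatAt_dw_set hF (by norm_num) (H962.PB_nonempty _ (by linarith)) he1 he hS hT ha0 hc0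
    hac ?_ u
  have h3 := gam_inter2 (measurableSet_cyl e hF.clC) (measurableSet_cyl e hS) (a := 1 / 100)
    (b := 1 / 40 + 1 / 40) (by norm_num) (by norm_num)
    (le_trans (ENNReal.ofReal_le_ofReal (by norm_num)) hc)
    (le_trans (ENNReal.ofReal_le_ofReal (by norm_num)) hS2)
  refine le_trans (ENNReal.ofReal_le_ofReal (by norm_num)) (h3.trans (measure_mono ?_))
  rintro z ⟨h4, h5⟩
  exact ⟨h4, h5⟩

end Vale.Agent.P262.H606
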