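import Vale.Agent.P262.H59.R12

/-!
# P262, milestone 1: outer moves at a label (block OUT)

Moves `m` with `S.Out l m` (a star, or a rotation with `jj m < l`) do not change the structure
below a label of level `l`; the body moves by `Dl l m x`.
-/

set_option linter.all false

open MeasureTheory ProbabilityTheory Set
open scoped ENNReal RealInnerProductSpace
open Vale.Agent.P262.H118 (L Iv st en ONB K1 rotE ON tau)
open Vale.Agent.P262.H395 (fib mix Inv Fixes fib_mono fib_add fib_le_one)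
open Vale.Agent.P262.H493 (star)
open Vale.Agent.P262.H654 (Lev fl vis wt kt al hid nk fr InvR Good LevOK Bd sg)
open Vale.Agent.P262.H847 (UI)
open Vale.Agent.P262.H852 (sl)

namespace Vale.Agent.P262.H606

variable {E : Type*} [NormedAddCommGroup E] [InnerProductSpace ℝ E] [FiniteDimensional ℝ E]
  [MeasurableSpace E] [BorelSpace E]

/-- real fibre averages as integrals over the type `Wᗮ` -/
lemma fr_eq_sl (W : Submodule ℝ E) {f : E → ℝ} (hf : Measurable f) (x : E) :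
    fr W f x = ∫ z, f (sl W x z) ∂stdGaussian Wᗮ := by
  unfold fr
  simp_rw [H852.mix_eq_sl]
  rw [← H852.map_proj_stdGaussian Wᗮ]
  have h1 : Measurable fun z => f (sl W x z) := hf.comp (H852.measurable_sl_right W x)
  exact (integral_map (Wᗮ.orthogonalProjection.continuous.measurable.aemeasurable)
    h1.aestronglyMeasurable).symm

end Vale.Agent.P262.H606

namespace Vale.Agent.P262.M1.Sys

variable {E : Type*} [NormedAddCommGroup E] [InnerProductSpace ℝ E] [FiniteDimensional ℝ E]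
  [MeasurableSpace E] [BorelSpace E] (S : Sys E)

/-- the change of coordinates from the leaf to level `l` is the same before and after an outer
move. -/
theorem Cg_out {l m : ℕ} (h : S.Out l m) (hl : l ≤ S.lf) : S.Cg l (m + 1) = S.Cg l m := by
  obtain ⟨C, hC, h1, h2⟩ := S.exists_change2 (m := m) (m' := m + 1) hl fun k hk _ => h.Q S hk
  have e1 : S.Cg l m = C := by
    unfold Cg
    rw [h1]
    ext x
    simp
  have e2 : S.Cg l (m + 1) = C := by
    unfold Cg
    rw [h2]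
    ext x
    simp
  rw [e1, e2]

lemma fld_UI_o {c0 : ℝ} (hM : 0 ≤ S.M) (hc0 : (S.M + 1) * S.cp.b0 ≤ c0) (hc : c0 ≤ 1 / 16)
    (l m : ℕ) : UI (S.fld l m) :=
  H654.fl_UI (S.good_lvs hM hc0 (l + 1) S.d) hc (ind_UI (S.measurableSet_X S.lf m).compl)

lemma fldL_meas_o {c0 : ℝ} (hM : 0 ≤ S.M) (hc0 : (S.M + 1) * S.cp.b0 ≤ c0) (hc : c0 ≤ 1 / 16)
    (l m : ℕ) : Measurable (S.fldL l m) :=
  (S.fld_UI_o hM hc0 hc l m).meas.comp (S.Cg l m).symm.continuous.measurable

lemma abs_ind_compl_sub_o (s t : Set E) (y : E) :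
    |ind tᶜ y - ind sᶜ y| = ind (symmDiff s t) y := by
  by_cases h1 : y ∈ s <;> by_cases h2 : y ∈ t
  · rw [ind_notMem (s := tᶜ) (by simpa using h2), ind_notMem (s := sᶜ) (by simpa using h1),
      ind_notMem]
    · simp
    · rw [Set.mem_symmDiff]; tauto
  · rw [ind_mem (s := tᶜ) (by simpa using h2), ind_notMem (s := sᶜ) (by simpa using h1), ind_mem]
    · simp
    · rw [Set.mem_symmDiff]; tauto
  · rw [ind_notMem (s := tᶜ) (by simpa using h2), ind_mem (s := sᶜ) (by simpa using h1), ind_mem]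
    · simp
    · rw [Set.mem_symmDiff]; tauto
  · rw [ind_mem (s := tᶜ) (by simpa using h2), ind_mem (s := sᶜ) (by simpa using h1), ind_notMem]
    · simp
    · rw [Set.mem_symmDiff]; tauto

/-- fibre form: the field of level `l` moves at an outer move by at most `sg ^ _ * Dl`. -/
theorem fr_out {c0 : ℝ} (hM : 0 ≤ S.M) (hc0 : (S.M + 1) * S.cp.b0 ≤ c0) (h0 : 0 ≤ c0)
    (hc : c0 ≤ 1 / 16) {l m : ℕ} (h : S.Out l m) (hl : l ≤ S.lf) (x : E) :
    fr (L S.f l) (fun y => |S.fld l (m + 1) y - S.fld l m y|) x ≤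
      sg c0 ^ (S.d - (l + 1)) * (S.Dl l m x).toReal := by
  have hG := S.good_lvs hM hc0 (l + 1) S.d
  have hg := ind_UI (S.measurableSet_X S.lf m).compl
  have hg' := ind_UI (S.measurableSet_X S.lf (m + 1)).compl
  have hs := (S.measurableSet_X S.lf m).symmDiff (S.measurableSet_X S.lf (m + 1))
  have hW : ∀ p ∈ S.lvs (l + 1) S.d, L S.f l ≤ p.W := by
    intro p hp
    obtain ⟨j, h1, h2, rfl⟩ := S.mem_lvs.1 hp
    exact H118.L_mono S.f (by omega)
  have key := H654.fr_abs_fl_sub_le hG h0 hc hg hg' hW x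
  rw [length_lvs] at key
  refine key.trans ?_
  have hsg : (0 : ℝ) ≤ sg c0 ^ (S.d - (l + 1)) :=
    pow_nonneg (zero_le_one.trans (H654.one_le_sg h0 hc)) _
  refine mul_le_mul_of_nonneg_left ?_ hsg
  have hV := H654.vis_UI hG hc (H654.UI.max hg hg')
  have e1 : (S.Dl l m x).toReal = fr (L S.f l) (ind (symmDiff (S.X S.lf m) (S.X S.lf (m + 1)))) x := by
    rw [S.Dl_eq h hl, ← fib_ind hs, ENNReal.toReal_ofReal
      (H654.fr_nonneg (fun y => ind_nonneg _ y) x)]
  rw [e1]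
  refine H654.fr_mono ((Bd.of_UI hV).mul ((Bd.of_UI hg').sub (Bd.of_UI hg)).abs)
    (Bd.of_UI (ind_UI hs)) (fun y => ?_) x
  rw [abs_ind_compl_sub_o]
  have h1 := hV.le_one y
  have h2 := ind_nonneg (symmDiff (S.X S.lf m) (S.X S.lf (m + 1))) y
  nlinarith

/-- **(OUT)** slices of the field in level-`l` coordinates at an outer move. -/
theorem out_slice {c0 : ℝ} (hM : 0 ≤ S.M) (hc0 : (S.M + 1) * S.cp.b0 ≤ c0) (h0 : 0 ≤ c0)
    (hc : c0 ≤ 1 / 16) {l m : ℕ} (h : S.Out l m) (hl : l ≤ S.lf) (x : E) :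
    ∫ z, |S.fldL l (m + 1) (sl (L S.f l) x z) - S.fldL l m (sl (L S.f l) x z)|
        ∂stdGaussian (L S.f l)ᗮ ≤
      sg c0 ^ (S.d - (l + 1)) * (S.Dl l m x).toReal := by
  have hm1 := S.fldL_meas_o hM hc0 hc l m
  have hm2 := S.fldL_meas_o hM hc0 hc l (m + 1)
  have hm : Measurable fun y => |S.fldL l (m + 1) y - S.fldL l m y| :=
    measurable_abs.comp (hm2.sub hm1)
  have e1 := H606.fr_eq_sl (L S.f l) hm x
  rw [← e1]
  have e2 : (fun y => |S.fldL l (m + 1) y - S.fldL l m y|) =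
      fun y => (fun y => |S.fld l (m + 1) y - S.fld l m y|) ((S.Cg l m).symm y) := by
    funext y
    unfold fldL
    rw [S.Cg_out h hl]
  rw [e2]
  have e3 := fr_fixes_symm (S.fixes_Cg hl m) (fun y => |S.fld l (m + 1) y - S.fld l m y|) x
  rw [e3]
  exact S.fr_out hM hc0 h0 hc h hl x

/-- the same with any larger exponent. -/
theorem out_slice' {c0 : ℝ} (hM : 0 ≤ S.M) (hc0 : (S.M + 1) * S.cp.b0 ≤ c0) (h0 : 0 ≤ c0)
    (hc : c0 ≤ 1 / 16) {l m : ℕ} (h : S.Out l m) (hl : l ≤ S.lf) {n : ℕ} (hn : S.d ≤ l + 1 + n)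
    (x : E) :
    ∫ z, |S.fldL l (m + 1) (sl (L S.f l) x z) - S.fldL l m (sl (L S.f l) x z)|
        ∂stdGaussian (L S.f l)ᗮ ≤
      sg c0 ^ n * (S.Dl l m x).toReal := by
  refine (S.out_slice hM hc0 h0 hc h hl x).trans ?_
  exact mul_le_mul_of_nonneg_right (pow_le_pow_right₀ (H654.one_le_sg h0 hc) (by omega))
    ENNReal.toReal_nonneg

/-- change of the visible mass at an outer move. -/
theorem Fv_out {c0 : ℝ} (hM : 0 ≤ S.M) (hc0 : (S.M + 1) * S.cp.b0 ≤ c0) (h0 : 0 ≤ c0)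
    (hc : c0 ≤ 1 / 16) {l m : ℕ} (h : S.Out l m) (hl : l ≤ S.lf) (x : E) :
    |S.Fv l (m + 1) x - S.Fv l m x| ≤ sg c0 ^ (S.d - (l + 1)) * (S.Dl l m x).toReal := by
  refine le_trans ?_ (S.fr_out hM hc0 h0 hc h hl x)
  unfold Fv
  rw [← H654.fr_sub (Bd.of_UI (S.fld_UI_o hM hc0 hc l (m + 1)))
    (Bd.of_UI (S.fld_UI_o hM hc0 hc l m))]
  exact H654.abs_fr_le _ x

/-! ### the price of an outer move -/

lemma Dl_le_Dc_o (l m : ℕ) (x : E) : S.Dl l m x ≤ S.Dc l m x := by
  refine fib_mono (fun y => indicator_le_indicator_of_subset ?_ (fun _ => zero_le) y) x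
  intro z hz
  rw [Set.mem_symmDiff] at hz
  rintro ⟨h1, h2⟩
  tauto

lemma Dc_le_add_o (l m : ℕ) (x : E) : S.Dc l m x ≤ S.De l m x + S.Dl l m x := by
  unfold Dc De Dl
  rw [← fib_add (measurable_one.indicator (S.measurableSet_X l m).compl)]
  refine fib_mono (fun y => ?_) x
  by_cases h1 : y ∈ S.X l m
  · by_cases h2 : y ∈ S.X l (m + 1)
    · rw [indicator_of_notMem (s := (S.X l m ∩ S.X l (m + 1))ᶜ) (fun h => h ⟨h1, h2⟩)]
      exact zero_le
    · refine le_trans ?_ le_add_self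
      have h3 : y ∈ symmDiff (S.X l m) (S.X l (m + 1)) := by rw [Set.mem_symmDiff]; tauto
      rw [indicator_of_mem h3]
      exact indicator_le_self' (fun _ _ => zero_le_one) y
  · refine le_trans ?_ le_self_add
    rw [indicator_of_mem (show y ∈ (S.X l m)ᶜ from h1)]
    exact indicator_le_self' (fun _ _ => zero_le_one) y

lemma Dc_le_add_o' (l m : ℕ) (x : E) : S.Dc l m x ≤ S.De l (m + 1) x + S.Dl l m x := by
  unfold Dc De Dl
  rw [← fib_add (measurable_one.indicator (S.measurableSet_X l (m + 1)).compl)]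
  refine fib_mono (fun y => ?_) x
  by_cases h2 : y ∈ S.X l (m + 1)
  · by_cases h1 : y ∈ S.X l m
    · rw [indicator_of_notMem (s := (S.X l m ∩ S.X l (m + 1))ᶜ) (fun h => h ⟨h1, h2⟩)]
      exact zero_le
    · refine le_trans ?_ le_add_self
      have h3 : y ∈ symmDiff (S.X l m) (S.X l (m + 1)) := by rw [Set.mem_symmDiff]; tauto
      rw [indicator_of_mem h3]
      exact indicator_le_self' (fun _ _ => zero_le_one) y
  · refine le_trans ?_ le_self_add
    rw [indicator_of_mem (show y ∈ (S.X l (m + 1))ᶜ from h2)]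
    exact indicator_le_self' (fun _ _ => zero_le_one) y

lemma Dc_le_one_o (l m : ℕ) (x : E) : S.Dc l m x ≤ 1 :=
  fib_le_one (fun y => indicator_le_self' (fun _ _ => zero_le_one) y) x

lemma De_le_one_o (l m : ℕ) (x : E) : S.De l m x ≤ 1 :=
  fib_le_one (fun y => indicator_le_self' (fun _ _ => zero_le_one) y) x

/-- deficit plus alive mass is at most one -/
lemma De_add_q_o {l : ℕ} (hl : l ≤ S.lf) (m : ℕ) (x : E) : S.De l m x + S.q l m x ≤ 1 := by
  rw [S.De_eq m hl x]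
  unfold q
  rw [← fib_add (measurable_one.indicator (S.measurableSet_X S.lf m).compl)]
  refine fib_le_one (fun y => ?_) x
  by_cases h1 : y ∈ S.X S.lf m
  · rw [indicator_of_notMem (s := (S.X S.lf m)ᶜ) (fun h => h h1), zero_add]
    exact indicator_le_self' (fun _ _ => zero_le_one) y
  · rw [indicator_of_notMem (s := S.Kq m) (fun h => h1 h.1), add_zero]
    exact indicator_le_self' (fun _ _ => zero_le_one) y

lemma q_le_one_o (l m : ℕ) (x : E) : S.q l m x ≤ 1 :=
  fib_le_one (fun y => indicator_le_self' (fun _ _ => zero_le_one) y) x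

lemma De_toReal_le_o {l : ℕ} (hl : l ≤ S.lf) (m : ℕ) (x : E) :
    (S.De l m x).toReal ≤ 1 - (S.q l m x).toReal := by
  have h1 := S.De_add_q_o hl m x
  have h2 : S.De l m x ≠ ∞ := ne_top_of_le_ne_top ENNReal.one_ne_top (S.De_le_one_o l m x)
  have h3 : S.q l m x ≠ ∞ := ne_top_of_le_ne_top ENNReal.one_ne_top (S.q_le_one_o l m x)
  have h4 := ENNReal.toReal_mono ENNReal.one_ne_top h1
  rw [ENNReal.toReal_add h2 h3] at h4
  simp at h4
  linarith

lemma Xr_toReal_o {l m : ℕ} {x : E} (hx : x ∉ S.cp.Z l) :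
    (S.Xr l m x).toReal * (S.Dc l m x).toReal = S.cp.A l x * (S.Dl l m x).toReal := by
  have hA := (S.cp.A_pos l x).le
  have hDc : S.Dc l m x ≠ ∞ := ne_top_of_le_ne_top ENNReal.one_ne_top (S.Dc_le_one_o l m x)
  unfold Xr a
  rw [if_neg hx, ENNReal.toReal_mul, ENNReal.toReal_ofReal hA, ENNReal.toReal_div]
  by_cases h : (S.Dc l m x).toReal = 0
  · have h1 : (S.Dl l m x).toReal ≤ (S.Dc l m x).toReal :=
      ENNReal.toReal_mono hDc (S.Dl_le_Dc_o l m x)
    have h2 : (S.Dl l m x).toReal = 0 :=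
      le_antisymm (h1.trans h.le) ENNReal.toReal_nonneg
    rw [h, h2]
    simp
  · field_simp

/-- **price of an outer move**: `A * Dl ≤ Xr * (min (1 - q) (1 - q') + Dl)`. -/
theorem Xr_price {l m : ℕ} (hl : l ≤ S.lf) {x : E} (hx : x ∉ S.cp.Z l) :
    S.cp.A l x * (S.Dl l m x).toReal ≤ (S.Xr l m x).toReal *
      (min (1 - (S.q l m x).toReal) (1 - (S.q l (m + 1) x).toReal) + (S.Dl l m x).toReal) := by
  rw [← S.Xr_toReal_o hx]
  refine mul_le_mul_of_nonneg_left ?_ ENNReal.toReal_nonneg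
  have hDe : S.De l m x ≠ ∞ := ne_top_of_le_ne_top ENNReal.one_ne_top (S.De_le_one_o l m x)
  have hDe' : S.De l (m + 1) x ≠ ∞ :=
    ne_top_of_le_ne_top ENNReal.one_ne_top (S.De_le_one_o l (m + 1) x)
  have hDl : S.Dl l m x ≠ ∞ :=
    ne_top_of_le_ne_top ENNReal.one_ne_top ((S.Dl_le_Dc_o l m x).trans (S.Dc_le_one_o l m x))
  have h1 := ENNReal.toReal_mono (ENNReal.add_ne_top.2 ⟨hDe, hDl⟩) (S.Dc_le_add_o l m x)
  have h2 := ENNReal.toReal_mono (ENNReal.add_ne_top.2 ⟨hDe', hDl⟩) (S.Dc_le_add_o' l m x)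
  rw [ENNReal.toReal_add hDe hDl] at h1
  rw [ENNReal.toReal_add hDe' hDl] at h2
  have h3 := S.De_toReal_le_o hl m x
  have h4 := S.De_toReal_le_o hl (m + 1) x
  have h5 : (S.Dc l m x).toReal - (S.Dl l m x).toReal ≤
      min (1 - (S.q l m x).toReal) (1 - (S.q l (m + 1) x).toReal) :=
    le_min (by linarith) (by linarith)
  linarith

/-- the price is finite -/
lemma Xr_ne_top_o {l m : ℕ} {x : E} : S.Xr l m x ≠ ∞ := by
  unfold Xr
  have h1 : S.Dl l m x / S.Dc l m x ≤ 1 := ENNReal.div_le_of_le_mul (by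
    rw [one_mul]; exact S.Dl_le_Dc_o l m x)
  have h2 : S.a l x ≠ ∞ := by
    unfold a
    split_ifs
    · exact ENNReal.one_ne_top
    · exact ENNReal.ofReal_ne_top
  exact ENNReal.mul_ne_top h2 (ne_top_of_le_ne_top ENNReal.one_ne_top h1)

/-- `Xr ≤ a` -/
lemma Xr_le_a_o (l m : ℕ) (x : E) : S.Xr l m x ≤ S.a l x := by
  unfold Xr
  have h1 : S.Dl l m x / S.Dc l m x ≤ 1 := ENNReal.div_le_of_le_mul (by
    rw [one_mul]; exact S.Dl_le_Dc_o l m x)
  calc S.a l x * (S.Dl l m x / S.Dc l m x) ≤ S.a l x * 1 := by gcongr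
    _ = _ := mul_one _

end Vale.Agent.P262.M1.Sys
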