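import Vale.Agent.P262.H924.Box3
import Vale.Agent.P262.M1.Defs

/-!
# P262, milestone 1: the box caps as an instance of `M1.Caps`
-/

set_option linter.all false

open MeasureTheory ProbabilityTheory Set
open scoped ENNReal RealInnerProductSpace
open Vale.Agent.P262.H118 (L ONB)
open Vale.Agent.P262.H395 (fib mix Inv)
open Vale.Agent.P262.H924

namespace Vale.Agent.P262.M1

variable {E : Type*} [NormedAddCommGroup E] [InnerProductSpace ℝ E] [FiniteDimensional ℝ E]
  [MeasurableSpace E] [BorelSpace E]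

/-- the box caps -/
noncomputable def boxCaps {f : ℕ → E} {d : ℕ} (hf : ONB f d) {h A0 kap b0 R : ℝ} (hh : 0 ≤ h)
    (hA : 0 < A0) (hkap : 0 < kap) (hkap1 : kap ≤ 1) (hb : 0 < b0) (hAb : A0 ≤ b0) (hR0 : 0 ≤ R)
    (hR : 2 * d * h ^ 2 + 16 * (d * Real.log (1 / kap) + Real.log (b0 / A0))
      + 8 * (d * Real.log (1 / kap) + Real.log (1 / A0) + 1) ≤ R ^ 2)
    (hR1 : 2 * d * h ^ 2 + 16 * (d * Real.log (1 / kap) + Real.log (b0 / A0)) ≤ R ^ 2) :
    Caps f d R where
  A := capR A0 kap f h
  Z := Zk A0 kap b0 f h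
  b0 := b0
  kap := kap * (1 + 3 * Real.exp (-h ^ 2 / 2)) * (1 + 1 / b0)
  A_pos := fun i x => capR_pos hA hkap i x
  A_meas := fun i => (continuous_capR i).measurable
  A_cyl := fun i x w hw => capR_add_perp le_rfl x hw
  Z_cyl := fun i x w hw => cyl_Zk le_rfl x hw
  Z_mono := fun i => Zk_mono (Nat.le_succ i)
  Z_zero := by
    ext x
    simp only [mem_empty_iff_false, iff_false]
    rw [notMem_Zk]
    intro i hi
    obtain rfl : i = 0 := by omega
    rw [capR_zero]
    exact hAb
  Z_closed := fun i => isClosed_Zk_compl i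
  Z_convex := fun i => convex_Zk_compl hA.le hkap.le i
  b0_pos := hb
  kap_pos := by positivity
  A_le := fun i x hx => capR_le le_rfl hx
  lt_A := by
    intro i x hx
    by_contra hcon
    push Not at hcon
    exact (notMem_Zk.mpr hcon) hx
  child := by
    intro i hi x hx
    refine (fib_cap_add_Zk hf hA.le hkap.le hh hb hi hx).trans (le_of_eq ?_)
    unfold cap
    have he := (Real.exp_pos (-h ^ 2 / 2)).le
    rw [← ENNReal.ofReal_mul (by positivity)]
  alive := by
    intro i hi x hxL hx
    have h1 := norm_sq_le_of_capR_le hf hh hA hkap hkap1 hb (j := i) (by omega) (x := x)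
      (capR_le le_rfl hx)
    rw [Submodule.starProjection_eq_self_iff.mpr hxL] at h1
    exact abs_le_of_sq_le_sq' (h1.trans hR1) hR0 |>.2
  leaf := by
    intro x hx
    exact onLine_capR hf hh hA hkap hkap1 hb (Nat.sub_le d 1) hR (capR_le le_rfl hx)

end Vale.Agent.P262.M1
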