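import Mathlib
import Vale.Agent.P262.H606.Dist

/-!
# P262, scheme S1: the cap-weighted tip inequality (block RMAX / (A3)) for distance caps

`cap_tip`: let `K` be a bounded closed convex set, healthy at the root and at all stopped labels
of the tree `T`. Let `B' ⊆ B` be closed convex sets which are flat in the fibres of all the labels
of `T`. Then in the visible region of `T`

`E[exp (dist(x,B')^2/8) 1_K] ≤ C * E[exp (dist(x,B)^2/8) 1_K]`.
-/

set_option linter.all false

open MeasureTheory Set Filter ProbabilityTheory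
open scoped ENNReal NNReal Topology RealInnerProductSpace

namespace Vale.Agent.P262.H606

open Vale.Agent.P262.H493 hiding fib
open Vale.Agent.P262.H395
open Vale.Agent.P262.H44

section sum

/-- summation over shells -/
lemma tail_sum (v : ℝ) (hv : 0 ≤ v) :
    ∑' m : ℕ, (if v ≤ (m : ℝ) - 1 then ENNReal.ofReal (Real.exp (-(m : ℝ) / 8)) else 0) ≤
      ENNReal.ofReal (9 * Real.exp (-(v + 1) / 8)) := by
  set M : ℕ := ⌈v⌉₊ + 1 with hM
  set F : ℕ → ℝ≥0∞ := fun m =>
    if v ≤ (m : ℝ) - 1 then ENNReal.ofReal (Real.exp (-(m : ℝ) / 8)) else 0 with hF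
  have hsupp : Function.support F ⊆ range fun n : ℕ => n + M := by
    intro m hm
    have h1 : v ≤ (m : ℝ) - 1 := by
      by_contra hcon
      apply hm
      simp [hF, hcon]
    have h2 : v ≤ ((m - 1 : ℕ) : ℝ) := by
      have h3 : 1 ≤ m := by
        have : (1 : ℝ) ≤ m := by linarith
        exact_mod_cast this
      rw [Nat.cast_sub h3]
      simpa using h1
    have h4 : ⌈v⌉₊ ≤ m - 1 := Nat.ceil_le.mpr h2
    have h5 : 1 ≤ m := by
      have : (1 : ℝ) ≤ m := by linarith
      exact_mod_cast this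
    exact ⟨m - M, by simp only; omega⟩
  have e1 : ∑' m, F m = ∑' n : ℕ, F (n + M) :=
    ((add_left_injective M).tsum_eq hsupp).symm
  show ∑' m, F m ≤ _
  rw [e1]
  have hle : ∀ n : ℕ, F (n + M) ≤
      ENNReal.ofReal (Real.exp (-(v + 1) / 8)) * ENNReal.ofReal (Real.exp (-1 / 8)) ^ n := by
    intro n
    have h0 : F (n + M) ≤ ENNReal.ofReal (Real.exp (-((n + M : ℕ) : ℝ) / 8)) := by
      simp only [hF]
      split_ifs
      · exact le_rfl
      · exact bot_le
    refine h0.trans ?_
    rw [← ENNReal.ofReal_pow (Real.exp_pos _).le, ← Real.exp_nat_mul,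
      ← ENNReal.ofReal_mul (Real.exp_pos _).le, ← Real.exp_add]
    apply ENNReal.ofReal_le_ofReal
    apply Real.exp_le_exp.mpr
    have h1 := Nat.le_ceil v
    rw [hM]
    push_cast
    linarith
  refine (ENNReal.tsum_le_tsum hle).trans ?_
  rw [ENNReal.tsum_mul_left, ENNReal.tsum_geometric]
  have h9 : (1 - ENNReal.ofReal (Real.exp (-1 / 8)))⁻¹ ≤ ENNReal.ofReal 9 := by
    rw [show ENNReal.ofReal 9 = (ENNReal.ofReal (1 / 9))⁻¹ by
      rw [← ENNReal.ofReal_inv_of_pos (by norm_num)]; norm_num]
    rw [ENNReal.inv_le_inv, ← ENNReal.ofReal_one, ← ENNReal.ofReal_sub _ (Real.exp_pos _).le]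
    apply ENNReal.ofReal_le_ofReal
    have h1 : (9 / 8 : ℝ) ≤ Real.exp (1 / 8) := by
      have := Real.add_one_le_exp (1 / 8 : ℝ)
      linarith
    have h2 : Real.exp (-1 / 8) = (Real.exp (1 / 8))⁻¹ := by
      rw [← Real.exp_neg]; norm_num
    rw [h2]
    have h3 : (Real.exp (1 / 8))⁻¹ ≤ (9 / 8 : ℝ)⁻¹ := inv_anti₀ (by norm_num) h1
    norm_num at h3 ⊢
    linarith
  calc _ ≤ ENNReal.ofReal (Real.exp (-(v + 1) / 8)) * ENNReal.ofReal 9 := by gcongr
    _ = _ := by
      rw [← ENNReal.ofReal_mul (Real.exp_pos _).le, mul_comm]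

theorem shell_sum {X : Type*} [MeasurableSpace X] (ν : Measure X) {u v : X → ℝ}
    (hu : Measurable u) (hv : Measurable v) (hu0 : ∀ x, 0 ≤ u x) (hv0 : ∀ x, 0 ≤ v x)
    {g : X → ℝ≥0∞} (hg : Measurable g) {q : ℝ} (hq : 1 ≤ q) {k : ℝ≥0∞}
    (h : ∀ m : ℕ,
      ∫⁻ x, g x * {x | (m : ℝ) - 1 < v x ∧ v x ≤ m ∧ u x ≤ m - q}.indicator
        (fun x => ENNReal.ofReal (Real.exp (v x / 4))) x ∂ν ≤
      k * ∫⁻ x, g x * {x | v x ≤ (m : ℝ) - 1 ∧ u x ≤ m - q}.indicator
        (fun x => ENNReal.ofReal (Real.exp (v x / 4))) x ∂ν) :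
    ∫⁻ x, g x * {x | u x + q ≤ v x}.indicator
        (fun x => ENNReal.ofReal (Real.exp (v x / 8))) x ∂ν ≤
      k * (ENNReal.ofReal 9 * ∫⁻ x, g x * ENNReal.ofReal (Real.exp (v x / 8)) ∂ν) := by
  have hm4 : Measurable fun x => ENNReal.ofReal (Real.exp (v x / 4)) :=
    ENNReal.measurable_ofReal.comp (Real.measurable_exp.comp (hv.div_const _))
  have hm8 : Measurable fun x => ENNReal.ofReal (Real.exp (v x / 8)) :=
    ENNReal.measurable_ofReal.comp (Real.measurable_exp.comp (hv.div_const _))
  have hA : ∀ m : ℕ, MeasurableSet {x | (m : ℝ) - 1 < v x ∧ v x ≤ m ∧ u x ≤ m - q} := by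
    intro m
    exact (measurableSet_lt measurable_const hv).inter
      ((measurableSet_le hv measurable_const).inter (measurableSet_le hu measurable_const))
  have hB : ∀ m : ℕ, MeasurableSet {x | v x ≤ (m : ℝ) - 1 ∧ u x ≤ m - q} := by
    intro m
    exact (measurableSet_le hv measurable_const).inter (measurableSet_le hu measurable_const)
  set c : ℕ → ℝ≥0∞ := fun m => ENNReal.ofReal (Real.exp (-(m : ℝ) / 8)) with hc
  have hgA : ∀ m : ℕ, Measurable fun x => g x *
      {x | (m : ℝ) - 1 < v x ∧ v x ≤ m ∧ u x ≤ m - q}.indicator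
        (fun x => ENNReal.ofReal (Real.exp (v x / 4))) x := fun m => hg.mul (hm4.indicator (hA m))
  have hgB : ∀ m : ℕ, Measurable fun x => g x *
      {x | v x ≤ (m : ℝ) - 1 ∧ u x ≤ m - q}.indicator
        (fun x => ENNReal.ofReal (Real.exp (v x / 4))) x := fun m => hg.mul (hm4.indicator (hB m))
  have e18 : ENNReal.ofReal (Real.exp (1 / 8)) ≠ ⊤ := ENNReal.ofReal_ne_top
  calc ∫⁻ x, g x * {x | u x + q ≤ v x}.indicator
        (fun x => ENNReal.ofReal (Real.exp (v x / 8))) x ∂ν
      ≤ ∫⁻ x, ENNReal.ofReal (Real.exp (1 / 8)) * ∑' m : ℕ, c m * (g x *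
          {x | (m : ℝ) - 1 < v x ∧ v x ≤ m ∧ u x ≤ m - q}.indicator
          (fun x => ENNReal.ofReal (Real.exp (v x / 4))) x) ∂ν := by
        refine lintegral_mono fun x => ?_
        by_cases hx : u x + q ≤ v x
        · rw [indicator_of_mem (show x ∈ {x | u x + q ≤ v x} from hx)]
          have hvpos : 0 < v x := by have := hu0 x; linarith
          have h1 : (⌈v x⌉₊ : ℝ) - 1 < v x := by
            have := Nat.ceil_lt_add_one (hv0 x)
            linarith
          have h2 := Nat.le_ceil (v x)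
          have hmem : x ∈ {x | (⌈v x⌉₊ : ℝ) - 1 < v x ∧ v x ≤ ⌈v x⌉₊ ∧ u x ≤ ⌈v x⌉₊ - q} :=
            ⟨h1, h2, by linarith⟩
          have hmem' : x ∈ {y | (⌈v x⌉₊ : ℝ) - 1 < v y ∧ v y ≤ ⌈v x⌉₊ ∧ u y ≤ ⌈v x⌉₊ - q} :=
            ⟨h1, h2, by linarith⟩
          refine le_trans ?_ (mul_le_mul' le_rfl (ENNReal.le_tsum ⌈v x⌉₊))
          rw [indicator_of_mem hmem']
          calc g x * ENNReal.ofReal (Real.exp (v x / 8))
              ≤ g x * (ENNReal.ofReal (Real.exp (1 / 8)) * (c ⌈v x⌉₊ *
                ENNReal.ofReal (Real.exp (v x / 4)))) := by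
                gcongr
                rw [hc]
                simp only
                rw [ofReal_exp_mul, ofReal_exp_mul]
                apply ENNReal.ofReal_le_ofReal
                apply Real.exp_le_exp.mpr
                linarith
            _ = _ := by ring
        · rw [indicator_of_notMem (show x ∉ {x | u x + q ≤ v x} from hx), mul_zero]
          exact bot_le
    _ = ENNReal.ofReal (Real.exp (1 / 8)) * ∑' m : ℕ, c m * ∫⁻ x, g x *
          {x | (m : ℝ) - 1 < v x ∧ v x ≤ m ∧ u x ≤ m - q}.indicator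
          (fun x => ENNReal.ofReal (Real.exp (v x / 4))) x ∂ν := by
        rw [lintegral_const_mul' _ _ e18, lintegral_tsum fun m =>
          ((hgA m).const_mul (c m)).aemeasurable]
        congr 1
        refine tsum_congr fun m => ?_
        exact lintegral_const_mul _ (hgA m)
    _ ≤ ENNReal.ofReal (Real.exp (1 / 8)) * ∑' m : ℕ, c m * (k * ∫⁻ x, g x *
          {x | v x ≤ (m : ℝ) - 1 ∧ u x ≤ m - q}.indicator
          (fun x => ENNReal.ofReal (Real.exp (v x / 4))) x ∂ν) := by
        gcongr with m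
        exact h m
    _ = k * (ENNReal.ofReal (Real.exp (1 / 8)) * ∑' m : ℕ, c m * ∫⁻ x, g x *
          {x | v x ≤ (m : ℝ) - 1 ∧ u x ≤ m - q}.indicator
          (fun x => ENNReal.ofReal (Real.exp (v x / 4))) x ∂ν) := by
        rw [mul_left_comm k, ← ENNReal.tsum_mul_left (a := k)]
        congr 1
        refine tsum_congr fun m => ?_
        ring
    _ = k * ∫⁻ x, ENNReal.ofReal (Real.exp (1 / 8)) * ∑' m : ℕ, c m * (g x *
          {x | v x ≤ (m : ℝ) - 1 ∧ u x ≤ m - q}.indicator
          (fun x => ENNReal.ofReal (Real.exp (v x / 4))) x) ∂ν := by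
        rw [lintegral_const_mul' _ _ e18, lintegral_tsum fun m =>
          ((hgB m).const_mul (c m)).aemeasurable]
        congr 2
        refine tsum_congr fun m => ?_
        exact (lintegral_const_mul _ (hgB m)).symm
    _ ≤ k * ∫⁻ x, ENNReal.ofReal 9 * (g x * ENNReal.ofReal (Real.exp (v x / 8))) ∂ν := by
        refine mul_le_mul' le_rfl (lintegral_mono fun x => ?_)
        have hs : ∑' m : ℕ, c m * (g x * {x | v x ≤ (m : ℝ) - 1 ∧ u x ≤ m - q}.indicator
            (fun x => ENNReal.ofReal (Real.exp (v x / 4))) x) ≤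
            (∑' m : ℕ, (if v x ≤ (m : ℝ) - 1 then ENNReal.ofReal (Real.exp (-(m : ℝ) / 8)) else 0))
              * (g x * ENNReal.ofReal (Real.exp (v x / 4))) := by
          rw [← ENNReal.tsum_mul_right]
          refine ENNReal.tsum_le_tsum fun m => ?_
          by_cases hx : v x ≤ (m : ℝ) - 1 ∧ u x ≤ m - q
          · rw [indicator_of_mem (show x ∈ {x | v x ≤ (m : ℝ) - 1 ∧ u x ≤ m - q} from hx),
              if_pos hx.1]
          · rw [indicator_of_notMem (show x ∉ {x | v x ≤ (m : ℝ) - 1 ∧ u x ≤ m - q} from hx),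
              mul_zero, mul_zero]
            exact bot_le
        calc _ ≤ ENNReal.ofReal (Real.exp (1 / 8)) * (ENNReal.ofReal (9 * Real.exp (-(v x + 1) / 8))
              * (g x * ENNReal.ofReal (Real.exp (v x / 4)))) := by
              gcongr
              exact hs.trans (mul_le_mul' (tail_sum (v x) (hv0 x)) le_rfl)
          _ = ENNReal.ofReal 9 * (g x * (ENNReal.ofReal (Real.exp (1 / 8)) *
              (ENNReal.ofReal (Real.exp (-(v x + 1) / 8)) *
                ENNReal.ofReal (Real.exp (v x / 4))))) := by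
              rw [ENNReal.ofReal_mul (by norm_num)]
              ring
          _ = _ := by
              rw [ofReal_exp_mul, ofReal_exp_mul]
              congr 4
              ring
    _ = _ := by
        rw [lintegral_const_mul' _ _ ENNReal.ofReal_ne_top]

end sum

section geom

variable {E : Type*} [NormedAddCommGroup E] [InnerProductSpace ℝ E] [FiniteDimensional ℝ E]

/-- convexity of the distance to a convex set -/
lemma infDist_conv {B : Set E} (hB : IsClosed B) (hc : Convex ℝ B) (hne : B.Nonempty) (x y : E)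
    {s t : ℝ} (hs : 0 ≤ s) (ht : 0 ≤ t) (hst : s + t = 1) :
    Metric.infDist (s • x + t • y) B ≤ s * Metric.infDist x B + t * Metric.infDist y B := by
  obtain ⟨p, hp, hpx⟩ := hB.exists_infDist_eq_dist hne x
  obtain ⟨r, hr, hry⟩ := hB.exists_infDist_eq_dist hne y
  refine (Metric.infDist_le_dist_of_mem (hc hp hr hs ht hst)).trans ?_
  rw [hpx, hry, dist_eq_norm, dist_eq_norm, dist_eq_norm]
  have e : s • x + t • y - (s • p + t • r) = s • (x - p) + t • (y - r) := by
    simp only [smul_sub]; abel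
  rw [e]
  refine (norm_add_le _ _).trans (le_of_eq ?_)
  rw [norm_smul, norm_smul, Real.norm_of_nonneg hs, Real.norm_of_nonneg ht]

lemma infDist_sq_conv {B : Set E} (hB : IsClosed B) (hc : Convex ℝ B) (hne : B.Nonempty) (x y : E)
    {s t : ℝ} (hs : 0 ≤ s) (ht : 0 ≤ t) (hst : s + t = 1) :
    Metric.infDist (s • x + t • y) B ^ 2 ≤
      s * Metric.infDist x B ^ 2 + t * Metric.infDist y B ^ 2 := by
  have h1 := infDist_conv hB hc hne x y hs ht hst
  have h2 := pow_le_pow_left₀ Metric.infDist_nonneg h1 2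
  refine h2.trans ?_
  have ht' : t = 1 - s := by linarith
  subst ht'
  nlinarith [mul_nonneg hs ht, sq_nonneg (Metric.infDist x B - Metric.infDist y B)]

/-- the sets of the shell argument -/
def Sp (K B B' : Set E) (q H r : ℝ) : Set E :=
  {x | x ∈ K ∧ Metric.infDist x B' ^ 2 ≤ r ∧ Metric.infDist x B ^ 2 ≤ H - q}

variable {K B B' : Set E} {q H r : ℝ}

lemma isClosed_Sp (hK : IsClosed K) : IsClosed (Sp K B B' q H r) := by
  have h1 : IsClosed {x : E | Metric.infDist x B' ^ 2 ≤ r} :=
    isClosed_le ((Metric.continuous_infDist_pt B').pow 2) continuous_const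
  have h2 : IsClosed {x : E | Metric.infDist x B ^ 2 ≤ H - q} :=
    isClosed_le ((Metric.continuous_infDist_pt B).pow 2) continuous_const
  exact hK.inter (h1.inter h2)

lemma Sp_mono {r' : ℝ} (h : r ≤ r') : Sp K B B' q H r ⊆ Sp K B B' q H r' :=
  fun _ hx => ⟨hx.1, hx.2.1.trans h, hx.2.2⟩

lemma Sp_mix (hK : Convex ℝ K) (hB : IsClosed B) (hBc : Convex ℝ B) (hBn : B.Nonempty)
    (hB' : IsClosed B') (hBc' : Convex ℝ B') (hBn' : B'.Nonempty) {r1 r2 s t : ℝ} (hs : 0 ≤ s)
    (ht : 0 ≤ t) (hst : s + t = 1) (hr : s * r1 + t * r2 ≤ r) {x y : E}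
    (hx : x ∈ Sp K B B' q H r1) (hy : y ∈ Sp K B B' q H r2) : s • x + t • y ∈ Sp K B B' q H r := by
  refine ⟨hK hx.1 hy.1 hs ht hst, ?_, ?_⟩
  · refine (infDist_sq_conv hB' hBc' hBn' x y hs ht hst).trans (le_trans ?_ hr)
    exact add_le_add (mul_le_mul_of_nonneg_left hx.2.1 hs) (mul_le_mul_of_nonneg_left hy.2.1 ht)
  · refine (infDist_sq_conv hB hBc hBn x y hs ht hst).trans ?_
    calc _ ≤ s * (H - q) + t * (H - q) :=
          add_le_add (mul_le_mul_of_nonneg_left hx.2.2 hs) (mul_le_mul_of_nonneg_left hy.2.2 ht)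
      _ = H - q := by rw [← add_mul, hst, one_mul]

lemma usc_indicator {f : E → ℝ≥0∞} (hf : Continuous f) {S : Set E} (hS : IsClosed S) :
    UpperSemicontinuous (S.indicator f) := by
  intro x r hr
  by_cases hx : x ∈ S
  · rw [indicator_of_mem hx] at hr
    filter_upwards [hf.tendsto x |>.eventually (gt_mem_nhds hr)] with y hy
    exact lt_of_le_of_lt (indicator_le_self' (fun _ _ => bot_le) y) hy
  · rw [indicator_of_notMem hx] at hr
    filter_upwards [hS.isOpen_compl.mem_nhds hx] with y hy
    rw [indicator_of_notMem hy]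
    exact hr

lemma dw_bdd {a R : ℝ} (ha : 0 ≤ a) (hB : B.Nonempty) {S : Set E}
    (hS : S ⊆ Metric.closedBall 0 R) : ∃ M : ℝ≥0∞, M ≠ ⊤ ∧ ∀ x ∈ S, dw a B x ≤ M := by
  obtain ⟨b, hb⟩ := hB
  refine ⟨ENNReal.ofReal (Real.exp (a * (R + ‖b‖) ^ 2)), ENNReal.ofReal_ne_top, fun x hx => ?_⟩
  refine dw_le_of_sq ha (pow_le_pow_left₀ Metric.infDist_nonneg ?_ 2)
  refine (Metric.infDist_le_dist_of_mem hb).trans ?_
  rw [dist_eq_norm]
  refine (norm_sub_le _ _).trans ?_
  have : ‖x‖ ≤ R := by simpa using hS hx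
  linarith

end geom

variable {E : Type*} [NormedAddCommGroup E] [InnerProductSpace ℝ E] [FiniteDimensional ℝ E]
  [MeasurableSpace E] [BorelSpace E]

/-- triples of weighted indicators -/
theorem regW_ind {a : ℝ} {B : Set E} {Θ : ℝ} (hΘ : 0 < Θ) (hΘ1 : Θ < 1) (hB : IsClosed B)
    (hne : B.Nonempty) (ha0 : 0 ≤ a) (ha : a ≤ 1 / 2) {S0 ST S1 : Set E} (c0 : IsClosed S0)
    (cv : Convex ℝ S0) (mT : MeasurableSet ST) (c1 : IsClosed S1) (h1T : S1 ⊆ ST) (hT0 : ST ⊆ S0)
    {R : ℝ} (hR : S0 ⊆ Metric.closedBall 0 R)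
    (hmix : ∀ x ∈ S0, ∀ y ∈ S1, (1 - Θ) • x + Θ • y ∈ ST) :
    RegW Θ (S0.indicator (dw a B)) (ST.indicator (dw a B)) (S1.indicator (dw a B)) where
  m0 := (continuous_dw a B).measurable.indicator c0.measurableSet
  mT := (continuous_dw a B).measurable.indicator mT
  m1 := (continuous_dw a B).measurable.indicator c1.measurableSet
  le1 := fun x => indicator_le_indicator_of_subset h1T (fun _ => bot_le) x
  leT := fun x => indicator_le_indicator_of_subset hT0 (fun _ => bot_le) x
  lc := by
    intro x y s t hs ht hst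
    show (gd x * S0.indicator (dw a B) x) ^ s * (gd y * S0.indicator (dw a B) y) ^ t ≤
      gd (s • x + t • y) * S0.indicator (dw a B) (s • x + t • y)
    by_cases hx : x ∈ S0
    · by_cases hy : y ∈ S0
      · rw [indicator_of_mem hx, indicator_of_mem hy, indicator_of_mem (cv hx hy hs.le ht.le hst)]
        exact gd_dw_lc hB hne ha0 ha x y s t hs ht hst
      · rw [indicator_of_notMem hy, mul_zero (gd y), ENNReal.zero_rpow_of_pos ht, mul_zero]
        exact bot_le
    · rw [indicator_of_notMem hx, mul_zero (gd x), ENNReal.zero_rpow_of_pos hs, zero_mul]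
      exact bot_le
  mix := by
    intro x y
    have h1Θ : 0 < 1 - Θ := by linarith
    by_cases hx : x ∈ S0
    · by_cases hy : y ∈ S1
      · rw [indicator_of_mem hx, indicator_of_mem hy, indicator_of_mem (hmix x hx y hy)]
        exact gd_dw_lc hB hne ha0 ha x y _ _ h1Θ hΘ (by ring)
      · rw [indicator_of_notMem hy, mul_zero (gd y), ENNReal.zero_rpow_of_pos hΘ, mul_zero]
        exact bot_le
    · rw [indicator_of_notMem hx, mul_zero (gd x), ENNReal.zero_rpow_of_pos h1Θ, zero_mul]
      exact bot_le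
  usc := usc_indicator (continuous_dw a B) c1
  bdd := by
    obtain ⟨M, hM, hb⟩ := dw_bdd ha0 hne hR
    refine ⟨M, hM, fun x => ?_⟩
    by_cases hx : x ∈ S0
    · rw [indicator_of_mem hx]; exact hb x hx
    · rw [indicator_of_notMem hx]; exact bot_le

/-- health and flatness at the labels of a tree -/
def Healthy (K B B' : Set E) : STree E → Prop
  | .leaf => True
  | .node W D cls sub => (∀ x ∈ D, ENNReal.ofReal (4 / 5) ≤ fib W (K.indicator 1) x) ∧
      (∃ P C, FlatD (1 / 10) W B' P C ∧ B ⊆ P) ∧ ∀ n, Healthy K B B' (sub n)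

/-- one label: a healthy label is fat for the shell functionals -/
lemma fat_label {K B B' : Set E} (hK : IsClosed K) (hne : B'.Nonempty) (hsub : B' ⊆ B)
    {W : Submodule ℝ E} {P C : Set E} (hF : FlatD (1 / 10) W B' P C) (hP : B ⊆ P) {q H c κ : ℝ}
    (hc : 0 ≤ c) (hκ : κ * (1 - 1 / 10)⁻¹ ≤ c - 1 / 10) (hκ0 : 0 ≤ κ) {x : E}
    (hx : ENNReal.ofReal c ≤ fib W (K.indicator 1) x) :
    ENNReal.ofReal κ * fib W ((Sp K B B' q H H).indicator (dw (1 / 4) B')) x ≤
      fib W ((Sp K B B' q H (H - q)).indicator (dw (1 / 4) B')) x := by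
  have hBn : B.Nonempty := hne.mono hsub
  by_cases hρ : Metric.infDist x P ^ 2 ≤ H - q
  · have h1 : fib W ((Sp K B B' q H H).indicator (dw (1 / 4) B')) x ≤
        dw (1 / 4) P x * ENNReal.ofReal ((1 - 1 / 10)⁻¹) :=
      (fib_mono (fun y => indicator_le_self' (fun _ _ => bot_le) y) x).trans
        (hF.fib_dw_le (by norm_num) hne (by norm_num) (by norm_num) x)
    have h2 := hF.le_fib_dw hne (a := 1 / 4) (by norm_num) (Sp K B B' q H (H - q))
      (isClosed_Sp hK).measurableSet x
    have h3 := hF.fib_inter_le (by norm_num) hK.measurableSet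
      (isClosed_Sp (B := B) (B' := B') (q := q) (H := H) (r := H - q) hK).measurableSet x
      (fun z hz hzK => by
        have h4 := hF.dist_le_of_mem (by norm_num) hne x hz
        refine ⟨hzK, h4.trans hρ, ?_⟩
        refine le_trans (pow_le_pow_left₀ Metric.infDist_nonneg
          (Metric.infDist_le_infDist_of_subset hsub hne) 2) (h4.trans hρ))
    have h5 : ENNReal.ofReal (c - 1 / 10) ≤
        fib W ((Sp K B B' q H (H - q)).indicator 1) x := by
      have h6 := hx.trans h3
      rw [ENNReal.ofReal_sub _ (by norm_num)]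
      exact tsub_le_iff_right.mpr h6
    calc ENNReal.ofReal κ * fib W ((Sp K B B' q H H).indicator (dw (1 / 4) B')) x
        ≤ ENNReal.ofReal κ * (dw (1 / 4) P x * ENNReal.ofReal ((1 - 1 / 10)⁻¹)) := by gcongr
      _ = dw (1 / 4) P x * ENNReal.ofReal (κ * (1 - 1 / 10)⁻¹) := by
          rw [ENNReal.ofReal_mul hκ0]; ring
      _ ≤ dw (1 / 4) P x * ENNReal.ofReal (c - 1 / 10) := by gcongr
      _ ≤ dw (1 / 4) P x * fib W ((Sp K B B' q H (H - q)).indicator 1) x := by gcongr
      _ ≤ _ := h2
  · have h0 : fib W ((Sp K B B' q H H).indicator (dw (1 / 4) B')) x = 0 := by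
      refine fib_ind_empty _ fun z hz => hρ ?_
      refine le_trans (pow_le_pow_left₀ Metric.infDist_nonneg ?_ 2) hz.2.2
      rw [← infDist_mix hF.cyl x z]
      exact Metric.infDist_le_infDist_of_subset hP hBn
    rw [h0, mul_zero]
    exact bot_le

lemma Healthy.deep {K B B' : Set E} (hK : IsClosed K) (hne : B'.Nonempty) (hsub : B' ⊆ B)
    {q H : ℝ} : ∀ (T : STree E), Healthy K B B' T →
      T.Deep ((Sp K B B' q H H).indicator (dw (1 / 4) B'))
        ((Sp K B B' q H (H - q)).indicator (dw (1 / 4) B')) := by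
  intro T
  induction T with
  | leaf => intro _; trivial
  | node W D cls sub ih =>
    rintro ⟨h1, ⟨P, C, hF, hP⟩, h3⟩
    refine ⟨fun x hx => ?_, fun n => ih n (h3 n)⟩
    exact fat_label hK hne hsub hF hP (c := 4 / 5) (by norm_num) (by norm_num) (by norm_num)
      (h1 x hx)

/-- one shell -/
theorem shell {K B B' : Set E} (hK : IsClosed K) (hKc : Convex ℝ K) {R : ℝ}
    (hKR : K ⊆ Metric.closedBall 0 R) (hB : IsClosed B) (hBc : Convex ℝ B) (hB' : IsClosed B')
    (hBc' : Convex ℝ B') (hne : B'.Nonempty) (hsub : B' ⊆ B) {q : ℝ} (hq : 704 ≤ q)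
    {T : STree E} {W0 : Submodule ℝ E} (hV : T.Valid W0) (hT : Healthy K B B' T) (x0 : E)
    {P C : Set E} (hF : FlatD (1 / 10) W0 B' P C) (hP : B ⊆ P)
    (hroot : ENNReal.ofReal (1 / 2) ≤ fib W0 (K.indicator 1) x0) (H : ℝ) :
    fib W0 (T.reg.indicator ((Sp K B B' q H H \ Sp K B B' q H (H - 1)).indicator
      (dw (1 / 4) B'))) x0 ≤ ENNReal.ofReal (704 / q) *
    fib W0 (T.reg.indicator ((Sp K B B' q H (H - 1)).indicator (dw (1 / 4) B'))) x0 := by
  have hBn : B.Nonempty := hne.mono hsub
  have hq0 : 0 < q := by linarith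
  have hΘ : 0 < 1 / q := by positivity
  have hΘ1 : 1 / q ≤ 1 / 704 := one_div_le_one_div_of_le (by norm_num) hq
  have c0 : IsClosed (Sp K B B' q H H) := isClosed_Sp hK
  have cT : IsClosed (Sp K B B' q H (H - 1)) := isClosed_Sp hK
  have c1 : IsClosed (Sp K B B' q H (H - q)) := isClosed_Sp hK
  have hreg : RegW (1 / q) ((Sp K B B' q H H).indicator (dw (1 / 4) B'))
      ((Sp K B B' q H (H - 1)).indicator (dw (1 / 4) B'))
      ((Sp K B B' q H (H - q)).indicator (dw (1 / 4) B')) := by
    refine regW_ind hΘ (by linarith) hB' hne (by norm_num) (by norm_num) c0 ?_ cT.measurableSet c1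
      (Sp_mono (by linarith)) (Sp_mono (by linarith)) (R := R) (fun x hx => hKR hx.1) ?_
    · intro x hx y hy s t hs ht hst
      refine Sp_mix hKc hB hBc hBn hB' hBc' hne hs ht hst ?_ hx hy
      rw [← add_mul, hst, one_mul]
    · intro x hx y hy
      refine Sp_mix hKc hB hBc hBn hB' hBc' hne (by linarith) hΘ.le (by ring) ?_ hx hy
      have : 1 / q * q = 1 := by field_simp
      nlinarith
  have key := hreg.star_tree hΘ hΘ1 hV (Healthy.deep hK hne hsub T hT) x0
    (fat_label hK hne hsub hF hP (c := 1 / 2) (by norm_num) (by norm_num) (by norm_num) hroot)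
  unfold IneqF at key
  have hm := STree.measurableSet_reg T hV
  have hsplit : fib W0 (T.reg.indicator ((Sp K B B' q H H).indicator (dw (1 / 4) B'))) x0 =
      fib W0 (T.reg.indicator ((Sp K B B' q H (H - 1)).indicator (dw (1 / 4) B'))) x0 +
      fib W0 (T.reg.indicator ((Sp K B B' q H H \ Sp K B B' q H (H - 1)).indicator
        (dw (1 / 4) B'))) x0 := by
    rw [← fib_add (((continuous_dw _ B').measurable.indicator cT.measurableSet).indicator hm)]
    congr 1
    funext y
    by_cases hy : y ∈ T.reg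
    · rw [indicator_of_mem hy, indicator_of_mem hy, indicator_of_mem hy]
      by_cases h1 : y ∈ Sp K B B' q H (H - 1)
      · have h2 : y ∈ Sp K B B' q H H := Sp_mono (by linarith) h1
        rw [indicator_of_mem h2, indicator_of_mem h1, indicator_of_notMem (fun h => h.2 h1),
          add_zero]
      · by_cases h2 : y ∈ Sp K B B' q H H
        · rw [indicator_of_mem h2, indicator_of_notMem h1,
            indicator_of_mem (show y ∈ Sp K B B' q H H \ Sp K B B' q H (H - 1) from ⟨h2, h1⟩),
            zero_add]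
        · rw [indicator_of_notMem h2, indicator_of_notMem h1, indicator_of_notMem (fun h => h2 h.1),
            add_zero]
    · simp [indicator_of_notMem hy]
  set a := fib W0 (T.reg.indicator ((Sp K B B' q H (H - 1)).indicator (dw (1 / 4) B'))) x0 with ha
  have ha_top : a ≠ ⊤ := by
    obtain ⟨M, hM, hb⟩ := hreg.bdd
    refine ne_top_of_le_ne_top hM ((fib_mono (fun y => ?_) x0).trans_eq (fib_const W0 M x0))
    refine (indicator_le_self' (fun _ _ => bot_le) y).trans ?_
    exact (indicator_le_indicator_of_subset (Sp_mono (by linarith)) (fun _ => bot_le) y).trans (hb y)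
  rw [hsplit] at key
  have h704 : ENNReal.ofReal (704 * (1 / q)) = ENNReal.ofReal (704 / q) := by
    congr 1; ring
  rw [h704, add_assoc] at key
  have h2 := (ENNReal.add_le_add_iff_left ha_top).mp key
  exact le_trans le_self_add h2

/-- the constant of `cap_tip` -/
noncomputable def cTip : ℝ := 2 * Real.exp (12672 / 8)

/-- **The cap-weighted tip inequality (A3)** in the fibre of a label `x0` of `W0`. -/
theorem cap_tip {K B B' : Set E} (hK : IsClosed K) (hKc : Convex ℝ K) {R : ℝ}
    (hKR : K ⊆ Metric.closedBall 0 R) (hB : IsClosed B) (hBc : Convex ℝ B) (hB' : IsClosed B')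
    (hBc' : Convex ℝ B') (hne : B'.Nonempty) (hsub : B' ⊆ B)
    {T : STree E} {W0 : Submodule ℝ E} (hV : T.Valid W0) (hT : Healthy K B B' T) (x0 : E)
    {P C : Set E} (hF : FlatD (1 / 10) W0 B' P C) (hP : B ⊆ P)
    (hroot : ENNReal.ofReal (1 / 2) ≤ fib W0 (K.indicator 1) x0) :
    fib W0 (T.reg.indicator (K.indicator (dw (1 / 8) B'))) x0 ≤ ENNReal.ofReal cTip *
      fib W0 (T.reg.indicator (K.indicator (dw (1 / 8) B))) x0 := by
  have hBn : B.Nonempty := hne.mono hsub
  have hm := STree.measurableSet_reg T hV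
  set q : ℝ := 12672 with hq
  set γ := stdGaussian E with hγ
  set φ : E → E := fun z => Vale.Agent.P262.H395.mix W0 x0 z with hφ
  have hφm : Measurable φ := measurable_mix_right W0 x0
  set u : E → ℝ := fun z => Metric.infDist (φ z) B ^ 2 with hu
  set v : E → ℝ := fun z => Metric.infDist (φ z) B' ^ 2 with hv
  have hum : Measurable u := ((Metric.continuous_infDist_pt B).measurable.comp hφm).pow_const 2
  have hvm : Measurable v := ((Metric.continuous_infDist_pt B').measurable.comp hφm).pow_const 2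
  set g : E → ℝ≥0∞ := fun z => (T.reg ∩ K).indicator (1 : E → ℝ≥0∞) (φ z) with hg
  have hgm : Measurable g := (measurable_one.indicator (hm.inter hK.measurableSet)).comp hφm
  have key := shell_sum γ hum hvm (fun z => sq_nonneg _) (fun z => sq_nonneg _) hgm (q := q)
    (by norm_num) (k := ENNReal.ofReal (704 / q)) (fun m => by
      have h1 := shell hK hKc hKR hB hBc hB' hBc' hne hsub (q := q) (by norm_num) hV hT x0 hF hP
        hroot (m : ℝ)
      unfold fib at h1
      have e1 : ∀ z, g z * {x | (m : ℝ) - 1 < v x ∧ v x ≤ m ∧ u x ≤ m - q}.indicator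
          (fun x => ENNReal.ofReal (Real.exp (v x / 4))) z =
          T.reg.indicator ((Sp K B B' q m m \ Sp K B B' q m (m - 1)).indicator
            (dw (1 / 4) B')) (φ z) := by
        intro z
        by_cases hr : φ z ∈ T.reg
        · rw [indicator_of_mem hr]
          by_cases hk : φ z ∈ K
          · have hrk : φ z ∈ T.reg ∩ K := ⟨hr, hk⟩
            have hgz : g z = 1 := by simp only [hg]; rw [indicator_of_mem hrk]; rfl
            rw [hgz, one_mul]
            by_cases hz : (m : ℝ) - 1 < v z ∧ v z ≤ m ∧ u z ≤ m - q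
            · have hmem : φ z ∈ Sp K B B' q m m \ Sp K B B' q m (m - 1) :=
                ⟨⟨hk, hz.2.1, hz.2.2⟩, fun h => absurd h.2.1 (not_le.mpr hz.1)⟩
              rw [indicator_of_mem (show z ∈ {x | (m : ℝ) - 1 < v x ∧ v x ≤ m ∧ u x ≤ m - q} from hz),
                indicator_of_mem hmem]
              unfold dw
              congr 2
              simp only [hv]
              ring
            · have hmem : φ z ∉ Sp K B B' q m m \ Sp K B B' q m (m - 1) := by
                rintro ⟨h3, h4⟩
                apply hz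
                refine ⟨?_, h3.2.1, h3.2.2⟩
                by_contra hcon
                exact h4 ⟨hk, not_lt.mp hcon, h3.2.2⟩
              rw [indicator_of_notMem (show z ∉ {x | (m : ℝ) - 1 < v x ∧ v x ≤ m ∧ u x ≤ m - q} from hz),
                indicator_of_notMem hmem]
          · have hgz : g z = 0 := by
              simp only [hg]; rw [indicator_of_notMem (fun h => hk h.2)]
            rw [hgz, zero_mul, indicator_of_notMem (fun h => hk h.1.1)]
        · have hgz : g z = 0 := by
            simp only [hg]; rw [indicator_of_notMem (fun h => hr h.1)]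
          rw [hgz, zero_mul, indicator_of_notMem hr]
      have e2 : ∀ z, g z * {x | v x ≤ (m : ℝ) - 1 ∧ u x ≤ m - q}.indicator
          (fun x => ENNReal.ofReal (Real.exp (v x / 4))) z =
          T.reg.indicator ((Sp K B B' q m (m - 1)).indicator (dw (1 / 4) B')) (φ z) := by
        intro z
        by_cases hr : φ z ∈ T.reg
        · rw [indicator_of_mem hr]
          by_cases hk : φ z ∈ K
          · have hrk : φ z ∈ T.reg ∩ K := ⟨hr, hk⟩
            have hgz : g z = 1 := by simp only [hg]; rw [indicator_of_mem hrk]; rfl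
            rw [hgz, one_mul]
            by_cases hz : v z ≤ (m : ℝ) - 1 ∧ u z ≤ m - q
            · have hmem : φ z ∈ Sp K B B' q m (m - 1) := ⟨hk, hz.1, hz.2⟩
              rw [indicator_of_mem (show z ∈ {x | v x ≤ (m : ℝ) - 1 ∧ u x ≤ m - q} from hz),
                indicator_of_mem hmem]
              unfold dw
              congr 2
              simp only [hv]
              ring
            · have hmem : φ z ∉ Sp K B B' q m (m - 1) := fun h => hz ⟨h.2.1, h.2.2⟩
              rw [indicator_of_notMem (show z ∉ {x | v x ≤ (m : ℝ) - 1 ∧ u x ≤ m - q} from hz),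
                indicator_of_notMem hmem]
          · have hgz : g z = 0 := by
              simp only [hg]; rw [indicator_of_notMem (fun h => hk h.2)]
            rw [hgz, zero_mul, indicator_of_notMem (fun h => hk h.1)]
        · have hgz : g z = 0 := by
            simp only [hg]; rw [indicator_of_notMem (fun h => hr h.1)]
          rw [hgz, zero_mul, indicator_of_notMem hr]
      simp_rw [e1, e2]
      exact h1)
  -- the two sides
  set X : ℝ≥0∞ := ∫⁻ z, g z * ENNReal.ofReal (Real.exp (v z / 8)) ∂γ with hX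
  set Y : ℝ≥0∞ := ∫⁻ z, g z * ENNReal.ofReal (Real.exp (u z / 8)) ∂γ with hY
  have eX : fib W0 (T.reg.indicator (K.indicator (dw (1 / 8) B'))) x0 = X := by
    unfold fib
    refine lintegral_congr fun z => ?_
    by_cases hr : φ z ∈ T.reg ∩ K
    · have hgz : g z = 1 := by simp only [hg]; rw [indicator_of_mem hr]; rfl
      rw [hgz, one_mul, indicator_of_mem hr.1, indicator_of_mem hr.2]
      unfold dw
      congr 2
      simp only [hv, hφ]
      ring
    · have hgz : g z = 0 := by simp only [hg]; rw [indicator_of_notMem hr]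
      rw [hgz, zero_mul]
      by_cases h1 : φ z ∈ T.reg
      · rw [indicator_of_mem h1, indicator_of_notMem (fun h2 => hr ⟨h1, h2⟩)]
      · rw [indicator_of_notMem h1]
  have eY : fib W0 (T.reg.indicator (K.indicator (dw (1 / 8) B))) x0 = Y := by
    unfold fib
    refine lintegral_congr fun z => ?_
    by_cases hr : φ z ∈ T.reg ∩ K
    · have hgz : g z = 1 := by simp only [hg]; rw [indicator_of_mem hr]; rfl
      rw [hgz, one_mul, indicator_of_mem hr.1, indicator_of_mem hr.2]
      unfold dw
      congr 2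
      simp only [hu, hφ]
      ring
    · have hgz : g z = 0 := by simp only [hg]; rw [indicator_of_notMem hr]
      rw [hgz, zero_mul]
      by_cases h1 : φ z ∈ T.reg
      · rw [indicator_of_mem h1, indicator_of_notMem (fun h2 => hr ⟨h1, h2⟩)]
      · rw [indicator_of_notMem h1]
  have hXtop : X ≠ ⊤ := by
    rw [← eX]
    obtain ⟨M, hM, hb⟩ := dw_bdd (a := 1 / 8) (by norm_num) hne hKR
    refine ne_top_of_le_ne_top hM ((fib_mono (fun y => ?_) x0).trans_eq (fib_const W0 M x0))
    refine (indicator_le_self' (fun _ _ => bot_le) y).trans ?_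
    by_cases hy : y ∈ K
    · rw [indicator_of_mem hy]; exact hb y hy
    · rw [indicator_of_notMem hy]; exact bot_le
  have hm8 : Measurable fun z => ENNReal.ofReal (Real.exp (u z / 8)) :=
    ENNReal.measurable_ofReal.comp (Real.measurable_exp.comp (hum.div_const _))
  have hsplit : X ≤ ∫⁻ z, g z * {x | u x + q ≤ v x}.indicator
        (fun x => ENNReal.ofReal (Real.exp (v x / 8))) z ∂γ +
      ENNReal.ofReal (Real.exp (q / 8)) * Y := by
    have hg8 : Measurable fun z => g z * ENNReal.ofReal (Real.exp (u z / 8)) := hgm.mul hm8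
    rw [hY, ← lintegral_const_mul _ hg8, ← lintegral_add_right _ (hg8.const_mul _)]
    refine lintegral_mono fun z => ?_
    by_cases hz : u z + q ≤ v z
    · rw [indicator_of_mem (show z ∈ {x | u x + q ≤ v x} from hz)]
      exact le_self_add
    · rw [indicator_of_notMem (show z ∉ {x | u x + q ≤ v x} from hz), mul_zero, zero_add]
      calc g z * ENNReal.ofReal (Real.exp (v z / 8))
          ≤ g z * (ENNReal.ofReal (Real.exp (q / 8)) * ENNReal.ofReal (Real.exp (u z / 8))) := by
            gcongr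
            rw [ofReal_exp_mul]
            apply ENNReal.ofReal_le_ofReal
            apply Real.exp_le_exp.mpr
            push Not at hz
            linarith
        _ = _ := by ring
  have h12 : ENNReal.ofReal (704 / q) * (ENNReal.ofReal 9 * X) = ENNReal.ofReal (1 / 2) * X := by
    rw [← mul_assoc, ← ENNReal.ofReal_mul (by positivity)]
    congr 2
    rw [hq]; norm_num
  rw [h12] at key
  have hfin : X ≤ ENNReal.ofReal (1 / 2) * X + ENNReal.ofReal (Real.exp (q / 8)) * Y :=
    hsplit.trans (add_le_add key le_rfl)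
  have hhalf : ENNReal.ofReal (1 / 2) * X + ENNReal.ofReal (1 / 2) * X = X := by
    rw [← add_mul, ← ENNReal.ofReal_add (by norm_num) (by norm_num)]
    norm_num
  have h3 : ENNReal.ofReal (1 / 2) * X ≤ ENNReal.ofReal (Real.exp (q / 8)) * Y := by
    rw [← hhalf] at hfin
    have ht : ENNReal.ofReal (1 / 2) * X ≠ ⊤ := ENNReal.mul_ne_top ENNReal.ofReal_ne_top hXtop
    have h4 : ENNReal.ofReal (1 / 2) * X + ENNReal.ofReal (1 / 2) * X ≤
        ENNReal.ofReal (1 / 2) * X + ENNReal.ofReal (Real.exp (q / 8)) * Y := by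
      calc _ ≤ ENNReal.ofReal (1 / 2) * (ENNReal.ofReal (1 / 2) * X + ENNReal.ofReal (1 / 2) * X)
            + ENNReal.ofReal (Real.exp (q / 8)) * Y := hfin
        _ = _ := by rw [hhalf]
    exact (ENNReal.add_le_add_iff_left ht).mp h4
  rw [eX, eY]
  calc X = ENNReal.ofReal 2 * (ENNReal.ofReal (1 / 2) * X) := by
        rw [← mul_assoc, ← ENNReal.ofReal_mul (by norm_num)]; norm_num
    _ ≤ ENNReal.ofReal 2 * (ENNReal.ofReal (Real.exp (q / 8)) * Y) := by gcongr
    _ = ENNReal.ofReal cTip * Y := by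
        rw [← mul_assoc, ← ENNReal.ofReal_mul (by norm_num)]
        rfl

end Vale.Agent.P262.H606
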