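import Mathlib
import Vale.Agent.P262.H606.CapTip
import Vale.Agent.P262.H502.CapTip

/-!
# P262, scheme S1, M2: `cap_tip` with a second flat set (moments of a coordinate)

`S` is a closed convex set invariant under all the label spaces, for instance the slab
`{|⟪e, x⟫| ≤ h}` with `e` orthogonal to them. Then
`E[exp (a dist(x,B')² + c dist(x,S)²) 1_K] ≤ C E[exp (a dist(x,B)²) 1_K]` in the visible region.
-/

set_option linter.all false

open MeasureTheory Set Filter ProbabilityTheory
open scoped ENNReal NNReal Topology RealInnerProductSpace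

namespace Vale.Agent.P262.H606

open Vale.Agent.P262.H493 hiding fib
open Vale.Agent.P262.H395
open Vale.Agent.P262.H44
open Vale.Agent.P262.H502 (GG hh wt continuous_infSq convexOn_infSq shell_abs)

variable {E : Type*} [NormedAddCommGroup E] [InnerProductSpace ℝ E] [FiniteDimensional ℝ E]
  [MeasurableSpace E] [BorelSpace E]

/-- two distance weights -/
noncomputable def dw2 (a c : ℝ) (B S : Set E) (x : E) : ℝ≥0∞ :=
  ENNReal.ofReal (Real.exp (a * Metric.infDist x B ^ 2 + c * Metric.infDist x S ^ 2))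

omit [InnerProductSpace ℝ E] [FiniteDimensional ℝ E] [MeasurableSpace E] [BorelSpace E] in
lemma dw2_eq [InnerProductSpace ℝ E] (a c : ℝ) (B S : Set E) (x : E) :
    dw2 a c B S x = dw a B x * dw c S x := by
  unfold dw2 dw
  rw [ofReal_exp_mul]

lemma continuous_dw2 (a c : ℝ) (B S : Set E) : Continuous (dw2 a c B S) := by
  unfold dw2
  refine ENNReal.continuous_ofReal.comp ?_
  have h1 := Metric.continuous_infDist_pt B
  have h2 := Metric.continuous_infDist_pt S
  fun_prop

/-- the product of the two weights with the Gaussian density is log-concave -/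
lemma conc_aux2 {B S : Set E} (hB : IsClosed B) (hne : B.Nonempty) (hS : IsClosed S)
    (hSne : S.Nonempty) {a c : ℝ} (ha0 : 0 ≤ a) (ha : a ≤ 1 / 4) (hc0 : 0 ≤ c) (hc : c ≤ 1 / 4)
    (x y : E) {s t : ℝ} (hs : 0 ≤ s) (ht : 0 ≤ t) (hst : s + t = 1) :
    s * (-‖x‖ ^ 2 / 2 + (a * Metric.infDist x B ^ 2 + c * Metric.infDist x S ^ 2)) +
      t * (-‖y‖ ^ 2 / 2 + (a * Metric.infDist y B ^ 2 + c * Metric.infDist y S ^ 2)) ≤
      -‖s • x + t • y‖ ^ 2 / 2 + (a * Metric.infDist (s • x + t • y) B ^ 2 +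
        c * Metric.infDist (s • x + t • y) S ^ 2) := by
  have h1 := conc_aux hB hne (a := 2 * a) (by linarith) (by linarith) x y hs ht hst
  have h2 := conc_aux hS hSne (a := 2 * c) (by linarith) (by linarith) x y hs ht hst
  nlinarith [h1, h2]

lemma gd_dw2_lc {B S : Set E} (hB : IsClosed B) (hne : B.Nonempty) (hS : IsClosed S)
    (hSne : S.Nonempty) {a c : ℝ} (ha0 : 0 ≤ a) (ha : a ≤ 1 / 4) (hc0 : 0 ≤ c) (hc : c ≤ 1 / 4) :
    LogConc fun x => gd x * dw2 a c B S x := by
  intro x y s t hs ht hst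
  show (gd x * dw2 a c B S x) ^ s * (gd y * dw2 a c B S y) ^ t ≤
    gd (s • x + t • y) * dw2 a c B S (s • x + t • y)
  unfold gd dw2
  rw [ofReal_exp_mul, ofReal_exp_mul, ofReal_exp_mul, ofReal_exp_rpow, ofReal_exp_rpow,
    ofReal_exp_mul]
  apply ENNReal.ofReal_le_ofReal
  apply Real.exp_le_exp.mpr
  exact conc_aux2 hB hne hS hSne ha0 ha hc0 hc x y hs.le ht.le hst

/-- `S` is invariant under translations in `W` -/
def TInv (W : Submodule ℝ E) (S : Set E) : Prop := ∀ x, ∀ w ∈ W, (x + w ∈ S ↔ x ∈ S)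

lemma TInv.infDist_add {W : Submodule ℝ E} {S : Set E} (h : TInv W S) (x : E) {w : E}
    (hw : w ∈ W) : Metric.infDist (x + w) S = Metric.infDist x S := by
  have h1 : ∀ (x : E) {w : E}, w ∈ W → Metric.infDist (x + w) S ≤ Metric.infDist x S := by
    intro x w hw
    rcases S.eq_empty_or_nonempty with he | hne
    · rw [he, Metric.infDist_empty, Metric.infDist_empty]
    · rw [Metric.le_infDist hne]
      intro y hy
      refine (Metric.infDist_le_dist_of_mem ((h y w hw).mpr hy)).trans (le_of_eq ?_)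
      rw [dist_add_right]
  refine le_antisymm (h1 x hw) ?_
  have := h1 (x + w) (w := -w) (W.neg_mem hw)
  rwa [add_neg_cancel_right] at this

lemma TInv.infDist_mix {W : Submodule ℝ E} {S : Set E} (h : TInv W S) (x z : E) :
    Metric.infDist (Vale.Agent.P262.H395.mix W x z) S = Metric.infDist z S := by
  have e : Vale.Agent.P262.H395.mix W x z =
      z + (W.starProjection x - W.starProjection z) := by
    unfold Vale.Agent.P262.H395.mix
    abel
  rw [e]
  exact h.infDist_add z (W.sub_mem (Submodule.starProjection_apply_mem W x)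
    (Submodule.starProjection_apply_mem W z))

lemma TInv.mix_mem {W : Submodule ℝ E} {S : Set E} (h : TInv W S) (x z : E) :
    Vale.Agent.P262.H395.mix W x z ∈ S ↔ z ∈ S := by
  have e : Vale.Agent.P262.H395.mix W x z =
      z + (W.starProjection x - W.starProjection z) := by
    unfold Vale.Agent.P262.H395.mix
    abel
  rw [e]
  exact h z _ (W.sub_mem (Submodule.starProjection_apply_mem W x)
    (Submodule.starProjection_apply_mem W z))

namespace FlatD

variable {ε a c : ℝ} {W : Submodule ℝ E} {B P C S : Set E}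

/-- pointwise upper bound of the double weight in a fibre -/
lemma dw2_mix_le (h : FlatD ε W B P C) (hε : ε < 1) (hne : B.Nonempty) (hS : TInv W S)
    (ha0 : 0 ≤ a) (hc0 : 0 ≤ c) (hCS : (C ∩ S).Nonempty) (x z : E) :
    dw2 a c B S (Vale.Agent.P262.H395.mix W x z) ≤ dw a P x * dw (a + c) (C ∩ S) z := by
  unfold dw2 dw
  rw [ofReal_exp_mul]
  apply ENNReal.ofReal_le_ofReal
  apply Real.exp_le_exp.mpr
  rw [hS.infDist_mix]
  have h1 := h.dist_le hε hne x z
  have h2 : Metric.infDist z C ^ 2 ≤ Metric.infDist z (C ∩ S) ^ 2 :=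
    pow_le_pow_left₀ Metric.infDist_nonneg
      (Metric.infDist_le_infDist_of_subset inter_subset_left hCS) 2
  have h3 : Metric.infDist z S ^ 2 ≤ Metric.infDist z (C ∩ S) ^ 2 :=
    pow_le_pow_left₀ Metric.infDist_nonneg
      (Metric.infDist_le_infDist_of_subset inter_subset_right hCS) 2
  have h4 : a * Metric.infDist (Vale.Agent.P262.H395.mix W x z) B ^ 2 ≤
      a * (Metric.infDist x P ^ 2 + Metric.infDist z (C ∩ S) ^ 2) := by
    apply mul_le_mul_of_nonneg_left _ ha0
    linarith
  have h5 : c * Metric.infDist z S ^ 2 ≤ c * Metric.infDist z (C ∩ S) ^ 2 :=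
    mul_le_mul_of_nonneg_left h3 hc0
  linarith

lemma le_dw2_mix (h : FlatD ε W B P C) (hne : B.Nonempty) (ha0 : 0 ≤ a) (hc0 : 0 ≤ c) (x z : E) :
    dw a P x ≤ dw2 a c B S (Vale.Agent.P262.H395.mix W x z) := by
  rw [dw2_eq]
  calc dw a P x = dw a P x * 1 := (mul_one _).symm
    _ ≤ _ := mul_le_mul' (h.le_dw_mix hne ha0 x z) (one_le_dw hc0 _)

/-- mass of the intersection of the good sets -/
lemma gam_inter (h : FlatD ε W B P C) {η : ℝ} (hη : 0 ≤ η) (hSc : IsClosed S)
    (hg : ENNReal.ofReal (1 - η) ≤ stdGaussian E S) :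
    ENNReal.ofReal (1 - (ε + η)) ≤ stdGaussian E (C ∩ S) := by
  have h1 : stdGaussian E C ≤ stdGaussian E (C ∩ S) + stdGaussian E Sᶜ := by
    refine (measure_mono ?_).trans (measure_union_le _ _)
    intro z hz
    by_cases hs : z ∈ S
    · exact Or.inl ⟨hz, hs⟩
    · exact Or.inr hs
  have h2 : stdGaussian E Sᶜ ≤ ENNReal.ofReal η := by
    have h3 := measure_add_measure_compl (μ := stdGaussian E) hSc.measurableSet
    rw [measure_univ] at h3
    have h4 : stdGaussian E Sᶜ = 1 - stdGaussian E S := by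
      rw [← h3, ENNReal.add_sub_cancel_left (measure_ne_top _ _)]
    rw [h4, tsub_le_iff_right]
    calc (1 : ℝ≥0∞) ≤ ENNReal.ofReal (η + (1 - η)) := by simp
      _ ≤ ENNReal.ofReal η + ENNReal.ofReal (1 - η) := ENNReal.ofReal_add_le
      _ ≤ _ := by gcongr
  have h5 : ENNReal.ofReal (1 - ε) ≤ stdGaussian E (C ∩ S) + ENNReal.ofReal η :=
    h.gam.trans (h1.trans (by gcongr))
  have h6 := tsub_le_iff_right.mpr h5
  rw [← ENNReal.ofReal_sub _ hη] at h6
  refine le_trans (le_of_eq ?_) h6
  congr 1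
  ring

/-- upper bound of the double weight in a fibre -/
lemma fib_dw2_le (h : FlatD ε W B P C) (hne : B.Nonempty) (hS : TInv W S) {η : ℝ} (hη : 0 ≤ η)
    (hεη : ε + η < 1) (hSc : IsClosed S) (hg : ENNReal.ofReal (1 - η) ≤ stdGaussian E S)
    (ha0 : 0 ≤ a) (hc0 : 0 ≤ c) (hac : a + c ≤ 1 / 4) (x : E) :
    fib W (dw2 a c B S) x ≤ dw a P x * ENNReal.ofReal ((1 - (ε + η))⁻¹) := by
  have hg2 := h.gam_inter hη hSc hg
  have hCSm : MeasurableSet (C ∩ S) := (h.clC.inter hSc).measurableSet
  have hCS : (C ∩ S).Nonempty := by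
    by_contra hcon
    rw [not_nonempty_iff_eq_empty] at hcon
    rw [hcon, measure_empty, nonpos_iff_eq_zero, ENNReal.ofReal_eq_zero] at hg2
    linarith
  unfold fib
  calc ∫⁻ z, dw2 a c B S (Vale.Agent.P262.H395.mix W x z) ∂stdGaussian E
      ≤ ∫⁻ z, dw a P x * dw (a + c) (C ∩ S) z ∂stdGaussian E :=
        lintegral_mono fun z => h.dw2_mix_le (by linarith) hne hS ha0 hc0 hCS x z
    _ = dw a P x * ∫⁻ z, dw (a + c) (C ∩ S) z ∂stdGaussian E :=
        lintegral_const_mul _ (continuous_dw _ _).measurable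
    _ ≤ dw a P x * (stdGaussian E (C ∩ S))⁻¹ := by
        gcongr
        exact lintegral_dw_le hCSm (by linarith) hac
    _ ≤ _ := by
        gcongr
        rw [ENNReal.ofReal_inv_of_pos (by linarith)]
        exact ENNReal.inv_le_inv.mpr hg2

/-- health is inherited by the double good set -/
lemma fib_inter_le2 (h : FlatD ε W B P C) (hε0 : 0 ≤ ε) {η : ℝ} (hη : 0 ≤ η) (hεη : ε + η < 1)
    (hSc : IsClosed S)
    (hg : ENNReal.ofReal (1 - η) ≤ stdGaussian E S) {T T' : Set E} (hT : MeasurableSet T)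
    (hT' : MeasurableSet T') (x : E)
    (hsub : ∀ z ∈ C ∩ S, Vale.Agent.P262.H395.mix W x z ∈ T →
      Vale.Agent.P262.H395.mix W x z ∈ T') :
    fib W (T.indicator 1) x ≤ fib W (T'.indicator 1) x + ENNReal.ofReal (ε + η) := by
  have hg2 := h.gam_inter hη hSc hg
  have hCSc : IsClosed (C ∩ S) := h.clC.inter hSc
  have hCc : stdGaussian E (C ∩ S)ᶜ ≤ ENNReal.ofReal (ε + η) := by
    have h3 := measure_add_measure_compl (μ := stdGaussian E) hCSc.measurableSet
    rw [measure_univ] at h3
    have h4 : stdGaussian E (C ∩ S)ᶜ = 1 - stdGaussian E (C ∩ S) := by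
      rw [← h3, ENNReal.add_sub_cancel_left (measure_ne_top _ _)]
    rw [h4, tsub_le_iff_right]
    calc (1 : ℝ≥0∞) ≤ ENNReal.ofReal ((ε + η) + (1 - (ε + η))) := by simp
      _ ≤ ENNReal.ofReal (ε + η) + ENNReal.ofReal (1 - (ε + η)) := ENNReal.ofReal_add_le
      _ ≤ _ := by gcongr
  unfold fib
  calc ∫⁻ z, T.indicator 1 (Vale.Agent.P262.H395.mix W x z) ∂stdGaussian E
      ≤ ∫⁻ z, (T'.indicator 1 (Vale.Agent.P262.H395.mix W x z) + (C ∩ S)ᶜ.indicator 1 z)
          ∂stdGaussian E := by
        refine lintegral_mono fun z => ?_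
        by_cases hz : Vale.Agent.P262.H395.mix W x z ∈ T
        · rw [indicator_of_mem hz]
          by_cases hc : z ∈ C ∩ S
          · rw [indicator_of_mem (hsub z hc hz)]
            exact le_self_add
          · rw [indicator_of_mem (show z ∈ (C ∩ S)ᶜ from hc)]
            exact le_add_self
        · rw [indicator_of_notMem hz]
          exact bot_le
    _ = ∫⁻ z, T'.indicator 1 (Vale.Agent.P262.H395.mix W x z) ∂stdGaussian E +
          stdGaussian E (C ∩ S)ᶜ := by
        rw [lintegral_add_right _ (measurable_one.indicator hCSc.measurableSet.compl),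
          lintegral_indicator_one hCSc.measurableSet.compl]
    _ ≤ _ := by gcongr

end FlatD

/-- the exponents of the shell theorem -/
noncomputable def sE (a c : ℝ) (B' S : Set E) (x : E) : ℝ :=
  8 * a * Metric.infDist x B' ^ 2 + 8 * c * Metric.infDist x S ^ 2

noncomputable def bE (a c0 : ℝ) (B : Set E) (x : E) : ℝ := 8 * a * Metric.infDist x B ^ 2 + c0

lemma continuous_sE (a c : ℝ) (B' S : Set E) : Continuous (sE a c B' S) := by
  unfold sE
  have h1 := Metric.continuous_infDist_pt B'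
  have h2 := Metric.continuous_infDist_pt S
  fun_prop

lemma continuous_bE (a c0 : ℝ) (B : Set E) : Continuous (bE a c0 B) := by
  unfold bE
  have h1 := Metric.continuous_infDist_pt B
  fun_prop

lemma wt_sE (a c : ℝ) (B' S : Set E) (H : ℝ) (x : E) :
    wt (sE a c B' S) H x = ENNReal.ofReal (Real.exp (-H / 4)) * dw2 (2 * a) (2 * c) B' S x := by
  unfold wt sE dw2
  rw [ofReal_exp_mul]
  congr 2
  ring

/-- one label -/
lemma deep2 {W : Submodule ℝ E} {B B' P C S : Set E} {a c κ m : ℝ} (ha0 : 0 ≤ a) (hc0 : 0 ≤ c)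
    (hac : a + c ≤ 1 / 8) (h : FlatD (1 / 10) W B' P C) (hne : B'.Nonempty) (hBB : B' ⊆ B)
    (hP : B ⊆ P) (hS : TInv W S) (hSc : IsClosed S)
    (hg : ENNReal.ofReal (1 - 1 / 40) ≤ stdGaussian E S) {K : Set E} (hK : IsClosed K)
    {c0 : ℝ} (H : ℝ) (hκ0 : 0 ≤ κ) (hκ : κ * (7 / 8)⁻¹ + 1 / 8 ≤ m) (x : E)
    (hx : ENNReal.ofReal m ≤ fib W (K.indicator 1) x) :
    ENNReal.ofReal κ * fib W (hh K (sE a c B' S) (bE a c0 B) H 0) x ≤
      fib W (hh K (sE a c B' S) (bE a c0 B) H c0) x := by
  have hBne : B.Nonempty := hne.mono hBB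
  have hsc := continuous_sE (E := E) a c B' S
  have hbc := continuous_bE (E := E) a c0 B
  have hmono : ∀ y : E, Metric.infDist y B ^ 2 ≤ Metric.infDist y B' ^ 2 := fun y =>
    pow_le_pow_left₀ Metric.infDist_nonneg (Metric.infDist_le_infDist_of_subset hBB hne) 2
  have hlowP : ∀ z, Metric.infDist x P ^ 2 ≤
      Metric.infDist (Vale.Agent.P262.H395.mix W x z) B ^ 2 := by
    intro z
    refine pow_le_pow_left₀ Metric.infDist_nonneg ?_ 2
    rw [← Vale.Agent.P262.H606.infDist_mix h.cyl x z]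
    exact Metric.infDist_le_infDist_of_subset hP hBne
  by_cases hω : 8 * a * Metric.infDist x P ^ 2 ≤ H - c0
  · have hSm := (Vale.Agent.P262.H502.isClosed_Sp hK hsc hbc H c0).measurableSet
    set Q := Vale.Agent.P262.H502.Sp K (sE a c B' S) (bE a c0 B) H c0 with hQ
    have h1 : fib W (K.indicator 1) x ≤ fib W (Q.indicator 1) x + ENNReal.ofReal (1 / 8) := by
      have h1' := h.fib_inter_le2 (by norm_num) (η := 1 / 40) (by norm_num) (by norm_num) hSc hg
        hK.measurableSet hSm x (fun z hz hzK => by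
          have h2 : Metric.infDist (Vale.Agent.P262.H395.mix W x z) B' ^ 2 ≤
              Metric.infDist x P ^ 2 := h.dist_le_of_mem (by norm_num) hne x hz.1
          have h3 : Metric.infDist (Vale.Agent.P262.H395.mix W x z) S = 0 := by
            rw [hS.infDist_mix]
            exact Metric.infDist_zero_of_mem hz.2
          have h5 : 8 * a * Metric.infDist (Vale.Agent.P262.H395.mix W x z) B' ^ 2 ≤
              8 * a * Metric.infDist x P ^ 2 := mul_le_mul_of_nonneg_left h2 (by linarith)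
          have h6 : 8 * a * Metric.infDist (Vale.Agent.P262.H395.mix W x z) B ^ 2 ≤
              8 * a * Metric.infDist (Vale.Agent.P262.H395.mix W x z) B' ^ 2 :=
            mul_le_mul_of_nonneg_left (hmono _) (by linarith)
          refine ⟨hzK, ?_, ?_⟩
          · unfold sE
            rw [h3]
            simp only [ne_eq, OfNat.ofNat_ne_zero, not_false_eq_true, zero_pow, mul_zero, add_zero]
            linarith
          · unfold bE
            linarith)
      norm_num at h1' ⊢
      exact h1'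
    have hlow : ENNReal.ofReal (Real.exp (-H / 4)) *
        (dw (2 * a) P x * fib W (Q.indicator 1) x) ≤ fib W (hh K (sE a c B' S) (bE a c0 B) H c0) x := by
      have hm : Measurable fun z => Q.indicator (1 : E → ℝ≥0∞) (Vale.Agent.P262.H395.mix W x z) :=
        (measurable_one.indicator hSm).comp (measurable_mix_right W x)
      unfold fib
      rw [← lintegral_const_mul _ hm, ← lintegral_const_mul _ (hm.const_mul _)]
      refine lintegral_mono fun z => ?_
      unfold hh
      by_cases hz : Vale.Agent.P262.H395.mix W x z ∈ Q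
      · rw [indicator_of_mem hz, indicator_of_mem hz, wt_sE, Pi.one_apply, mul_one]
        gcongr
        exact h.le_dw2_mix hne (by linarith) (by linarith) x z
      · rw [indicator_of_notMem hz, mul_zero, mul_zero]
        exact bot_le
    have hup : fib W (hh K (sE a c B' S) (bE a c0 B) H 0) x ≤ ENNReal.ofReal (Real.exp (-H / 4)) *
        (dw (2 * a) P x * ENNReal.ofReal ((7 / 8)⁻¹)) := by
      have h2 := h.fib_dw2_le hne hS (η := 1 / 40) (by norm_num) (by norm_num) hSc hg
        (a := 2 * a) (c := 2 * c) (by linarith) (by linarith) (by linarith) x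
      norm_num at h2
      refine le_trans ?_ (mul_le_mul' le_rfl (h2.trans (by norm_num)))
      rw [← fib_mul (inv_const W _) (continuous_dw2 _ _ _ _).measurable]
      refine fib_mono (fun y => ?_) x
      unfold hh
      refine (indicator_le_self' (fun _ _ => bot_le) y).trans ?_
      rw [wt_sE]
    have hS' : ENNReal.ofReal (κ * (7 / 8)⁻¹) ≤ fib W (Q.indicator 1) x := by
      have h2 : ENNReal.ofReal (κ * (7 / 8)⁻¹) + ENNReal.ofReal (1 / 8) ≤
          fib W (Q.indicator 1) x + ENNReal.ofReal (1 / 8) := by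
        rw [← ENNReal.ofReal_add (by positivity) (by norm_num)]
        exact (ENNReal.ofReal_le_ofReal hκ).trans (hx.trans h1)
      exact (ENNReal.add_le_add_iff_right ENNReal.ofReal_ne_top).mp h2
    calc ENNReal.ofReal κ * fib W (hh K (sE a c B' S) (bE a c0 B) H 0) x
        ≤ ENNReal.ofReal κ * (ENNReal.ofReal (Real.exp (-H / 4)) *
          (dw (2 * a) P x * ENNReal.ofReal ((7 / 8)⁻¹))) := by gcongr
      _ = ENNReal.ofReal (Real.exp (-H / 4)) *
          (dw (2 * a) P x * ENNReal.ofReal (κ * (7 / 8)⁻¹)) := by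
          rw [ENNReal.ofReal_mul hκ0]; ring
      _ ≤ ENNReal.ofReal (Real.exp (-H / 4)) *
          (dw (2 * a) P x * fib W (Q.indicator 1) x) := by gcongr
      _ ≤ _ := hlow
  · have h0 : fib W (hh K (sE a c B' S) (bE a c0 B) H 0) x = 0 := by
      have h1 : ∀ z, hh K (sE a c B' S) (bE a c0 B) H 0 (Vale.Agent.P262.H395.mix W x z) = 0 := by
        intro z
        unfold hh
        rw [indicator_of_notMem]
        rintro ⟨_, _, h3⟩
        apply hω
        unfold bE at h3
        have h5 : 8 * a * Metric.infDist x P ^ 2 ≤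
            8 * a * Metric.infDist (Vale.Agent.P262.H395.mix W x z) B ^ 2 :=
          mul_le_mul_of_nonneg_left (hlowP z) (by linarith)
        linarith
      unfold fib
      simp [h1]
    rw [h0, mul_zero]
    exact bot_le

/-- all label spaces of the tree leave `S` invariant -/
def AllInv (S : Set E) : STree E → Prop
  | .leaf => True
  | .node W D cls sub => TInv W S ∧ ∀ n, AllInv S (sub n)

lemma Healthy.deep2 {K B B' S : Set E} {a c c0 : ℝ} (ha0 : 0 ≤ a) (hc0 : 0 ≤ c)
    (hac : a + c ≤ 1 / 8) (hK : IsClosed K) (hne : B'.Nonempty) (hsub : B' ⊆ B)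
    (hSc : IsClosed S) (hg : ENNReal.ofReal (1 - 1 / 40) ≤ stdGaussian E S) (H : ℝ) :
    ∀ (T : STree E), Healthy K B B' T → AllInv S T →
      T.Deep (hh K (sE a c B' S) (bE a c0 B) H 0) (hh K (sE a c B' S) (bE a c0 B) H c0) := by
  intro T
  induction T with
  | leaf => intro _ _; trivial
  | node W D cls sub ih =>
    rintro ⟨h1, ⟨P, C, hF, hP⟩, h3⟩ ⟨h4, h5⟩
    refine ⟨fun x hx => ?_, fun n => ih n (h3 n) (h5 n)⟩
    exact Vale.Agent.P262.H606.deep2 ha0 hc0 hac hF hne hsub hP h4 hSc hg hK H (by norm_num)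
      (by norm_num : (1 / 2 : ℝ) * (7 / 8)⁻¹ + 1 / 8 ≤ 4 / 5) x (h1 x hx)

/-- **The moment form of the cap-weighted tip inequality.** -/
theorem cap_tip2 {K B B' S : Set E} (hK : IsClosed K) (hKc : Convex ℝ K) {R : ℝ}
    (hKR : K ⊆ Metric.closedBall 0 R) (hB : IsClosed B) (hBc : Convex ℝ B) (hB' : IsClosed B')
    (hBc' : Convex ℝ B') (hne : B'.Nonempty) (hsub : B' ⊆ B) (hSc : IsClosed S)
    (hScv : Convex ℝ S) (hg : ENNReal.ofReal (1 - 1 / 40) ≤ stdGaussian E S)
    {a c : ℝ} (ha0 : 0 ≤ a) (hc0 : 0 ≤ c) (hac : a + c ≤ 1 / 8)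
    {T : STree E} {W0 : Submodule ℝ E} (hV : T.Valid W0) (hT : Healthy K B B' T)
    (hTS : AllInv S T) (x0 : E)
    {P C : Set E} (hF : FlatD (1 / 10) W0 B' P C) (hP : B ⊆ P) (hS0 : TInv W0 S)
    (hroot : ENNReal.ofReal (1 / 2) ≤ fib W0 (K.indicator 1) x0) :
    fib W0 (T.reg.indicator (K.indicator (dw2 a c B' S))) x0 ≤
      ENNReal.ofReal (2 * Real.exp (2 ^ 11)) *
        fib W0 (T.reg.indicator (K.indicator (dw a B))) x0 := by
  have hBne : B.Nonempty := hne.mono hsub
  have hSne : S.Nonempty := by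
    by_contra hcon
    rw [not_nonempty_iff_eq_empty] at hcon
    rw [hcon, measure_empty, nonpos_iff_eq_zero, ENNReal.ofReal_eq_zero] at hg
    norm_num at hg
  have hlc : LogConc fun x => GG x * ENNReal.ofReal (Real.exp (sE a c B' S x / 4)) := by
    have := gd_dw2_lc (E := E) hB' hne hSc hSne (a := 2 * a) (c := 2 * c) (by linarith)
      (by linarith) (by linarith) (by linarith)
    have e : (fun x => GG x * ENNReal.ofReal (Real.exp (sE a c B' S x / 4))) =
        fun x => gd x * dw2 (2 * a) (2 * c) B' S x := by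
      funext x
      unfold GG gd dw2 sE
      congr 3
      ring
    rw [e]
    exact this
  have hcv : ConvexOn ℝ univ (sE a c B' S) := by
    have h1 := (convexOn_infSq hB' hBc' hne).smul (by linarith : (0 : ℝ) ≤ 8 * a)
    have h2 := (convexOn_infSq hSc hScv hSne).smul (by linarith : (0 : ℝ) ≤ 8 * c)
    exact h1.add h2
  have hcb : ConvexOn ℝ univ (bE a (2 ^ 14) B) := by
    have h1 := (convexOn_infSq hB hBc hBne).smul (by linarith : (0 : ℝ) ≤ 8 * a)
    exact h1.add (convexOn_const (2 ^ 14) convex_univ)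
  have hbd : ∃ M : ℝ, ∀ x ∈ K, sE a c B' S x ≤ M := by
    obtain ⟨p, hp⟩ := hne
    obtain ⟨p', hp'⟩ := hSne
    refine ⟨8 * a * (R + ‖p‖) ^ 2 + 8 * c * (R + ‖p'‖) ^ 2, fun x hx => ?_⟩
    have hxR : ‖x‖ ≤ R := by simpa using hKR hx
    have h1 : Metric.infDist x B' ≤ R + ‖p‖ := by
      refine (Metric.infDist_le_dist_of_mem hp).trans ?_
      rw [dist_eq_norm]
      refine (norm_sub_le _ _).trans ?_
      linarith
    have h2 : Metric.infDist x S ≤ R + ‖p'‖ := by
      refine (Metric.infDist_le_dist_of_mem hp').trans ?_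
      rw [dist_eq_norm]
      refine (norm_sub_le _ _).trans ?_
      linarith
    have h3 := pow_le_pow_left₀ Metric.infDist_nonneg h1 2
    have h4 := pow_le_pow_left₀ Metric.infDist_nonneg h2 2
    unfold sE
    have h5 : 8 * a * Metric.infDist x B' ^ 2 ≤ 8 * a * (R + ‖p‖) ^ 2 :=
      mul_le_mul_of_nonneg_left h3 (by linarith)
    have h6 : 8 * c * Metric.infDist x S ^ 2 ≤ 8 * c * (R + ‖p'‖) ^ 2 :=
      mul_le_mul_of_nonneg_left h4 (by linarith)
    linarith
  have key := shell_abs (c0 := 2 ^ 14) le_rfl hK hKc (continuous_sE a c B' S) hcv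
    (continuous_bE a (2 ^ 14) B) hcb hlc hbd hV
    (fun H => Healthy.deep2 ha0 hc0 hac hK hne hsub hSc hg H T hT hTS) x0
    (fun H => deep2 ha0 hc0 hac hF hne hsub hP hS0 hSc hg hK H (by norm_num)
      (by norm_num : (1 / 4 : ℝ) * (7 / 8)⁻¹ + 1 / 8 ≤ 1 / 2) x0 hroot)
  have e1 : (fun x => ENNReal.ofReal (Real.exp (sE a c B' S x / 8))) = dw2 a c B' S := by
    funext x
    unfold dw2 sE
    congr 2
    ring
  have e2 : (fun x => ENNReal.ofReal (Real.exp (bE a (2 ^ 14) B x / 8))) =
      fun x => ENNReal.ofReal (Real.exp (2 ^ 11)) * dw a B x := by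
    funext x
    unfold dw bE
    rw [ofReal_exp_mul]
    congr 2
    ring
  have hTm := STree.measurableSet_reg T hV
  have e3 : fib W0 (T.reg.indicator (K.indicator fun x =>
      ENNReal.ofReal (Real.exp (2 ^ 11)) * dw a B x)) x0 =
      ENNReal.ofReal (Real.exp (2 ^ 11)) *
        fib W0 (T.reg.indicator (K.indicator (dw a B))) x0 := by
    rw [← fib_mul (inv_const W0 _) (((continuous_dw _ _).measurable.indicator
      hK.measurableSet).indicator hTm)]
    congr 1
    funext y
    by_cases h1 : y ∈ T.reg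
    · rw [indicator_of_mem h1, indicator_of_mem h1]
      by_cases h2 : y ∈ K
      · rw [indicator_of_mem h2, indicator_of_mem h2]
      · rw [indicator_of_notMem h2, indicator_of_notMem h2, mul_zero]
    · rw [indicator_of_notMem h1, indicator_of_notMem h1, mul_zero]
  rw [e1, e2, e3] at key
  refine key.trans (le_of_eq ?_)
  rw [ENNReal.ofReal_mul (by norm_num), mul_assoc]
  norm_num

end Vale.Agent.P262.H606
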