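import Vale.Agent.P262.H606.TipB
import Vale.Agent.P262.H59.Rim

/-!
# P262, scheme S1, M2: moments of a coordinate in the capped regions

`slab e h = {|⟪e, x⟫| ≤ h}`. For a unit vector `e` orthogonal to all label spaces
`E[exp (c ⟪e,x⟫² / 2) exp (a dist(x,B')²) 1_K] ≤ C E[exp (a dist(x,B)²) 1_K]` in the visible region.
-/

set_option linter.all false

open MeasureTheory Set Filter ProbabilityTheory
open scoped ENNReal NNReal Topology RealInnerProductSpace

namespace Vale.Agent.P262.H606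

open Vale.Agent.P262.H493 hiding fib
open Vale.Agent.P262.H395
open Vale.Agent.P262.H44

variable {E : Type*} [NormedAddCommGroup E] [InnerProductSpace ℝ E] [FiniteDimensional ℝ E]
  [MeasurableSpace E] [BorelSpace E]

/-- the slab orthogonal to `e` -/
def slab (e : E) (h : ℝ) : Set E := {x | |⟪e, x⟫| ≤ h}

omit [FiniteDimensional ℝ E] [MeasurableSpace E] [BorelSpace E] in
lemma isClosed_slab (e : E) (h : ℝ) : IsClosed (slab e h) := by
  have : Continuous fun x : E => |⟪e, x⟫| := by fun_prop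
  exact isClosed_le this continuous_const

omit [FiniteDimensional ℝ E] [MeasurableSpace E] [BorelSpace E] in
lemma convex_slab (e : E) (h : ℝ) : Convex ℝ (slab e h) := by
  intro x hx y hy s t hs ht hst
  show |⟪e, s • x + t • y⟫| ≤ h
  rw [inner_add_right, inner_smul_right, inner_smul_right]
  have h1 : |⟪e, x⟫| ≤ h := hx
  have h2 : |⟪e, y⟫| ≤ h := hy
  calc |s * ⟪e, x⟫ + t * ⟪e, y⟫| ≤ |s * ⟪e, x⟫| + |t * ⟪e, y⟫| := abs_add_le _ _
    _ = s * |⟪e, x⟫| + t * |⟪e, y⟫| := by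
        rw [abs_mul, abs_mul, abs_of_nonneg hs, abs_of_nonneg ht]
    _ ≤ s * h + t * h := by gcongr
    _ = h := by rw [← add_mul, hst, one_mul]

omit [FiniteDimensional ℝ E] [MeasurableSpace E] [BorelSpace E] in
lemma zero_mem_slab (e : E) {h : ℝ} (hh : 0 ≤ h) : (0 : E) ∈ slab e h := by
  show |⟪e, (0 : E)⟫| ≤ h
  simpa using hh

omit [FiniteDimensional ℝ E] [MeasurableSpace E] [BorelSpace E] in
lemma tinv_slab {e : E} {W : Submodule ℝ E} (he : e ∈ Wᗮ) (h : ℝ) : TInv W (slab e h) := by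
  intro x w hw
  have : ⟪e, x + w⟫ = ⟪e, x⟫ := by
    rw [inner_add_right, real_inner_comm w e, (Submodule.mem_orthogonal _ _).1 he w hw, add_zero]
  show |⟪e, x + w⟫| ≤ h ↔ |⟪e, x⟫| ≤ h
  rw [this]

lemma gam_slab {e : E} (he : ‖e‖ = 1) : ENNReal.ofReal (1 - 1 / 40) ≤ stdGaussian E (slab e 3) := by
  have hm : Measurable fun z : E => ⟪e, z⟫ := by fun_prop
  have hms : MeasurableSet {t : ℝ | |t| ≤ 3} := measurableSet_le measurable_norm measurable_const
  have e1 : stdGaussian E (slab e 3) = gaussianReal 0 1 {t : ℝ | |t| ≤ 3} := by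
    rw [← H59.map_inner_std he, Measure.map_apply hm hms]
    rfl
  have e2 : gaussianReal 0 1 {t : ℝ | |t| ≤ 3}ᶜ ≤ ENNReal.ofReal (1 / 40) := by
    refine (H59.tail_two (t := 3) (by norm_num) (S := {t : ℝ | |t| ≤ 3}ᶜ) (fun x hx => ?_)).trans ?_
    · have : ¬ |x| ≤ 3 := hx
      linarith
    · apply ENNReal.ofReal_le_ofReal
      have h1 : Real.exp (-(3 : ℝ) ^ 2 / 2) = (Real.exp (9 / 2))⁻¹ := by
        rw [← Real.exp_neg]; norm_num
      rw [h1]
      have h2 : (80 : ℝ) ≤ Real.exp (9 / 2) := by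
        have h3 : (2.7182818283 : ℝ) ≤ Real.exp 1 := Real.exp_one_gt_d9.le
        have h4 : Real.exp (9 / 2) = Real.exp 1 ^ 4 * Real.exp (1 / 2) := by
          rw [← Real.exp_nat_mul, ← Real.exp_add]; norm_num
        have h5 : (3 / 2 : ℝ) ≤ Real.exp (1 / 2) := by
          have := Real.add_one_le_exp (1 / 2 : ℝ); linarith
        have h6 : (2.7182818283 : ℝ) ^ 4 ≤ Real.exp 1 ^ 4 := pow_le_pow_left₀ (by norm_num) h3 4
        rw [h4]
        calc (80 : ℝ) ≤ 2.7182818283 ^ 4 * (3 / 2) := by norm_num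
          _ ≤ _ := mul_le_mul h6 h5 (by norm_num) (by positivity)
      rw [← div_eq_mul_inv, div_le_div_iff₀ (by positivity) (by norm_num)]
      linarith
  rw [e1]
  have h3 : gaussianReal 0 1 {t : ℝ | |t| ≤ 3} = 1 - gaussianReal 0 1 {t : ℝ | |t| ≤ 3}ᶜ := by
    rw [prob_compl_eq_one_sub hms, ENNReal.sub_sub_cancel ENNReal.one_ne_top prob_le_one]
  rw [h3, ENNReal.ofReal_sub _ (by norm_num), ENNReal.ofReal_one]
  exact tsub_le_tsub_left e2 1

omit [MeasurableSpace E] [BorelSpace E] [FiniteDimensional ℝ E] in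
/-- distance to a slab -/
lemma le_infDist_slab {e : E} (he : ‖e‖ = 1) {h : ℝ} (hh : 0 ≤ h) (x : E) :
    |⟪e, x⟫| - h ≤ Metric.infDist x (slab e h) := by
  rw [Metric.le_infDist ⟨0, zero_mem_slab e hh⟩]
  intro y hy
  have h1 : |⟪e, y⟫| ≤ h := hy
  have h2 : |⟪e, x - y⟫| ≤ ‖x - y‖ := by
    have := abs_real_inner_le_norm e (x - y)
    rwa [he, one_mul] at this
  have h3 : |⟪e, x⟫| ≤ |⟪e, x - y⟫| + |⟪e, y⟫| := by
    have : ⟪e, x⟫ = ⟪e, x - y⟫ + ⟪e, y⟫ := by rw [← inner_add_right]; simp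
    rw [this]
    exact abs_add_le _ _
  rw [dist_eq_norm]
  linarith

/-- exponential moments are dominated by the distance to the slab -/
lemma exp_inner_le {e : E} (he : ‖e‖ = 1) {c : ℝ} (hc : 0 ≤ c) (x : E) :
    ENNReal.ofReal (Real.exp (c / 2 * ⟪e, x⟫ ^ 2)) ≤
      ENNReal.ofReal (Real.exp (9 * c)) * dw c (slab e 3) x := by
  unfold dw
  rw [← ENNReal.ofReal_mul (Real.exp_pos _).le, ← Real.exp_add]
  apply ENNReal.ofReal_le_ofReal
  apply Real.exp_le_exp.mpr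
  have h1 := le_infDist_slab he (h := 3) (by norm_num) x
  have h2 : 0 ≤ Metric.infDist x (slab e 3) := Metric.infDist_nonneg
  have h3 : ⟪e, x⟫ ^ 2 = |⟪e, x⟫| ^ 2 := (sq_abs _).symm
  have h4 := abs_nonneg (⟪e, x⟫ : ℝ)
  have h5 : |⟪e, x⟫| ^ 2 / 2 ≤ 9 + Metric.infDist x (slab e 3) ^ 2 := by
    nlinarith [sq_nonneg (|⟪e, x⟫| - 6), sq_nonneg (Metric.infDist x (slab e 3) - 3),
      mul_self_nonneg (|⟪e, x⟫| - 2 * Metric.infDist x (slab e 3))]
  rw [h3]
  nlinarith [mul_le_mul_of_nonneg_left h5 hc]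

/-- **moment form of `cap_tip`** -/
theorem cap_tip_exp {K B B' : Set E} (hK : IsClosed K) (hKc : Convex ℝ K) {R : ℝ}
    (hKR : K ⊆ Metric.closedBall 0 R) (hB : IsClosed B) (hBc : Convex ℝ B)
    (hB' : IsClosed B') (hBc' : Convex ℝ B') (hne : B'.Nonempty) (hsub : B' ⊆ B)
    {e : E} (he : ‖e‖ = 1)
    {a c : ℝ} (ha0 : 0 ≤ a) (hc0 : 0 ≤ c) (hac : a + c ≤ 1 / 8)
    {T : STree E} {W0 : Submodule ℝ E} (hV : T.Valid W0) (hT : Healthy K B B' T)
    (hTS : AllInv (slab e 3) T) (x0 : E) {P C : Set E}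
    (hF : FlatD (1 / 10) W0 B' P C) (hP : B ⊆ P) (heW : e ∈ W0ᗮ)
    (hroot : ENNReal.ofReal (1 / 2) ≤ fib W0 (K.indicator 1) x0) :
    fib W0 (T.reg.indicator (K.indicator fun x =>
        ENNReal.ofReal (Real.exp (c / 2 * ⟪e, x⟫ ^ 2)) * dw a B' x)) x0 ≤
      ENNReal.ofReal (2 * Real.exp (2 ^ 11) * Real.exp (9 * c)) *
        fib W0 (T.reg.indicator (K.indicator (dw a B))) x0 := by
  have key := cap_tip2 hK hKc hKR hB hBc hB' hBc' hne hsub (isClosed_slab e 3) (convex_slab e 3)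
    (gam_slab he) ha0 hc0 hac hV hT hTS x0 hF hP (tinv_slab heW 3) hroot
  have hTm := STree.measurableSet_reg T hV
  have h1 : fib W0 (T.reg.indicator (K.indicator fun x =>
        ENNReal.ofReal (Real.exp (c / 2 * ⟪e, x⟫ ^ 2)) * dw a B' x)) x0 ≤
      ENNReal.ofReal (Real.exp (9 * c)) *
        fib W0 (T.reg.indicator (K.indicator (dw2 a c B' (slab e 3)))) x0 := by
    rw [← fib_mul (inv_const W0 _) (((continuous_dw2 _ _ _ _).measurable.indicator
      hK.measurableSet).indicator hTm)]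
    refine fib_mono (fun y => ?_) x0
    by_cases hy1 : y ∈ T.reg
    · rw [indicator_of_mem hy1, indicator_of_mem hy1]
      by_cases hy2 : y ∈ K
      · rw [indicator_of_mem hy2, indicator_of_mem hy2, dw2_eq]
        calc ENNReal.ofReal (Real.exp (c / 2 * ⟪e, y⟫ ^ 2)) * dw a B' y
            ≤ (ENNReal.ofReal (Real.exp (9 * c)) * dw c (slab e 3) y) * dw a B' y :=
              mul_le_mul' (exp_inner_le he hc0 y) le_rfl
          _ = _ := by ring
      · rw [indicator_of_notMem hy2, indicator_of_notMem hy2, mul_zero]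
    · rw [indicator_of_notMem hy1, indicator_of_notMem hy1, mul_zero]
  refine h1.trans ((mul_le_mul' le_rfl key).trans (le_of_eq ?_))
  rw [← mul_assoc, ← ENNReal.ofReal_mul (Real.exp_pos _).le]
  congr 2
  ring

/-- polynomial moments: `|⟪e, x⟫| ^ k ≤ C_k exp (c/2 ⟪e,x⟫²)` with `C_k = k! (2/c)^k + 1`-type
constants; only the first two are needed. -/
lemma sq_le_exp {c s : ℝ} (hc : 0 < c) : s ^ 2 ≤ 2 / c * Real.exp (c / 2 * s ^ 2) := by
  have h1 := Real.add_one_le_exp (c / 2 * s ^ 2)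
  have h2 : s ^ 2 = 2 / c * (c / 2 * s ^ 2) := by field_simp
  rw [h2]
  refine mul_le_mul_of_nonneg_left ?_ (by positivity)
  rw [← h2]
  linarith

lemma abs_le_exp {c s : ℝ} (hc : 0 < c) (hc1 : c ≤ 1) :
    |s| ≤ 2 / c * Real.exp (c / 2 * s ^ 2) := by
  have h1 := sq_le_exp (s := s) hc
  have h2 : 1 ≤ Real.exp (c / 2 * s ^ 2) := Real.one_le_exp (by positivity)
  have h3 : |s| ≤ 1 / 2 + s ^ 2 / 2 := by
    nlinarith [sq_nonneg (|s| - 1), sq_abs s]
  have h4 : 1 ≤ 2 / c := by rw [le_div_iff₀ hc]; linarith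
  have h5 : 1 ≤ 2 / c * Real.exp (c / 2 * s ^ 2) := by
    calc (1 : ℝ) = 1 * 1 := by ring
      _ ≤ _ := mul_le_mul h4 h2 zero_le_one (by positivity)
  linarith

end Vale.Agent.P262.H606
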